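import Mathlib

open MeasureTheory
open scoped ENNReal

namespace Vale.Agent.P249

universe u

/-- Every `n`-point subset of every real `L_p(μ)` has a map into `ℓ_p^d` of distortion `≤ D`. -/
def Embeds (p : ℝ≥0∞) [Fact (1 ≤ p)] (n : ℕ) (D : ℝ) (d : ℕ) : Prop :=
  ∀ (Ω : Type u) [MeasurableSpace Ω] (μ : Measure Ω) (X : Finset (Lp ℝ p μ)), X.card = n →
    ∃ (f : Lp ℝ p μ → PiLp p fun _ : Fin d => ℝ) (s : ℝ), 0 < s ∧ ∀ x ∈ X, ∀ y ∈ X,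
      s * ‖x - y‖ ≤ ‖f x - f y‖ ∧ ‖f x - f y‖ ≤ D * s * ‖x - y‖

/-- `d_p(n, D)`: the least dimension that works for all `n`-point sets. -/
noncomputable def dimP (p : ℝ≥0∞) [Fact (1 ≤ p)] (n : ℕ) (D : ℝ) : ℕ :=
  sInf {d | Embeds.{u} p n D d}

end Vale.Agent.P249
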