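import Vale.Agent.P249.Reduce
import Vale.Agent.P249.Defs

/-! Exact embeddings into dimension `n choose 2`. -/

open Finset Filter Topology MeasureTheory
open scoped ENNReal

namespace Vale.Agent.P249

universe u

lemma cone_step {P : Type*} [Fintype P] {S : Set (P → ℝ)}
    (hS : ∀ v ∈ S, ∀ c : ℝ, 0 ≤ c → c • v ∈ S) (v : Fin (Fintype.card P + 1) → P → ℝ)
    (hv : ∀ i, v i ∈ S) : ∃ w : Fin (Fintype.card P) → P → ℝ, (∀ i, w i ∈ S) ∧
      ∑ i, w i = ∑ i, v i := by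
  have hdep : ¬ LinearIndependent ℝ v := fun h => by
    simpa using h.fintype_card_le_finrank
  obtain ⟨g, hg, j, hj⟩ : ∃ g : Fin (Fintype.card P + 1) → ℝ, ∑ i, g i • v i = 0 ∧
      ∃ i, 0 < g i := by
    obtain ⟨g, hg, j, hj⟩ := Fintype.not_linearIndependent_iff.1 hdep
    rcases lt_or_gt_of_ne hj with h | h
    · exact ⟨-g, by simp [hg], j, by simpa using h⟩
    · exact ⟨g, hg, j, h⟩
  obtain ⟨i₀, hi₀⟩ := Finite.exists_max g
  have hM : 0 < g i₀ := hj.trans_le (hi₀ j)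
  refine ⟨fun i => (1 - g (i₀.succAbove i) / g i₀) • v (i₀.succAbove i), fun i =>
    hS _ (hv _) _ (sub_nonneg.2 ((div_le_one hM).2 (hi₀ _))), ?_⟩
  have h1 := Fin.sum_univ_succAbove (fun i => (1 - g i / g i₀) • v i) i₀
  rw [div_self hM.ne', sub_self, zero_smul, zero_add] at h1
  rw [← h1]
  simp only [sub_smul, one_smul, sum_sub_distrib, div_eq_inv_mul, mul_smul, ← smul_sum, hg,
    smul_zero, sub_zero]

lemma cone_red {P : Type*} [Fintype P] {S : Set (P → ℝ)} (h0 : (0 : P → ℝ) ∈ S)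
    (hS : ∀ v ∈ S, ∀ c : ℝ, 0 ≤ c → c • v ∈ S) {ι : Type*} (s : Finset ι) (v : ι → P → ℝ)
    (hv : ∀ i, v i ∈ S) : ∃ w : Fin (Fintype.card P) → P → ℝ, (∀ i, w i ∈ S) ∧
      ∑ i, w i = ∑ i ∈ s, v i := by
  classical
  induction s using Finset.induction_on with
  | empty => exact ⟨0, fun _ => h0, by simp⟩
  | insert a s ha ih =>
    obtain ⟨w, hw, hs⟩ := ih
    obtain ⟨w', hw', hs'⟩ := cone_step hS (Fin.cons (v a) w) (Fin.cases (hv a) hw)
    exact ⟨w', hw', by rw [hs', Fin.sum_cons, hs, sum_insert ha]⟩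

lemma ball_fin {q : ℝ} (hq : 0 < q) {Y ι : Type*} [Fintype Y] [Fintype ι] (F : Y → ι → ℝ)
    {n : ℕ} (hn : Fintype.card Y = n) : ∃ t : Fin (n.choose 2) → Y → ℝ, ∀ x y,
      ∑ k, |t k x - t k y| ^ q = ∑ i, |F x i - F y i| ^ q := by
  classical
  subst hn
  let Φ : (Y → ℝ) → {z : Sym2 Y // ¬ z.IsDiag} → ℝ := fun t z =>
    Sym2.lift ⟨fun a b => |t a - t b| ^ q, fun a b => by simp only [abs_sub_comm]⟩ z.1
  obtain ⟨w, hw, hs⟩ := cone_red (S := Set.range Φ) ⟨0, by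
      ext ⟨z, hz⟩
      induction z using Sym2.ind
      simp [Φ, Real.zero_rpow hq.ne']⟩
    (by
      rintro _ ⟨t, rfl⟩ c hc
      refine ⟨c ^ (1 / q) • t, ?_⟩
      ext ⟨z, hz⟩
      induction z using Sym2.ind
      simp only [Φ, Sym2.lift_mk, Pi.smul_apply, smul_eq_mul]
      rw [← mul_sub, abs_mul, abs_of_nonneg (by positivity),
        Real.mul_rpow (by positivity) (abs_nonneg _), rpow_inv_rpow hq hc])
    univ (fun i => Φ fun y => F y i) fun i => ⟨_, rfl⟩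
  choose t ht using hw
  rw [← Sym2.card_subtype_not_diag]
  refine ⟨t, fun x y => ?_⟩
  rcases eq_or_ne x y with rfl | hne
  · simp [Real.zero_rpow hq.ne']
  have := congrFun hs ⟨s(x, y), by simpa using hne⟩
  simpa [← ht, Φ] using this

lemma ball_lp {Ω : Type u} [MeasurableSpace Ω] {μ : Measure Ω} {p : ℝ≥0∞} [Fact (1 ≤ p)]
    (hp : p ≠ ∞) (X : Finset (Lp ℝ p μ)) :
    ∃ t : Fin (X.card.choose 2) → X → ℝ, ∀ x y : X,
      ∑ k, |t k x - t k y| ^ p.toReal = ‖x.1 - y.1‖ ^ p.toReal := by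
  classical
  have hp0 : p ≠ 0 := (zero_lt_one.trans_le (Fact.out : 1 ≤ p)).ne'
  have hq : 0 < p.toReal := ENNReal.toReal_pos hp0 hp
  rcases isEmpty_or_nonempty X with hX | ⟨⟨x₀⟩⟩
  · exact ⟨0, fun x => hX.elim x⟩
  choose φ hφ using fun k : ℕ => approx hp X (τ := 1 / ((k : ℝ) + 1)) (by positivity)
  let Ψ : (Fin (X.card.choose 2) → X → ℝ) → X × X → ℝ := fun t z =>
    ∑ k, |t k z.1 - t k z.2| ^ p.toReal
  have hΨ : Continuous Ψ := continuous_pi fun z => continuous_finset_sum _ fun k _ =>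
    Continuous.rpow_const (by fun_prop) fun _ => Or.inr hq.le
  obtain ⟨R, hR⟩ := Finite.exists_le fun x : X => 2 * ‖x.1 - x₀.1‖
  have hR0 : 0 ≤ R := le_trans (by positivity) (hR x₀)
  have hlim : Tendsto (fun (k : ℕ) (z : X × X) =>
      dist (φ k z.1 : Lp ℝ p μ) (φ k z.2) ^ p.toReal) atTop
      (𝓝 fun z => ‖z.1.1 - z.2.1‖ ^ p.toReal) := by
    refine tendsto_pi_nhds.2 fun z => Tendsto.rpow_const ?_ (Or.inr hq.le)
    rw [tendsto_iff_norm_sub_tendsto_zero]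
    refine squeeze_zero (fun _ => norm_nonneg _) (fun k => hφ k _ z.1.2 _ z.2.2) ?_
    simpa using tendsto_one_div_add_atTop_nhds_zero_nat.mul_const ‖z.1.1 - z.2.1‖
  obtain ⟨t, -, ht⟩ := ((isCompact_closedBall 0 R).image hΨ).isClosed.mem_of_tendsto hlim
    (Eventually.of_forall fun k => by
      obtain ⟨s, F, hF⟩ := simple_rep hp fun x : X => φ k x
      obtain ⟨t, ht⟩ := ball_fin hq F (Fintype.card_coe X)
      refine ⟨fun j x => t j x - t j x₀, ?_, funext fun z => by simp [Ψ, ht, hF]⟩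
      rw [mem_closedBall_zero_iff]
      refine (pi_norm_le_iff_of_nonneg hR0).2 fun j => (pi_norm_le_iff_of_nonneg hR0).2 fun x => ?_
      have h1 : |t j x - t j x₀| ^ p.toReal ≤ dist (φ k x : Lp ℝ p μ) (φ k x₀) ^ p.toReal := by
        rw [hF, ← ht]
        exact single_le_sum (f := fun j => |t j x - t j x₀| ^ p.toReal)
          (fun _ _ => by positivity) (mem_univ j)
      have h2 := (Real.rpow_le_rpow_iff (abs_nonneg _) dist_nonneg hq).1 h1
      have h3 := (abs_le.1 (hφ k _ x.2 _ x₀.2)).2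
      have h4 : 1 / ((k : ℝ) + 1) ≤ 1 := by
        rw [div_le_one (by positivity)]
        linarith [Nat.cast_nonneg (α := ℝ) k]
      rw [Real.norm_eq_abs]
      linarith [hR x, mul_le_mul_of_nonneg_right h4 (norm_nonneg (x.1 - x₀.1))])
  exact ⟨t, fun x y => congrFun ht (x, y)⟩

theorem embeds_choose (p : ℝ≥0∞) [Fact (1 ≤ p)] (hp : p ≠ ∞) (n : ℕ) {D : ℝ} (hD : 1 ≤ D) :
    Embeds.{u} p n D (n.choose 2) := by
  classical
  intro Ω _ μ X hX
  subst hX
  have hp0 : p ≠ 0 := (zero_lt_one.trans_le (Fact.out : 1 ≤ p)).ne'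
  have hq : 0 < p.toReal := ENNReal.toReal_pos hp0 hp
  obtain ⟨t, ht⟩ := ball_lp hp X
  refine ⟨fun x => if hx : x ∈ X then WithLp.toLp p (fun k => t k ⟨x, hx⟩) else 0, 1, one_pos,
    fun x hx y hy => ?_⟩
  simp only [dif_pos hx, dif_pos hy, PiLp.norm_eq_sum hq, PiLp.sub_apply, Real.norm_eq_abs]
  rw [ht, rpow_rpow_inv hq (norm_nonneg _)]
  exact ⟨by simp, by linarith [mul_le_mul_of_nonneg_right hD (norm_nonneg (x - y))]⟩

end Vale.Agent.P249
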