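import Vale.Agent.P249.Basic

/-! Band decompositions of multi-scale sums: estimates for real sequences. -/

open Finset Real

namespace Vale.Agent.P249

lemma down_ind {P : ℕ → Prop} {J : ℕ} (hJ : P J) (hs : ∀ j, j < J → P (j + 1) → P j) :
    ∀ j, j ≤ J → P j := fun _ hj =>
  Nat.decreasingInduction (motive := fun m _ => P m) (fun k hk h => hs k hk h) hJ hj

lemma log_sub_mul_le {s t : ℝ} (hs : 0 < s) (ht : 0 < t) : (log s - log t) * t ≤ s - t := by
  have := log_le_sub_one_of_pos (div_pos hs ht)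
  rw [log_div hs.ne' ht.ne'] at this
  have h2 : (s / t - 1) * t = s - t := by field_simp
  nlinarith

lemma abs_log_max {s t : ℝ} (hs : 0 < s) : |log s - log (max s t)| * s ≤ |s - t| := by
  rcases le_total t s with h | h
  · simp [max_eq_left h]
  · rw [max_eq_right h, abs_sub_comm, abs_of_nonneg (sub_nonneg.2 (log_le_log hs h)),
      abs_sub_comm, abs_of_nonneg (sub_nonneg.2 h)]
    exact log_sub_mul_le (by linarith) hs

lemma abs_log_sub_le {s t σ c : ℝ} (hs : 0 < s) (ht : 0 < t) (hσ : 0 ≤ σ)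
    (h1 : |s - t| * σ ≤ c * s) (h2 : |s - t| * σ ≤ c * t) : |log s - log t| * σ ≤ c := by
  wlog h : s ≤ t generalizing s t
  · rw [abs_sub_comm] at h1 h2 ⊢
    exact this ht hs h2 h1 (by linarith)
  have := abs_log_max (t := t) hs
  rw [max_eq_right h] at this
  refine le_of_mul_le_mul_right ?_ hs
  nlinarith [mul_le_mul_of_nonneg_right this hσ]

/-- Multi-scale data at two points at distance `r`. -/
structure Seq (σ r Λ : ℝ) (J : ℕ) (a a' b b' D D' u : ℕ → ℝ) : Prop where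
  hσ : 0 < σ
  hr : 0 ≤ r
  hΛ : 1 ≤ Λ
  a0 : ∀ j, 0 ≤ a j
  a0' : ∀ j, 0 ≤ a' j
  bJ : b J = 1
  bJ' : b' J = 1
  bs : ∀ j, j < J → b j = a j + b (j + 1)
  bs' : ∀ j, j < J → b' j = a' j + b' (j + 1)
  uJ : u J = 0
  us : ∀ j, j < J → u j = D j - D' j + u (j + 1)
  hD : ∀ j, |D j| ≤ σ * 2 ^ j * a j
  hD' : ∀ j, |D' j| ≤ σ * 2 ^ j * a' j
  dD : ∀ j, Λ * r ≤ σ * 2 ^ j → |D j - D' j| ≤ 3 * Λ * r * a j
  dD' : ∀ j, Λ * r ≤ σ * 2 ^ j → |D' j - D j| ≤ 3 * Λ * r * a' j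
  da : ∀ j, Λ * r ≤ σ * 2 ^ j → |a j - a' j| * (σ * 2 ^ j) ≤ 3 * Λ * r * a j
  da' : ∀ j, Λ * r ≤ σ * 2 ^ j → |a' j - a j| * (σ * 2 ^ j) ≤ 3 * Λ * r * a' j

namespace Seq

variable {σ r Λ : ℝ} {J : ℕ} {a a' b b' D D' u : ℕ → ℝ}

lemma symm (h : Seq σ r Λ J a a' b b' D D' u) : Seq σ r Λ J a' a b' b D' D (fun j => -u j) :=
  ⟨h.hσ, h.hr, h.hΛ, h.a0', h.a0, h.bJ', h.bJ, h.bs', h.bs, by simp [h.uJ],
    fun j hj => by rw [h.us j hj]; ring, h.hD', h.hD, h.dD', h.dD, h.da', h.da⟩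

lemma one_le (h : Seq σ r Λ J a a' b b' D D' u) : ∀ j, j ≤ J → 1 ≤ b j :=
  down_ind h.bJ.ge fun j hj ih => by linarith [h.bs j hj, h.a0 j]

lemma step (h : Seq σ r Λ J a a' b b' D D' u) {j : ℕ} (hj : j < J) : b (j + 1) ≤ b j := by
  linarith [h.bs j hj, h.a0 j]

lemma le_zero (h : Seq σ r Λ J a a' b b' D D' u) (j : ℕ) (hj : j ≤ J) : b j ≤ b 0 := by
  induction j with
  | zero => exact le_rfl
  | succ j ih => exact (h.step hj).trans (ih (by omega))

lemma hΛr (h : Seq σ r Λ J a a' b b' D D' u) : 0 ≤ Λ * r :=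
  mul_nonneg (by linarith [h.hΛ]) h.hr

lemma u_le (h : Seq σ r Λ J a a' b b' D D' u) :
    ∀ j, j ≤ J → |u j| ≤ 3 * Λ * r * (b j + b' j) := by
  have h0 := h.hΛr
  refine down_ind (by rw [h.uJ, h.bJ, h.bJ', abs_zero]; linarith) fun j hj ih => ?_
  have h1 : |D j - D' j| ≤ 3 * Λ * r * (a j + a' j) := by
    have := mul_nonneg h0 (h.a0 j)
    have := mul_nonneg h0 (h.a0' j)
    rcases le_total (Λ * r) (σ * 2 ^ j) with hc | hc
    · linarith [h.dD j hc]
    · linarith [abs_sub (D j) (D' j), h.hD j, h.hD' j, mul_le_mul_of_nonneg_right hc (h.a0 j),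
        mul_le_mul_of_nonneg_right hc (h.a0' j)]
  rw [h.us j hj, h.bs j hj, h.bs' j hj]
  linarith [abs_add_le (D j - D' j) (u (j + 1))]

lemma db_step (h : Seq σ r Λ J a a' b b' D D' u) {j : ℕ} (hj : j < J) :
    |b j - b' j| * (σ * 2 ^ j) ≤ |a j - a' j| * (σ * 2 ^ j) +
      |b (j + 1) - b' (j + 1)| * (σ * 2 ^ (j + 1)) / 2 := by
  have hσ := h.hσ
  rw [h.bs j hj, h.bs' j hj, add_sub_add_comm, pow_succ]
  linarith [mul_le_mul_of_nonneg_right (abs_add_le (a j - a' j) (b (j + 1) - b' (j + 1)))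
    (by positivity : 0 ≤ σ * 2 ^ j)]

lemma db (h : Seq σ r Λ J a a' b b' D D' u) :
    ∀ j, j ≤ J → Λ * r ≤ σ * 2 ^ j → |b j - b' j| * (σ * 2 ^ j) ≤ 3 * Λ * r * b j := by
  have h0 := h.hΛr
  have hσ := h.hσ
  refine down_ind (fun _ => by rw [h.bJ, h.bJ']; simp; linarith) fun j hj ih hc => ?_
  have h1 := ih (by rw [pow_succ]; linarith [(by positivity : 0 ≤ σ * 2 ^ j)])
  have h2 := h.db_step hj
  have h3 : 0 ≤ |b (j + 1) - b' (j + 1)| * (σ * 2 ^ (j + 1)) := by positivity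
  rw [h.bs j hj] at *
  linarith [h.da j hc]

lemma dlog (h : Seq σ r Λ J a a' b b' D D' u) {j : ℕ} (hj : j ≤ J) (hc : Λ * r ≤ σ * 2 ^ j) :
    |log (b j) - log (b' j)| * (σ * 2 ^ j) ≤ 3 * Λ * r := by
  have hσ := h.hσ
  refine abs_log_sub_le (by linarith [h.one_le j hj]) (by linarith [h.symm.one_le j hj])
    (by positivity) (h.db j hj hc) ?_
  rw [abs_sub_comm]
  exact h.symm.db j hj hc

lemma dbV (h : Seq σ r Λ J a a' b b' D D' u) {V : ℝ} {j₀ : ℕ} (hV0 : 0 ≤ V)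
    (hV : ∀ j, j₀ ≤ j → j < J → |a j - a' j| * (σ * 2 ^ j) ≤ V) :
    ∀ j, j ≤ J → j₀ ≤ j → |b j - b' j| * (σ * 2 ^ j) ≤ 2 * V := by
  refine down_ind (fun _ => by rw [h.bJ, h.bJ']; simp; linarith) fun j hj ih hc => ?_
  linarith [h.db_step hj, ih (by omega), hV j hc hj]

lemma lip (h : Seq σ r Λ J a a' b b' D D' u) {ψ : ℝ → ℝ} {m : ℝ} (hm : 0 ≤ m)
    (h0 : ∀ s, 0 ≤ ψ s) (h1 : ∀ s, ψ s ≤ 1) (hL : ∀ s t, |ψ s - ψ t| ≤ |log s - log t|)
    (hz : ∀ s, m ≤ s → ψ s = 0) :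
    |∑ j ∈ range J, D j * ψ (b j) - ∑ j ∈ range J, D' j * ψ (b' j)| ≤ 48 * Λ * r * m := by
  have hΛr := h.hΛr
  have hσ := h.hσ
  have aux : ∀ {a a' b b' D D' u : ℕ → ℝ}, Seq σ r Λ J a a' b b' D D' u → ∀ j, j < J →
      0 ≤ min (b j) (4 * m) - min (b (j + 1)) (4 * m) ∧
      (b j ≤ 4 * m → min (b j) (4 * m) - min (b (j + 1)) (4 * m) = a j) ∧
      (σ * 2 ^ j ≤ Λ * r →
        |D j * ψ (b j)| ≤ Λ * r * (min (b j) (4 * m) - min (b (j + 1)) (4 * m))) := by
    intro a a' b b' D D' u h j hj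
    have k1 : 0 ≤ min (b j) (4 * m) - min (b (j + 1)) (4 * m) :=
      sub_nonneg.2 (min_le_min_right _ (h.step hj))
    have k2 : b j ≤ 4 * m → min (b j) (4 * m) - min (b (j + 1)) (4 * m) = a j := fun hb => by
      rw [min_eq_left hb, min_eq_left ((h.step hj).trans hb), h.bs j hj]
      ring
    refine ⟨k1, k2, fun hc => ?_⟩
    rcases le_total m (b j) with hb | hb
    · rw [hz _ hb, mul_zero, abs_zero]
      exact mul_nonneg hΛr k1
    · rw [k2 (by linarith), abs_mul, abs_of_nonneg (h0 _)]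
      linarith [mul_le_of_le_one_right (abs_nonneg (D j)) (h1 (b j)), h.hD j,
        mul_le_mul_of_nonneg_right hc (h.a0 j)]
  have key : ∀ j ∈ range J, |D j * ψ (b j) - D' j * ψ (b' j)| ≤ 6 * Λ * r *
      ((min (b j) (4 * m) + min (b' j) (4 * m)) -
        (min (b (j + 1)) (4 * m) + min (b' (j + 1)) (4 * m))) := by
    intro j hj
    rw [mem_range] at hj
    obtain ⟨k1, k2, k3⟩ := aux h j hj
    obtain ⟨k1', -, k3'⟩ := aux h.symm j hj
    have m1 := mul_nonneg hΛr k1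
    have m1' := mul_nonneg hΛr k1'
    rcases le_total (σ * 2 ^ j) (Λ * r) with hc | hc
    · linarith [abs_sub (D j * ψ (b j)) (D' j * ψ (b' j)), k3 hc, k3' hc]
    by_cases hb : m ≤ b j ∧ m ≤ b' j
    · rw [hz _ hb.1, hz _ hb.2]
      simp only [mul_zero, sub_self, abs_zero]
      linarith
    have hb4 : b j ≤ 4 * m := by
      rcases le_total m (b j) with hb1 | hb1
      · have hb2 : b' j < m := lt_of_not_ge fun hb2 => hb ⟨hb1, hb2⟩
        have e1 := h.symm.db j hj.le hc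
        have e2 : 0 ≤ b' j := by linarith [h.symm.one_le j hj.le]
        have e3 : |b' j - b j| * (σ * 2 ^ j) ≤ (3 * b' j) * (σ * 2 ^ j) := by
          linarith [mul_le_mul_of_nonneg_right hc e2]
        have e4 := le_of_mul_le_mul_right e3 (by positivity)
        linarith [neg_abs_le (b' j - b j)]
      · linarith
    have e1 : |D j * ψ (b j) - D' j * ψ (b' j)| ≤
        |D j| * |ψ (b j) - ψ (b' j)| + |D j - D' j| * ψ (b' j) := by
      rw [show D j * ψ (b j) - D' j * ψ (b' j) =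
        D j * (ψ (b j) - ψ (b' j)) + (D j - D' j) * ψ (b' j) by ring]
      refine (abs_add_le _ _).trans (le_of_eq ?_)
      rw [abs_mul, abs_mul, abs_of_nonneg (h0 _)]
    have e2 := mul_le_mul (h.hD j) (hL (b j) (b' j)) (abs_nonneg _)
      (mul_nonneg (by positivity) (h.a0 j))
    have e3 := mul_le_mul_of_nonneg_right (h.dlog hj.le hc) (h.a0 j)
    have e4 := mul_le_of_le_one_right (abs_nonneg (D j - D' j)) (h1 (b' j))
    have e5 := h.dD j hc
    rw [← k2 hb4] at e2 e3 e5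
    linarith
  rw [← sum_sub_distrib]
  refine (abs_sum_le_sum_abs _ _).trans ((sum_le_sum key).trans ?_)
  rw [← mul_sum, sum_range_sub' (fun j => min (b j) (4 * m) + min (b' j) (4 * m)), h.bJ, h.bJ']
  have : min (b 0) (4 * m) + min (b' 0) (4 * m) - (min 1 (4 * m) + min 1 (4 * m)) ≤ 8 * m := by
    have : 0 ≤ min 1 (4 * m) := le_min zero_le_one (by linarith)
    linarith [min_le_right (b 0) (4 * m), min_le_right (b' 0) (4 * m)]
  linarith [mul_le_mul_of_nonneg_left this hΛr]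

variable {ψ : ℝ → ℝ} {W L V U c₀ : ℝ} {j₀ : ℕ} {c : ℕ → ℝ}

lemma part2_term (h : Seq σ r Λ J a a' b b' D D' u) (hW : 1 ≤ W) (hL : 1 ≤ L) (hV0 : 0 ≤ V)
    (h2 : ∀ s t, |ψ s - ψ t| ≤ 2) (hψ : ∀ s t, |ψ s - ψ t| ≤ 2 / W * |log s - log t|)
    (hV : ∀ j, j₀ ≤ j → j < J → |a j - a' j| * (σ * 2 ^ j) ≤ V) (hc₀ : b 0 ≤ c₀)
    (hc1 : ∀ j, j < j₀ → c j = c₀) (hc2 : ∀ j, j₀ ≤ j → c j = max (b j) (b' j))
    {j : ℕ} (hj : j < J) :
    |D j| * |ψ (b j) - ψ (c j)| ≤
      (if j < j₀ then σ * 2 ^ j * (2 * log (1 + L) / W * a j + 2 * (c₀ / L)) else 0) +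
        (8 * V / W + 12 * Λ * r * (c₀ / L)) *
          (log (b j + c₀ / L) - log (b (j + 1) + c₀ / L)) := by
  have hΛr := h.hΛr
  have hσ := h.hσ
  have hσj : 0 < σ * 2 ^ j := by positivity
  have hb1 := h.one_le j hj.le
  have hb2 := h.one_le (j + 1) hj
  have hb0 : b j ≤ c₀ := (h.le_zero j hj.le).trans hc₀
  have ha := h.a0 j
  have hab : a j ≤ b j := by linarith [h.bs j hj]
  have ht : 0 < c₀ / L := div_pos (by linarith) (by linarith)
  set t := c₀ / L with htd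
  have hlog : a j ≤ (log (b j + t) - log (b (j + 1) + t)) * (b j + t) := by
    linarith [log_sub_mul_le (s := b (j + 1) + t) (t := b j + t) (by linarith) (by linarith),
      h.bs j hj]
  set δ := log (b j + t) - log (b (j + 1) + t) with hδ
  have hδ0 : 0 ≤ δ := sub_nonneg.2 (log_le_log (by linarith) (by linarith [h.step hj]))
  have hLg : 0 ≤ log (1 + L) := log_nonneg (by linarith)
  have hVW : 0 ≤ 8 * V / W := by positivity
  have hΛt : 0 ≤ 12 * Λ * r * t := by linarith [mul_nonneg hΛr ht.le]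
  have hDψ : ∀ {y : ℝ}, |ψ (b j) - ψ (c j)| ≤ y → |D j| * |ψ (b j) - ψ (c j)| ≤
      σ * 2 ^ j * a j * y := fun hy =>
    mul_le_mul (h.hD j) hy (abs_nonneg _) (by positivity)
  split_ifs with hjj
  · refine le_trans ?_ (le_add_of_nonneg_right (mul_nonneg (by linarith) hδ0))
    rw [hc1 j hjj] at hDψ ⊢
    rcases le_total t (b j) with hb | hb
    · have e1 : |log (b j) - log c₀| ≤ log (1 + L) := by
        rw [abs_sub_comm, abs_of_nonneg (sub_nonneg.2 (log_le_log (by linarith) hb0)),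
          sub_le_iff_le_add, ← log_mul (by linarith) (by linarith)]
        refine log_le_log (by linarith) ?_
        rw [htd, div_le_iff₀ (by linarith)] at hb
        linarith
      refine (hDψ ((hψ _ _).trans (mul_le_mul_of_nonneg_left e1 (by positivity)))).trans ?_
      rw [mul_assoc]
      refine mul_le_mul_of_nonneg_left ?_ hσj.le
      have : a j * (2 / W * log (1 + L)) = 2 * log (1 + L) / W * a j := by ring
      linarith
    · refine (hDψ (h2 _ _)).trans ?_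
      rw [mul_assoc]
      refine mul_le_mul_of_nonneg_left ?_ hσj.le
      have : 0 ≤ 2 * log (1 + L) / W * a j := by positivity
      linarith
  push Not at hjj
  rw [zero_add, hc2 j hjj]
  rw [hc2 j hjj] at hDψ
  have hmax := abs_log_max (t := b' j) (by linarith : 0 < b j)
  set y := |log (b j) - log (max (b j) (b' j))| with hy
  have hy0 : 0 ≤ y := abs_nonneg _
  rcases le_total t (b j) with hb | hb
  · refine (hDψ (hψ _ _)).trans (le_trans ?_
      (mul_le_mul_of_nonneg_right (le_add_of_nonneg_right hΛt) hδ0))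
    have e1 := h.dbV hV0 hV j hj.le hjj
    have e2 : σ * 2 ^ j * y * b j ≤ 2 * V := by
      linarith [mul_le_mul_of_nonneg_right hmax hσj.le]
    have e3 : a j ≤ 2 * δ * b j := by linarith [mul_le_mul_of_nonneg_left hb hδ0]
    have e4 : σ * 2 ^ j * y * a j ≤ 4 * V * δ := by
      linarith [mul_le_mul_of_nonneg_left e3 (mul_nonneg hσj.le hy0),
        mul_le_mul_of_nonneg_left e2 hδ0]
    calc σ * 2 ^ j * a j * (2 / W * y) = 2 / W * (σ * 2 ^ j * y * a j) := by ring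
      _ ≤ 2 / W * (4 * V * δ) := mul_le_mul_of_nonneg_left e4 (by positivity)
      _ = _ := by ring
  · refine le_trans ?_ (mul_le_mul_of_nonneg_right (le_add_of_nonneg_left hVW) hδ0)
    have e3 : a j ≤ 2 * δ * t := by linarith [mul_le_mul_of_nonneg_left hb hδ0]
    have e4 : |D j| * |ψ (b j) - ψ (max (b j) (b' j))| ≤ 6 * (Λ * r) * a j := by
      rcases le_total (σ * 2 ^ j) (Λ * r) with hc | hc
      · linarith [hDψ (h2 _ _), mul_le_mul_of_nonneg_right hc ha, mul_nonneg hΛr ha]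
      · have f1 : 2 / W * y ≤ 2 * y :=
          mul_le_mul_of_nonneg_right (div_le_self zero_le_two hW) hy0
        have f2 : y * (σ * 2 ^ j) ≤ 3 * Λ * r := by
          refine le_of_mul_le_mul_right ?_ (by linarith : 0 < b j)
          linarith [mul_le_mul_of_nonneg_right hmax hσj.le, h.db j hj.le hc]
        linarith [hDψ ((hψ _ _).trans f1), mul_le_mul_of_nonneg_right f2 ha]
    linarith [mul_le_mul_of_nonneg_left e3 hΛr]

lemma part2 (h : Seq σ r Λ J a a' b b' D D' u) (hW : 1 ≤ W) (hL : 1 ≤ L) (hV0 : 0 ≤ V)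
    (h2 : ∀ s t, |ψ s - ψ t| ≤ 2) (hψ : ∀ s t, |ψ s - ψ t| ≤ 2 / W * |log s - log t|)
    (hV : ∀ j, j₀ ≤ j → j < J → |a j - a' j| * (σ * 2 ^ j) ≤ V) (hc₀ : b 0 ≤ c₀)
    (hc1 : ∀ j, j < j₀ → c j = c₀) (hc2 : ∀ j, j₀ ≤ j → c j = max (b j) (b' j))
    (hj₀ : j₀ ≤ J) (hs : ∑ j ∈ range j₀, σ * 2 ^ j ≤ 2 * r) :
    ∑ j ∈ range J, |D j| * |ψ (b j) - ψ (c j)| ≤
      2 * log (1 + L) / W * (4 * V + ∑ j ∈ range j₀, σ * 2 ^ j * a j) +
        (4 + 12 * log (1 + L)) * (Λ * r * (c₀ / L)) := by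
  refine (sum_le_sum fun j hj =>
    h.part2_term hW hL hV0 h2 hψ hV hc₀ hc1 hc2 (mem_range.1 hj)).trans ?_
  have hb1 := h.one_le 0 (Nat.zero_le _)
  have ht : 0 < c₀ / L := div_pos (by linarith) (by linarith)
  have hΛr := h.hΛr
  rw [sum_add_distrib, ← mul_sum, sum_range_sub' (fun j => log (b j + c₀ / L)), ← sum_filter,
    show filter (fun j => j < j₀) (range J) = range j₀ by
      ext j; simp only [mem_filter, mem_range]; omega]
  have e1 : log (b 0 + c₀ / L) - log (b J + c₀ / L) ≤ log (1 + L) := by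
    rw [sub_le_iff_le_add, ← log_mul (by linarith) (by rw [h.bJ]; linarith), h.bJ]
    refine log_le_log (by linarith) ?_
    have : L * (c₀ / L) = c₀ := by field_simp
    linarith
  have e2 : ∑ j ∈ range j₀, σ * 2 ^ j * (2 * log (1 + L) / W * a j + 2 * (c₀ / L)) =
      2 * log (1 + L) / W * ∑ j ∈ range j₀, σ * 2 ^ j * a j +
        2 * (c₀ / L) * ∑ j ∈ range j₀, σ * 2 ^ j := by
    rw [mul_sum, mul_sum, ← sum_add_distrib]
    exact sum_congr rfl fun j _ => by ring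
  have e3 := mul_le_mul_of_nonneg_left e1
    (show 0 ≤ 8 * V / W + 12 * Λ * r * (c₀ / L) by
      have : 0 ≤ 8 * V / W := by positivity
      linarith [mul_nonneg hΛr ht.le])
  have e4 := mul_le_mul_of_nonneg_left hs ht.le
  have e5 := mul_le_mul_of_nonneg_right h.hΛ (mul_nonneg h.hr ht.le)
  rw [e2]
  have e6 : 8 * V / W * log (1 + L) = 2 * log (1 + L) / W * (4 * V) := by ring
  linarith

lemma part1 (h : Seq σ r Λ J a a' b b' D D' u) (hW : 1 ≤ W) (hL : 1 ≤ L) (hU0 : 0 ≤ U)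
    (h2 : ∀ s t, |ψ s - ψ t| ≤ 2) (hψ : ∀ s t, |ψ s - ψ t| ≤ 2 / W * |log s - log t|)
    (hU : ∀ j, j₀ ≤ j → j < J → |u j| ≤ U) (hc₀ : c₀ = max (b 0) (b' 0))
    (hc1 : ∀ j, j < j₀ → c j = c₀) (hc2 : ∀ j, j₀ ≤ j → c j = max (b j) (b' j)) :
    ∑ j ∈ range J, |u (j + 1)| * |ψ (c (j + 1)) - ψ (c j)| ≤
      2 * log (1 + L) / W * U + 24 * (Λ * r * (c₀ / L)) := by
  have hΛr := h.hΛr
  have hc01 : 1 ≤ c₀ := by rw [hc₀]; exact le_max_of_le_left (h.one_le 0 (Nat.zero_le _))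
  have ht : 0 < c₀ / L := div_pos (by linarith) (by linarith)
  have htc : c₀ / L ≤ c₀ := div_le_self (by linarith) hL
  set t := c₀ / L with htd
  have hUW : 0 ≤ 2 / W * U := by positivity
  have key : ∀ j ∈ range J, |u (j + 1)| * |ψ (c (j + 1)) - ψ (c j)| ≤
      (2 / W * U * log (max (c j) t) + 12 * (Λ * r) * min (c j) (2 * t)) -
      (2 / W * U * log (max (c (j + 1)) t) + 12 * (Λ * r) * min (c (j + 1)) (2 * t)) := by
    intro j hj
    rw [mem_range] at hj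
    rcases lt_or_ge (j + 1) j₀ with hjj | hjj
    · rw [hc1 _ hjj, hc1 j (by omega)]
      simp
    have e1 : 1 ≤ c (j + 1) := by rw [hc2 _ hjj]; exact le_max_of_le_left (h.one_le _ hj)
    have e2 : c (j + 1) ≤ c j := by
      rw [hc2 _ hjj]
      rcases lt_or_ge j j₀ with h3 | h3
      · rw [hc1 j h3, hc₀]
        exact max_le_max (h.le_zero _ hj) (h.symm.le_zero _ hj)
      · rw [hc2 j h3]
        exact max_le_max (h.step hj) (h.symm.step hj)
    have e3 : |u (j + 1)| ≤ U := by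
      rcases Nat.lt_or_ge (j + 1) J with h3 | h3
      · exact hU _ hjj h3
      · rw [show j + 1 = J by omega, h.uJ, abs_zero]; exact hU0
    have e4 : |u (j + 1)| ≤ 6 * (Λ * r) * c (j + 1) := by
      have := h.u_le (j + 1) hj
      rw [hc2 _ hjj]
      linarith [mul_le_mul_of_nonneg_left (le_max_left (b (j + 1)) (b' (j + 1))) hΛr,
        mul_le_mul_of_nonneg_left (le_max_right (b (j + 1)) (b' (j + 1))) hΛr]
    have e5 : |log (c (j + 1)) - log (c j)| = log (c j) - log (c (j + 1)) := by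
      rw [abs_sub_comm, abs_of_nonneg (sub_nonneg.2 (log_le_log (by linarith) e2))]
    have e6 := hψ (c (j + 1)) (c j)
    rw [e5] at e6
    rcases le_total t (c (j + 1)) with h3 | h3
    · rw [max_eq_left h3, max_eq_left (h3.trans e2)]
      linarith [mul_le_mul e3 e6 (abs_nonneg _) hU0,
        mul_le_mul_of_nonneg_left (min_le_min_right (2 * t) e2) hΛr]
    · have f1 := mul_le_mul_of_nonneg_left
        (log_le_log (lt_max_of_lt_right ht) (max_le_max_right t e2)) hUW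
      have f2 : |ψ (c (j + 1)) - ψ (c j)| * c (j + 1) ≤
          2 * (min (c j) (2 * t) - c (j + 1)) := by
        rcases le_total (c j) (2 * t) with h4 | h4
        · rw [min_eq_left h4]
          have g1 : 2 / W * (log (c j) - log (c (j + 1))) ≤ 2 * (log (c j) - log (c (j + 1))) :=
            mul_le_mul_of_nonneg_right (div_le_self zero_le_two hW) (e5 ▸ abs_nonneg _)
          linarith [mul_le_mul_of_nonneg_right (e6.trans g1) (by linarith : 0 ≤ c (j + 1)),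
            log_sub_mul_le (s := c j) (t := c (j + 1)) (by linarith) (by linarith)]
        · rw [min_eq_right h4]
          linarith [mul_le_mul_of_nonneg_right (h2 (c (j + 1)) (c j))
            (by linarith : 0 ≤ c (j + 1))]
      rw [min_eq_left (by linarith : c (j + 1) ≤ 2 * t)]
      linarith [mul_le_mul_of_nonneg_right e4 (abs_nonneg (ψ (c (j + 1)) - ψ (c j))),
        mul_le_mul_of_nonneg_left f2 hΛr]
  refine (sum_le_sum key).trans ?_
  rw [sum_range_sub' (fun j => 2 / W * U * log (max (c j) t) + 12 * (Λ * r) * min (c j) (2 * t))]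
  have e0 : c 0 = c₀ := by
    rcases lt_or_ge 0 j₀ with h3 | h3
    · exact hc1 0 h3
    · rw [hc2 0 h3, hc₀]
  have eJ : 0 ≤ c J := by
    rcases lt_or_ge J j₀ with h3 | h3
    · rw [hc1 J h3]; linarith
    · rw [hc2 J h3, h.bJ]; exact le_max_of_le_left zero_le_one
  have e1 : log (max c₀ t) - log (max (c J) t) ≤ log (1 + L) := by
    rw [max_eq_left htc, sub_le_iff_le_add,
      ← log_mul (by linarith) (lt_max_of_lt_right ht).ne']
    refine log_le_log (by linarith) ?_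
    have : L * t = c₀ := by rw [htd]; field_simp
    linarith [mul_le_mul_of_nonneg_left (le_max_right (c J) t) (by linarith : 0 ≤ 1 + L)]
  rw [e0]
  have e2 : 2 * log (1 + L) / W * U = 2 / W * U * log (1 + L) := by ring
  linarith [mul_le_mul_of_nonneg_left e1 hUW,
    mul_le_mul_of_nonneg_left (min_le_right c₀ (2 * t)) hΛr,
    mul_nonneg hΛr (le_min eJ (by linarith : 0 ≤ 2 * t))]

lemma err (h : Seq σ r Λ J a a' b b' D D' u) (hW : 1 ≤ W) (hL : 1 ≤ L) (hU0 : 0 ≤ U)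
    (hV0 : 0 ≤ V) (h2 : ∀ s t, |ψ s - ψ t| ≤ 2)
    (hψ : ∀ s t, |ψ s - ψ t| ≤ 2 / W * |log s - log t|)
    (hU : ∀ j, j₀ ≤ j → j < J → |u j| ≤ U)
    (hV : ∀ j, j₀ ≤ j → j < J → |a j - a' j| * (σ * 2 ^ j) ≤ V)
    (hj₀ : j₀ ≤ J) (hs : ∑ j ∈ range j₀, σ * 2 ^ j ≤ 2 * r) :
    |∑ j ∈ range J, D j * ψ (b j) - ∑ j ∈ range J, D' j * ψ (b' j) -
        u 0 * ψ (max (b 0) (b' 0))| ≤
      2 * log (1 + L) / W * (U + 8 * V + ∑ j ∈ range j₀, σ * 2 ^ j * (a j + a' j)) +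
        (32 + 24 * log (1 + L)) * Λ * r / L * (b 0 + b' 0) := by
  set c₀ := max (b 0) (b' 0) with hc₀
  set c : ℕ → ℝ := fun j => if j < j₀ then c₀ else max (b j) (b' j) with hc
  have hc1 : ∀ j, j < j₀ → c j = c₀ := fun j hj => if_pos hj
  have hc2 : ∀ j, j₀ ≤ j → c j = max (b j) (b' j) := fun j hj => if_neg (by omega)
  have e0 : c 0 = c₀ := by simp [hc, hc₀]
  have k1 := h.part1 hW hL hU0 h2 hψ hU hc₀ hc1 hc2
  have k2 := h.part2 hW hL hV0 h2 hψ hV (le_max_left _ _) hc1 hc2 hj₀ hs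
  have k3 := h.symm.part2 hW hL hV0 h2 hψ (fun j h1 h2 => by rw [abs_sub_comm]; exact hV j h1 h2)
    (le_max_right _ _) hc1 (fun j hj => by rw [max_comm]; exact hc2 j hj) hj₀ hs
  have e1 : ∑ j ∈ range J, D j * ψ (b j) - ∑ j ∈ range J, D' j * ψ (b' j) - u 0 * ψ c₀ =
      ∑ j ∈ range J, (u (j + 1) * (ψ (c j) - ψ (c (j + 1))) * (-1) + D j * (ψ (b j) - ψ (c j))
        - D' j * (ψ (b' j) - ψ (c j))) := by
    have := sum_range_sub' (fun j => u j * ψ (c j)) J
    rw [h.uJ, zero_mul, sub_zero, e0] at this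
    rw [← this, ← sum_sub_distrib, ← sum_sub_distrib]
    refine sum_congr rfl fun j hj => ?_
    rw [h.us j (mem_range.1 hj)]
    ring
  have e2 : |∑ j ∈ range J, (u (j + 1) * (ψ (c j) - ψ (c (j + 1))) * (-1) +
      D j * (ψ (b j) - ψ (c j)) - D' j * (ψ (b' j) - ψ (c j)))| ≤
      ∑ j ∈ range J, |u (j + 1)| * |ψ (c (j + 1)) - ψ (c j)| +
      ∑ j ∈ range J, |D j| * |ψ (b j) - ψ (c j)| +
      ∑ j ∈ range J, |D' j| * |ψ (b' j) - ψ (c j)| := by
    rw [← sum_add_distrib, ← sum_add_distrib]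
    refine (abs_sum_le_sum_abs _ _).trans (sum_le_sum fun j _ => ?_)
    refine (abs_sub _ _).trans (add_le_add ((abs_add_le _ _).trans (le_of_eq ?_)) (abs_mul _ _).le)
    simp only [abs_mul, abs_neg, abs_one, mul_one, abs_sub_comm (ψ (c j)) (ψ (c (j + 1)))]
  have hLg : 0 ≤ log (1 + L) := log_nonneg (by linarith)
  have e3 : c₀ ≤ b 0 + b' 0 := max_le (by linarith [h.symm.one_le 0 (Nat.zero_le _)])
    (by linarith [h.one_le 0 (Nat.zero_le _)])
  have e4 : (32 + 24 * log (1 + L)) * (Λ * r * (c₀ / L)) ≤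
      (32 + 24 * log (1 + L)) * Λ * r / L * (b 0 + b' 0) := by
    have := h.hΛr
    calc _ = (32 + 24 * log (1 + L)) * (Λ * r) / L * c₀ := by ring
      _ ≤ (32 + 24 * log (1 + L)) * (Λ * r) / L * (b 0 + b' 0) :=
        mul_le_mul_of_nonneg_left e3 (by positivity)
      _ = _ := by ring
  simp only [mul_add (σ * 2 ^ _), sum_add_distrib]
  rw [e1]
  linarith

end Seq

end Vale.Agent.P249
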