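import Mathlib

/-! Weighted finite p-norms and elementary inequalities. -/

open Finset Real

namespace Vale.Agent.P249

/-- The weighted `p`-norm on a finite index type. -/
noncomputable def nrm {ι : Type*} [Fintype ι] (p : ℝ) (μ f : ι → ℝ) : ℝ :=
  (∑ i, μ i * |f i| ^ p) ^ (1 / p)

lemma rpow_inv_rpow {p x : ℝ} (hp : 0 < p) (hx : 0 ≤ x) : (x ^ (1 / p)) ^ p = x := by
  rw [← rpow_mul hx, one_div_mul_cancel hp.ne', rpow_one]

lemma rpow_rpow_inv {p x : ℝ} (hp : 0 < p) (hx : 0 ≤ x) : (x ^ p) ^ (1 / p) = x := by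
  rw [← rpow_mul hx, mul_one_div_cancel hp.ne', rpow_one]

lemma le_rpow_inv {p x y : ℝ} (hp : 0 < p) (hx : 0 ≤ x) (h : x ^ p ≤ y) : x ≤ y ^ (1 / p) := by
  calc x = (x ^ p) ^ (1 / p) := (rpow_rpow_inv hp hx).symm
    _ ≤ _ := rpow_le_rpow (by positivity) h (by positivity)

lemma rpow_inv_le {p x y : ℝ} (hp : 0 < p) (hx : 0 ≤ x) (hy : 0 ≤ y) (h : x ≤ y ^ p) :
    x ^ (1 / p) ≤ y := by
  calc x ^ (1 / p) ≤ (y ^ p) ^ (1 / p) := rpow_le_rpow hx h (by positivity)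
    _ = y := rpow_rpow_inv hp hy

section Nrm

variable {ι : Type*} [Fintype ι] {p : ℝ} {μ : ι → ℝ}

lemma nsum_nonneg (hμ : ∀ i, 0 ≤ μ i) (f : ι → ℝ) : 0 ≤ ∑ i, μ i * |f i| ^ p :=
  sum_nonneg fun i _ => mul_nonneg (hμ i) (by positivity)

lemma nrm_nonneg (hμ : ∀ i, 0 ≤ μ i) (f : ι → ℝ) : 0 ≤ nrm p μ f :=
  rpow_nonneg (nsum_nonneg hμ f) _

lemma nrm_rpow (hp : 1 ≤ p) (hμ : ∀ i, 0 ≤ μ i) (f : ι → ℝ) :
    nrm p μ f ^ p = ∑ i, μ i * |f i| ^ p :=
  rpow_inv_rpow (by linarith) (nsum_nonneg hμ f)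

lemma nrm_le_of (hp : 1 ≤ p) (hμ : ∀ i, 0 ≤ μ i) {f : ι → ℝ} {c : ℝ} (hc : 0 ≤ c)
    (h : ∑ i, μ i * |f i| ^ p ≤ c ^ p) : nrm p μ f ≤ c :=
  rpow_inv_le (by linarith) (nsum_nonneg hμ f) hc h

lemma nrm_mono (hp : 1 ≤ p) (hμ : ∀ i, 0 ≤ μ i) {f g : ι → ℝ} (h : ∀ i, |f i| ≤ |g i|) :
    nrm p μ f ≤ nrm p μ g := by
  refine rpow_le_rpow (nsum_nonneg hμ f) (sum_le_sum fun i _ => ?_) (by positivity)
  exact mul_le_mul_of_nonneg_left (rpow_le_rpow (abs_nonneg _) (h i) (by linarith)) (hμ i)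

lemma nrm_mono' (hp : 1 ≤ p) (hμ : ∀ i, 0 ≤ μ i) {f g : ι → ℝ} (h : ∀ i, |f i| ≤ g i) :
    nrm p μ f ≤ nrm p μ g :=
  nrm_mono hp hμ fun i => (h i).trans (le_abs_self _)

lemma nrm_mul (hp : 1 ≤ p) (hμ : ∀ i, 0 ≤ μ i) {c : ℝ} (hc : 0 ≤ c) (f : ι → ℝ) :
    nrm p μ (fun i => c * f i) = c * nrm p μ f := by
  unfold nrm
  have : ∑ i, μ i * |c * f i| ^ p = c ^ p * ∑ i, μ i * |f i| ^ p := by
    rw [mul_sum]
    refine sum_congr rfl fun i _ => ?_
    rw [abs_mul, abs_of_nonneg hc, mul_rpow hc (abs_nonneg _)]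
    ring
  rw [this, mul_rpow (by positivity) (nsum_nonneg hμ f), rpow_rpow_inv (by linarith) hc]

lemma nrm_add_le (hp : 1 ≤ p) (hμ : ∀ i, 0 ≤ μ i) (f g : ι → ℝ) :
    nrm p μ (fun i => f i + g i) ≤ nrm p μ f + nrm p μ g := by
  have hp0 : 0 < p := by linarith
  have key : ∀ h : ι → ℝ, nrm p μ h = (∑ i, |μ i ^ (1 / p) * h i| ^ p) ^ (1 / p) := by
    intro h
    unfold nrm
    congr 1
    refine sum_congr rfl fun i _ => ?_
    have := hμ i
    rw [abs_mul, abs_of_nonneg (by positivity : 0 ≤ μ i ^ (1 / p)),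
      mul_rpow (by positivity) (abs_nonneg _), rpow_inv_rpow hp0 this]
  rw [key, key, key]
  have := Real.Lp_add_le univ (fun i => μ i ^ (1 / p) * f i) (fun i => μ i ^ (1 / p) * g i) hp
  simpa only [mul_add] using this

lemma nrm_zero (hp : 1 ≤ p) : nrm p μ (fun _ => 0) = 0 := by
  have hp0 : p ≠ 0 := by linarith
  simp [nrm, hp0]

lemma nrm_sum_le (hp : 1 ≤ p) (hμ : ∀ i, 0 ≤ μ i) {κ : Type*} (s : Finset κ) (f : κ → ι → ℝ) :
    nrm p μ (fun i => ∑ j ∈ s, f j i) ≤ ∑ j ∈ s, nrm p μ (f j) := by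
  classical
  induction s using Finset.induction_on with
  | empty => simp [nrm_zero hp]
  | insert a s ha ih =>
    simp only [sum_insert ha]
    exact (nrm_add_le hp hμ _ _).trans (by linarith)

lemma nrm_one_le (hp : 1 ≤ p) (hμ : ∀ i, 0 ≤ μ i) (h1 : ∑ i, μ i ≤ 1) :
    nrm p μ (fun _ => 1) ≤ 1 :=
  nrm_le_of hp hμ zero_le_one (by simpa using h1)

lemma nrm_abs (f : ι → ℝ) : nrm p μ (fun i => |f i|) = nrm p μ f := by
  simp [nrm]

/-- A weighted sum of absolute values. -/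
lemma nrm_wsum_le (hp : 1 ≤ p) (hμ : ∀ i, 0 ≤ μ i) {κ : Type*} (s : Finset κ) (c : κ → ℝ)
    (hc : ∀ j, 0 ≤ c j) (f : κ → ι → ℝ) :
    nrm p μ (fun i => ∑ j ∈ s, c j * |f j i|) ≤ ∑ j ∈ s, c j * nrm p μ (f j) := by
  refine (nrm_sum_le hp hμ s fun j i => c j * |f j i|).trans (le_of_eq ?_)
  refine sum_congr rfl fun j _ => ?_
  rw [nrm_mul hp hμ (hc j), nrm_abs]

/-- A common majorant of finitely many functions. -/
lemma nrm_sup (hp : 1 ≤ p) (hμ : ∀ i, 0 ≤ μ i) {κ : Type*} (s : Finset κ) (f : κ → ι → ℝ)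
    (S : κ → ℝ) {c T : ℝ} (hc : 0 ≤ c) (hS : ∀ j ∈ s, 0 ≤ S j)
    (hf : ∀ j ∈ s, nrm p μ (f j) ≤ c * S j ^ (1 / p)) (hT : ∑ j ∈ s, S j ≤ T) :
    ∃ U : ι → ℝ, (∀ i, 0 ≤ U i) ∧ (∀ j ∈ s, ∀ i, |f j i| ≤ U i) ∧
      nrm p μ U ≤ c * T ^ (1 / p) := by
  have hp0 : 0 < p := by linarith
  have hT0 : 0 ≤ T := (sum_nonneg hS).trans hT
  have h0 : ∀ i, 0 ≤ ∑ j ∈ s, |f j i| ^ p := fun i => sum_nonneg fun j _ => by positivity
  refine ⟨fun i => (∑ j ∈ s, |f j i| ^ p) ^ (1 / p), fun i => rpow_nonneg (h0 i) _, ?_, ?_⟩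
  · intro j hj i
    exact le_rpow_inv hp0 (abs_nonneg _)
      (single_le_sum (f := fun j => |f j i| ^ p) (fun j _ => by positivity) hj)
  · refine nrm_le_of hp hμ (by positivity) ?_
    calc ∑ i, μ i * |(∑ j ∈ s, |f j i| ^ p) ^ (1 / p)| ^ p
        = ∑ i, ∑ j ∈ s, μ i * |f j i| ^ p := by
          refine sum_congr rfl fun i _ => ?_
          rw [abs_of_nonneg (rpow_nonneg (h0 i) _), rpow_inv_rpow hp0 (h0 i), mul_sum]
      _ = ∑ j ∈ s, nrm p μ (f j) ^ p := by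
          rw [sum_comm]
          exact sum_congr rfl fun j _ => (nrm_rpow hp hμ _).symm
      _ ≤ ∑ j ∈ s, c ^ p * S j := by
          refine sum_le_sum fun j hj => ?_
          have := hS j hj
          calc nrm p μ (f j) ^ p ≤ (c * S j ^ (1 / p)) ^ p :=
                rpow_le_rpow (nrm_nonneg hμ _) (hf j hj) hp0.le
            _ = c ^ p * S j := by
                rw [mul_rpow hc (by positivity), rpow_inv_rpow hp0 this]
      _ ≤ c ^ p * T := by
          rw [← mul_sum]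
          exact mul_le_mul_of_nonneg_left hT (by positivity)
      _ = _ := by rw [mul_rpow hc (by positivity), rpow_inv_rpow hp0 hT0]

/-- Markov's inequality. -/
lemma markov (hp : 1 ≤ p) (hμ : ∀ i, 0 ≤ μ i) (f : ι → ℝ) {B t : ℝ} (ht : 0 < t)
    (hB : nrm p μ f ≤ B) (s : Finset ι) (hs : ∀ i ∈ s, t ≤ f i) :
    ∑ i ∈ s, μ i ≤ (B / t) ^ p := by
  have hp0 : 0 < p := by linarith
  have hB0 : 0 ≤ B := (nrm_nonneg hμ f).trans hB
  rw [div_rpow hB0 ht.le, le_div_iff₀ (by positivity), sum_mul]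
  calc ∑ i ∈ s, μ i * t ^ p ≤ ∑ i ∈ s, μ i * |f i| ^ p := by
        refine sum_le_sum fun i hi => mul_le_mul_of_nonneg_left ?_ (hμ i)
        exact rpow_le_rpow ht.le ((hs i hi).trans (le_abs_self _)) hp0.le
    _ ≤ ∑ i, μ i * |f i| ^ p :=
        sum_le_sum_of_subset_of_nonneg (subset_univ _) fun i _ _ =>
          mul_nonneg (hμ i) (by positivity)
    _ = nrm p μ f ^ p := (nrm_rpow hp hμ f).symm
    _ ≤ B ^ p := rpow_le_rpow (nrm_nonneg hμ f) hB hp0.le

end Nrm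

lemma sum_rpow_le {κ : Type*} {p : ℝ} (hp : 1 ≤ p) (s : Finset κ) (f : κ → ℝ) :
    ∑ j ∈ s, |f j| ^ p ≤ (∑ j ∈ s, |f j|) ^ p := by
  classical
  induction s using Finset.induction_on with
  | empty =>
    have hp0 : p ≠ 0 := by linarith
    simp [hp0]
  | insert a s ha ih =>
    simp only [sum_insert ha]
    have := Real.add_rpow_le_rpow_add (abs_nonneg (f a))
      (sum_nonneg fun j (_ : j ∈ s) => abs_nonneg (f j)) hp
    linarith

/-- Telescoping with a shift. -/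
lemma sum_shift_le (y : ℕ → ℝ) {L : ℝ} (h0 : ∀ t, 0 ≤ y t) (hL : ∀ t, y t ≤ L) (M J : ℕ) :
    ∑ j ∈ range J, (y (j + M) - y j) ≤ M * L := by
  induction M with
  | zero => simp
  | succ M ih =>
    have h1 : ∑ j ∈ range J, (y (j + 1 + M) - y (j + M)) = y (J + M) - y (0 + M) :=
      sum_range_sub (fun j => y (j + M)) J
    have h2 : ∑ j ∈ range J, (y (j + (M + 1)) - y j) =
        ∑ j ∈ range J, (y (j + 1 + M) - y (j + M)) + ∑ j ∈ range J, (y (j + M) - y j) := by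
      rw [← sum_add_distrib]
      refine sum_congr rfl fun j _ => ?_
      rw [show j + (M + 1) = j + 1 + M by ring]
      ring
    rw [h2, h1]
    have := h0 (0 + M)
    have := hL (J + M)
    push_cast
    linarith

/-- Geometric sum over the levels above `x`. -/
lemma geo_hi {α : ℝ} (hα : 0 < α) : ∃ C : ℝ, 0 < C ∧ ∀ (L : ℕ) (τ x : ℝ), 0 < τ → 0 < x →
    ∑ l ∈ range L, (if x ≤ τ * 2 ^ l then (τ * 2 ^ l) ^ (-α) else 0) ≤ C * x ^ (-α) := by
  have hq : (2 : ℝ) ^ (-α) < 1 := rpow_lt_one_of_one_lt_of_neg one_lt_two (by linarith)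
  set q := (2 : ℝ) ^ (-α) with hqd
  have hq1 : 0 < 1 - q := by linarith
  refine ⟨1 / (1 - q), by positivity, ?_⟩
  have key : ∀ (L : ℕ) (τ x : ℝ), 0 < τ → 0 < x →
      ∑ l ∈ range L, (if x ≤ τ * 2 ^ l then (τ * 2 ^ l) ^ (-α) else 0) ≤
        1 / (1 - q) * (max τ x) ^ (-α) := by
    intro L
    induction L with
    | zero => intro τ x hτ hx; simp; positivity
    | succ L ih =>
      intro τ x hτ hx
      rw [sum_range_succ']
      have h := ih (2 * τ) x (by positivity) hx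
      have he : ∀ l : ℕ, τ * 2 ^ (l + 1) = 2 * τ * 2 ^ l := fun l => by ring
      simp only [he, pow_zero, mul_one]
      split_ifs with hx'
      · rw [max_eq_left (by linarith), mul_rpow (by norm_num) hτ.le] at h
        rw [max_eq_left hx']
        have : 1 / (1 - q) * τ ^ (-α) = 1 / (1 - q) * (q * τ ^ (-α)) + τ ^ (-α) := by
          field_simp
          ring
        linarith
      · push Not at hx'
        rw [max_eq_right hx'.le, add_zero]
        refine h.trans (mul_le_mul_of_nonneg_left ?_ (by positivity))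
        exact rpow_le_rpow_of_nonpos hx (le_max_right _ _) (by linarith)
  intro L τ x hτ hx
  refine (key L τ x hτ hx).trans (mul_le_mul_of_nonneg_left ?_ (by positivity))
  exact rpow_le_rpow_of_nonpos hx (le_max_right _ _) (by linarith)

/-- Geometric sum over the levels below `x`. -/
lemma geo_lo {α : ℝ} (hα : 0 < α) : ∃ C : ℝ, 0 < C ∧ ∀ (L : ℕ) (τ x : ℝ), 0 < τ → 0 < x →
    ∑ l ∈ range L, (if x ≤ τ * 2 ^ l then 0 else (τ * 2 ^ l) ^ α) ≤ C * x ^ α := by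
  have hq : 1 < (2 : ℝ) ^ α := one_lt_rpow one_lt_two hα
  set q := (2 : ℝ) ^ α with hqd
  have hq1 : 0 < q - 1 := by linarith
  refine ⟨q / (q - 1), by positivity, ?_⟩
  intro L τ x hτ hx
  have key : ∑ l ∈ range L, (if x ≤ τ * 2 ^ l then 0 else (τ * 2 ^ l) ^ α) ≤
        1 / (q - 1) * (min (τ * 2 ^ L) (2 * x)) ^ α := by
    induction L with
    | zero => simp; positivity
    | succ L ih =>
      rw [sum_range_succ]
      have hτ' : 0 < τ * 2 ^ L := by positivity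
      have he : τ * 2 ^ (L + 1) = 2 * (τ * 2 ^ L) := by ring
      rw [he]
      split_ifs with hx'
      · rw [add_zero]
        refine ih.trans (mul_le_mul_of_nonneg_left ?_ (by positivity))
        exact rpow_le_rpow (by positivity) (min_le_min_right _ (by linarith)) hα.le
      · push Not at hx'
        rw [min_eq_left (by linarith)] at ih
        rw [min_eq_left (by linarith), mul_rpow (x := 2) (by norm_num) hτ'.le]
        have : 1 / (q - 1) * (q * (τ * 2 ^ L) ^ α) =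
            1 / (q - 1) * (τ * 2 ^ L) ^ α + (τ * 2 ^ L) ^ α := by
          field_simp
          ring
        linarith
  refine key.trans ?_
  calc 1 / (q - 1) * (min (τ * 2 ^ L) (2 * x)) ^ α ≤ 1 / (q - 1) * (2 * x) ^ α :=
        mul_le_mul_of_nonneg_left (rpow_le_rpow (by positivity) (min_le_right _ _) hα.le)
          (by positivity)
    _ = q / (q - 1) * x ^ α := by
        rw [mul_rpow (by norm_num) hx.le]
        ring

lemma exp_sub_one_le {x : ℝ} (h0 : 0 ≤ x) (h1 : x ≤ 1) : exp x - 1 ≤ 2 * x := by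
  have := Real.abs_exp_sub_one_le (x := x) (by rw [abs_of_nonneg h0]; exact h1)
  rw [abs_of_nonneg h0] at this
  exact (le_abs_self _).trans this

/-- Lipschitz bound for ratios of exponentials. -/
lemma abs_exp_sub_le {a b u : ℝ} (h : |a - b| ≤ u) : |exp a - exp b| ≤ exp a * (u * exp u) := by
  have hu : 0 ≤ u := (abs_nonneg _).trans h
  obtain ⟨h1, h2⟩ := abs_le.1 h
  have e1 : exp b = exp a * exp (b - a) := by rw [← exp_add]; ring_nf
  have ha := exp_pos a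
  have hu1 : 1 ≤ exp u := one_le_exp hu
  have k1 : exp (b - a) ≤ exp u := exp_le_exp.2 (by linarith)
  have k2 : 1 - u ≤ exp (b - a) := by have := add_one_le_exp (b - a); linarith
  have k3 : exp u - 1 ≤ u * exp u := by
    have := add_one_le_exp (-u)
    have h4 : exp (-u) * exp u = 1 := by rw [← exp_add]; simp
    nlinarith
  rw [e1, abs_le]
  constructor <;> nlinarith [mul_le_mul_of_nonneg_left hu1 hu]

lemma abs_exp_sub_le' {a b u : ℝ} (h : |a - b| ≤ u) (hu1 : u ≤ 1) :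
    |exp a - exp b| ≤ 2 * u * exp a := by
  have hu : 0 ≤ u := (abs_nonneg _).trans h
  obtain ⟨h1, h2⟩ := abs_le.1 h
  have e1 : exp b = exp a * exp (b - a) := by rw [← exp_add]; ring_nf
  have ha := exp_pos a
  have k1 : exp (b - a) ≤ exp u := exp_le_exp.2 (by linarith)
  have k2 : 1 - u ≤ exp (b - a) := by have := add_one_le_exp (b - a); linarith
  have k3 := exp_sub_one_le hu hu1
  rw [e1, abs_le]
  constructor <;> nlinarith

end Vale.Agent.P249
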