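import Vale.Agent.P249.Pack

/-! The choice of a nearby centre, and Gibbs measures for local features. -/

open Finset Real
open scoped RealInnerProductSpace

namespace Vale.Agent.P249

variable {X : Type*} [Fintype X] [MetricSpace X]

omit [Fintype X] in
lemma abs_dist_div_sub {σ : ℝ} (hσ : 0 < σ) (x y z : X) :
    |dist x z / σ - dist y z / σ| ≤ dist x y / σ := by
  rw [← sub_div, abs_div, abs_of_pos hσ]
  exact div_le_div_of_nonneg_right (abs_dist_sub_le x y z) hσ.le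

lemma exists_pi {σ o ℓ : ℝ} (hσ : 0 < σ) (ho : 1 ≤ o) (hℓ : 1 ≤ ℓ)
    (hn : (Fintype.card X : ℝ) ≤ exp ℓ) : ∃ pi : X → X → ℝ, (∀ x c, 0 ≤ pi x c) ∧
    (∀ x, ∑ c, pi x c = 1) ∧ (∀ x c, pi x c ≠ 0 → o * (dist x c / σ) ≤ 3 * ℓ) ∧
    (∀ x y, ∑ c, |pi x c - pi y c| ≤ 8 * (o * (dist x y / σ))) ∧
    ∀ x y c, o * (dist x y / σ) ≤ 1 / 8 →
      |pi x c - pi y c| ≤ 12 * (o * (dist x y / σ)) * (pi x c + exp (-(3 * ℓ))) ∧
      pi y c ≤ 3 * (pi x c + exp (-(3 * ℓ))) := by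
  set η := exp (-(3 * ℓ)) with hη
  have hη0 : 0 < η := exp_pos _
  set w : X → X → ℝ := fun x c => max (exp (-(o * (dist x c / σ))) - η) 0 with hw
  have hw0 : ∀ x c, 0 ≤ w x c := fun x c => le_max_right _ _
  have hnη : (Fintype.card X : ℝ) * η ≤ 1 / 2 := by
    have h1 : exp ℓ * η = exp (-(2 * ℓ)) := by rw [hη, ← exp_add]; ring_nf
    have h2 : exp (-(2 * ℓ)) * exp (2 * ℓ) = 1 := by rw [← exp_add]; simp
    have h3 := add_one_le_exp (2 * ℓ)
    have h4 := exp_pos (-(2 * ℓ))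
    nlinarith [mul_le_mul_of_nonneg_right hn hη0.le]
  have hZ : ∀ x, 1 / 2 ≤ ∑ c, w x c := by
    intro x
    have h1 := single_le_sum (f := w x) (fun c _ => hw0 x c) (mem_univ x)
    have h2 : 1 - η ≤ w x x := by simp [hw]
    have h3 : (1 : ℝ) ≤ Fintype.card X := by
      exact_mod_cast Fintype.card_pos_iff.2 ⟨x⟩
    nlinarith
  have hZ0 : ∀ x, 0 < ∑ c, w x c := fun x => by linarith [hZ x]
  have hp0 : ∀ x c, 0 ≤ w x c / ∑ c, w x c := fun x c => div_nonneg (hw0 x c) (hZ0 x).le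
  have hp1 : ∀ x, ∑ c, w x c / ∑ c, w x c = 1 := fun x => by
    rw [← sum_div, div_self (hZ0 x).ne']
  have key : ∀ x y c, o * (dist x y / σ) ≤ 1 →
      |w x c / ∑ c, w x c - w y c / ∑ c, w y c| ≤
        2 * (o * (dist x y / σ)) * (w x c / ∑ c, w x c + 2 * η) +
          4 * (o * (dist x y / σ)) * (w y c / ∑ c, w y c) := by
    intro x y c hu
    set u := o * (dist x y / σ) with hud
    have hu0 : 0 ≤ u := by positivity
    have h1 : ∀ c, |w x c - w y c| ≤ 2 * u * (w x c + η) := by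
      intro c
      refine (abs_max_sub_max_le_abs _ _ _).trans ?_
      rw [sub_sub_sub_cancel_right]
      refine (abs_exp_sub_le' (u := u) ?_ hu).trans (mul_le_mul_of_nonneg_left ?_ (by positivity))
      · rw [neg_sub_neg, ← mul_sub, abs_mul, abs_of_pos (by linarith), abs_sub_comm]
        exact mul_le_mul_of_nonneg_left (abs_dist_div_sub hσ x y c) (by linarith)
      · have := le_max_left (exp (-(o * (dist x c / σ))) - η) 0
        simp only [hw]
        linarith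
    set Z := ∑ c, w x c with hZd
    set Z' := ∑ c, w y c with hZd'
    have hZx : 1 / 2 ≤ Z := hZ x
    have hZy : 0 < Z' := hZ0 y
    have h2 : |Z' - Z| ≤ 4 * u * Z := by
      rw [abs_sub_comm, hZd, hZd', ← sum_sub_distrib]
      refine (abs_sum_le_sum_abs _ _).trans ((sum_le_sum fun c _ => h1 c).trans ?_)
      rw [← mul_sum, sum_add_distrib, sum_const, card_univ, nsmul_eq_mul, ← hZd]
      nlinarith
    have h3 : w x c / Z - w y c / Z' = ((w x c - w y c) + w y c / Z' * (Z' - Z)) / Z := by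
      field_simp
      ring
    rw [h3, abs_div, abs_of_pos (by linarith : 0 < Z), div_le_iff₀ (by linarith)]
    refine (abs_add_le _ _).trans ?_
    rw [abs_mul, abs_of_nonneg (hp0 y c)]
    have h4 := mul_le_mul_of_nonneg_left h2 (hp0 y c)
    have h5 : w x c / Z * Z = w x c := by field_simp
    have h6 := h1 c
    have h7 : 0 ≤ u * η * (2 * Z - 1) := by
      have : 0 ≤ 2 * Z - 1 := by linarith
      positivity
    nlinarith
  refine ⟨fun x c => w x c / ∑ c, w x c, hp0, hp1, ?_, ?_, ?_⟩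
  · intro x c hc
    by_contra hlt
    push Not at hlt
    apply hc
    have : exp (-(o * (dist x c / σ))) ≤ η := exp_le_exp.2 (by linarith)
    simp only [hw]
    rw [max_eq_right (by linarith), zero_div]
  · intro x y
    rcases le_total (o * (dist x y / σ)) 1 with hu | hu
    · refine (sum_le_sum fun c _ => key x y c hu).trans ?_
      rw [sum_add_distrib, ← mul_sum, ← mul_sum, sum_add_distrib, hp1, hp1, sum_const, card_univ,
        nsmul_eq_mul]
      have : 0 ≤ o * (dist x y / σ) := by positivity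
      nlinarith
    · have : ∑ c, |w x c / ∑ c, w x c - w y c / ∑ c, w y c| ≤
          ∑ c, (w x c / ∑ c, w x c + w y c / ∑ c, w y c) :=
        sum_le_sum fun c _ => abs_le.2 ⟨by linarith [hp0 x c, hp0 y c],
          by linarith [hp0 x c, hp0 y c]⟩
      rw [sum_add_distrib, hp1, hp1] at this
      linarith
  · intro x y c hu
    have h1 := key x y c (by linarith)
    have h2 := hp0 x c
    have h3 := hp0 y c
    have hu0 : 0 ≤ o * (dist x y / σ) := by positivity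
    set u := o * (dist x y / σ)
    set a := w x c / ∑ c, w x c
    set a' := w y c / ∑ c, w y c
    have h4 : a' ≤ a + |a - a'| := by linarith [neg_abs_le (a - a')]
    have h5 := abs_nonneg (a - a')
    have h6 : |a - a'| ≤ 12 * u * (a + η) := by
      nlinarith [mul_le_mul_of_nonneg_left h4 hu0, mul_le_mul_of_nonneg_right hu h5,
        mul_nonneg hu0 hη0.le]
    refine ⟨h6, ?_⟩
    nlinarith [mul_le_mul_of_nonneg_right hu (by linarith : 0 ≤ a + η)]

/-- The partition function at scale `σ`. -/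
noncomputable def Yf (p σ : ℝ) (x : X) : ℝ := ∑ z, exp (-(dist x z / σ + (dist x z / σ) ^ p))

lemma one_le_Yf {p σ : ℝ} (hp : 1 ≤ p) (x : X) : 1 ≤ Yf p σ x := by
  have := single_le_sum (f := fun z => exp (-(dist x z / σ + (dist x z / σ) ^ p)))
    (fun z _ => (exp_pos _).le) (mem_univ x)
  refine le_trans (le_of_eq ?_) this
  have hp0 : p ≠ 0 := by linarith
  simp [hp0]

omit [MetricSpace X] in
lemma sum_exp_le_card {f : X → ℝ} (hf : ∀ z, f z ≤ 0) :
    ∑ z, exp (f z) ≤ Fintype.card X := by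
  calc ∑ z, exp (f z) ≤ ∑ _z : X, (1 : ℝ) := sum_le_sum fun z _ => exp_le_one_iff.2 (hf z)
    _ = _ := by simp

lemma log_Yf {p σ ℓ : ℝ} (hp : 1 ≤ p) (hσ : 0 < σ) (hn : (Fintype.card X : ℝ) ≤ exp ℓ) (x : X) :
    0 ≤ log (Yf p σ x) ∧ log (Yf p σ x) ≤ ℓ := by
  have h1 := one_le_Yf (σ := σ) hp x
  refine ⟨log_nonneg h1, ?_⟩
  rw [log_le_iff_le_exp (by linarith)]
  refine le_trans (sum_exp_le_card fun z => ?_) hn
  have : 0 ≤ dist x z / σ + (dist x z / σ) ^ p := by positivity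
  linarith

variable {H : Type*} [NormedAddCommGroup H] [InnerProductSpace ℝ H]

/-- Local Hilbert space features at scale `σ`, good within radius `T` of the centre. -/
structure Feat (p σ T B C₀ : ℝ) (Φ : X → X → H) : Prop where
  lo : ∀ c x z, (dist x z / σ) ^ p ≤ C₀ * ‖Φ c z - Φ c x‖ ^ 2
  up : ∀ c x z, dist x c / σ ≤ T →
    ‖Φ c z - Φ c x‖ ^ 2 ≤ B ^ 2 * (dist x z / σ + (dist x z / σ) ^ p)
  split : ∀ c x y, dist x c / σ ≤ T → dist x y / σ ≤ 1 → ∃ h l, Φ c x - Φ c y = h + l ∧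
    ‖h‖ ≤ B * (dist x y / σ) ∧ ∀ z, |⟪l, Φ c z - Φ c x⟫| ≤ B * (dist x y / σ)

/-- The volume ratio at scale `σ`. -/
noncomputable def vol (p σ M : ℝ) (x : X) : ℝ := log (Yf p (σ * M) x) - log (Yf p (σ / M) x)

variable {p σ T B C₀ ℓ M : ℝ} {Φ : X → X → H}

lemma Feat.mom (hΦ : Feat p σ T B C₀ Φ) (hp : 1 ≤ p) (hσ : 0 < σ) (hC : 1 ≤ C₀)
    (hM1 : 2 * C₀ ≤ M) (hM2 : 2 * (B ^ 2 + 1) ≤ M) (hn : (Fintype.card X : ℝ) ≤ exp ℓ)
    {c x : X} (hc : dist x c / σ ≤ T) {q : X → ℝ}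
    (hq : IsGibbs (Φ c) x (fun z => dist x z / σ) q) :
    Mom p C₀ ℓ (vol p σ M x) q (fun z => ‖Φ c z - Φ c x‖ ^ 2 + dist x z / σ)
      (fun z => dist x z / σ) := by
  have hM : 1 ≤ M := by linarith
  have hb0 : ∀ z, 0 ≤ dist x z / σ := fun z => by positivity
  have hMp : M ≤ M ^ p := by simpa using rpow_le_rpow_of_exponent_le hM hp
  have hY1 := one_le_Yf (σ := σ * M) hp x
  have hY2 := one_le_Yf (σ := σ / M) hp x
  have hvl : vol p σ M x ≤ ℓ := by
    have := (log_Yf hp (by positivity : 0 < σ * M) hn x).2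
    have := (log_Yf hp (by positivity : 0 < σ / M) hn x).1
    unfold vol
    linarith
  obtain ⟨m1, m2, m3⟩ := hq.moments (v := vol p σ M x) hb0 (by simp) (by
    have h1 : ∑ z, exp (-(‖Φ c z - Φ c x‖ ^ 2 + dist x z / σ) / 2) ≤ Yf p (σ * M) x := by
      refine sum_le_sum fun z _ => exp_le_exp.2 ?_
      have a1 := hΦ.lo c x z
      have a0 := hb0 z
      rw [← div_div, div_rpow a0 (by linarith)]
      set b := dist x z / σ
      have a2 : b / M ≤ b / 2 := div_le_div_of_nonneg_left a0 two_pos (by linarith)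
      have a3 : b ^ p / M ^ p ≤ ‖Φ c z - Φ c x‖ ^ 2 / 2 := by
        rw [div_le_iff₀ (by positivity)]
        nlinarith [sq_nonneg ‖Φ c z - Φ c x‖]
      linarith
    have h2 : Yf p (σ / M) x ≤ ∑ z, exp (-2 * (‖Φ c z - Φ c x‖ ^ 2 + dist x z / σ)) := by
      refine sum_le_sum fun z _ => exp_le_exp.2 ?_
      have a1 := hΦ.up c x z hc
      have a0 := hb0 z
      rw [div_div_eq_mul_div, mul_div_right_comm, mul_rpow a0 (by linarith)]
      set b := dist x z / σ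
      have a2 : 0 ≤ b ^ p := by positivity
      nlinarith [mul_le_mul_of_nonneg_left hM2 a0, mul_le_mul_of_nonneg_left hM2 a2,
        mul_le_mul_of_nonneg_left hMp a2]
    refine h1.trans (le_trans (le_of_eq ?_) (mul_le_mul_of_nonneg_left h2 (exp_pos _).le))
    unfold vol
    rw [exp_sub, exp_log (by linarith), exp_log (by linarith)]
    field_simp)
  have he0 : ∀ z, 0 ≤ ‖Φ c z - Φ c x‖ ^ 2 + dist x z / σ := fun z => by positivity
  have hv0 : 0 ≤ vol p σ M x := by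
    have : 0 ≤ ∑ z, q z * (‖Φ c z - Φ c x‖ ^ 2 + dist x z / σ) :=
      sum_nonneg fun z _ => mul_nonneg (hq.pos z).le (he0 z)
    linarith
  refine ⟨hq.pos, hq.sum, hb0, fun z => by simp, fun z => (hΦ.lo c x z).trans ?_, hv0, hvl, m1,
    second_moment (fun z => (hq.pos z).le) hq.sum he0 hv0 m2,
    fun z => (m3 z).trans (exp_le_exp.2 (by linarith))⟩
  exact mul_le_mul_of_nonneg_left (by linarith [hb0 z]) (by linarith)

lemma gibbs_pt (hσ : 0 < σ) (hn : (Fintype.card X : ℝ) ≤ exp ℓ) {Ψ : X → H} {x : X} {q : X → ℝ}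
    (hq : IsGibbs Ψ x (fun z => dist x z / σ) q) (z : X) :
    q z ≤ exp (ℓ / 2 - dist x z / σ / 4) := by
  have hb0 : ∀ z, 0 ≤ dist x z / σ := fun z => by positivity
  obtain ⟨-, -, m3⟩ := hq.moments (v := ℓ) hb0 (by simp) (by
    refine le_trans (sum_exp_le_card fun z => ?_) (hn.trans (le_mul_of_one_le_right
      (exp_pos _).le ?_))
    · have : 0 ≤ ‖Ψ z - Ψ x‖ ^ 2 + dist x z / σ := by positivity
      linarith
    · have := single_le_sum (f := fun z => exp (-2 * (‖Ψ z - Ψ x‖ ^ 2 + dist x z / σ)))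
        (fun z _ => (exp_pos _).le) (mem_univ x)
      refine le_trans (le_of_eq ?_) this
      simp)
  refine (m3 z).trans (exp_le_exp.2 ?_)
  nlinarith [hb0 z, sq_nonneg ‖Ψ z - Ψ x‖]

lemma Feat.pair (hΦ : Feat p σ T B C₀ Φ) (hp : 1 ≤ p) (hσ : 0 < σ) (hC : 1 ≤ C₀) (hB : 1 ≤ B)
    (hℓ : 1 ≤ ℓ) (hM1 : 2 * C₀ ≤ M) (hM2 : 2 * (B ^ 2 + 1) ≤ M)
    (hn : (Fintype.card X : ℝ) ≤ exp ℓ) {c x y : X} (hx : dist x c / σ ≤ T)
    (hy : dist y c / σ ≤ T) (hρ : dist x y / σ ≤ 1) {q q' : X → ℝ}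
    (hq : IsGibbs (Φ c) x (fun z => dist x z / σ) q)
    (hq' : IsGibbs (Φ c) y (fun z => dist y z / σ) q') :
    ∑ z, |q z - q' z| ≤ 7 * (B * (dist x y / σ)) ∧
    ∑ z, |q z - q' z| * (dist x z / σ) ≤ 5120 * B ^ 2 * (dist x y / σ) *
      (C₀ * (vol p σ M x ^ (1 / p) + vol p σ M y ^ (1 / p)) + dist x y / σ) ∧
    (2880 * B ^ 2 * ℓ * (dist x y / σ) ≤ 1 → ∀ z, |q z - q' z| ≤
      2880 * B ^ 2 * ℓ * (dist x y / σ) * (q z + exp (-ℓ - dist x z / σ / 4))) := by
  have m := hΦ.mom hp hσ hC hM1 hM2 hn hx hq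
  have m' := hΦ.mom hp hσ hC hM1 hM2 hn hy hq'
  obtain ⟨h, l, hc, hh, hl⟩ := hΦ.split c x y hx hρ
  have hρ0 : 0 ≤ dist x y / σ := by positivity
  have hb : ∀ z, |dist x z / σ - dist y z / σ| ≤ B * (dist x y / σ) := fun z =>
    (abs_dist_div_sub hσ x y z).trans (le_mul_of_one_le_left hρ0 hB)
  obtain ⟨k1, k2, -⟩ := hq.pair1 hq' hc hh hl hb
  have hsq : ∀ {c x : X} {q : X → ℝ} {v : ℝ},
      Mom p C₀ ℓ v q (fun z => ‖Φ c z - Φ c x‖ ^ 2 + dist x z / σ) (fun z => dist x z / σ) →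
      ∑ z, q z * ‖Φ c z - Φ c x‖ ^ 2 ≤ 4 * v := fun m =>
    le_trans (sum_le_sum fun z _ => mul_le_mul_of_nonneg_left (by linarith [m.b0 z])
      (m.pos z).le) m.m1
  have k3 := hq.pair2 hq' hc hh hl hb (hsq m) (hsq m')
  have hcn : ‖Φ c x - Φ c y‖ ≤ 2 * B := by
    have a1 := hΦ.up c x y hx
    have a2 : (dist x y / σ) ^ p ≤ 1 := rpow_le_one hρ0 hρ (by linarith)
    rw [norm_sub_rev] at a1
    refine (pow_le_pow_iff_left₀ (norm_nonneg _) (by positivity) two_ne_zero).1 (a1.trans ?_)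
    nlinarith [sq_nonneg B]
  have hv0 := m.v0
  have hv0' := m'.v0
  have aux : ∀ {a a' e L : ℝ}, a ≤ a' + 2 * B → a' ^ 2 ≤ e →
      L ≤ B * (dist x y / σ) *
        (5 * a + 13 + 5 * (vol p σ M x + vol p σ M y) + 5 * ‖Φ c x - Φ c y‖) →
      L ≤ 40 * B ^ 2 * (dist x y / σ) * (1 + e + (vol p σ M x + vol p σ M y)) := by
    intro a a' e L h1 h2 h3
    refine h3.trans ?_
    rw [show 40 * B ^ 2 * (dist x y / σ) * (1 + e + (vol p σ M x + vol p σ M y)) =
      B * (dist x y / σ) * (40 * B * (1 + e + (vol p σ M x + vol p σ M y))) by ring]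
    refine mul_le_mul_of_nonneg_left ?_ (by positivity)
    have he : 0 ≤ e := (sq_nonneg _).trans h2
    nlinarith [sq_nonneg (a' - 1), mul_le_mul_of_nonneg_right hB he,
      mul_le_mul_of_nonneg_right hB (add_nonneg hv0 hv0')]
  have hG : ∀ z, |log (q z) - log (q' z)| ≤ 40 * B ^ 2 * (dist x y / σ) *
      (1 + (‖Φ c z - Φ c x‖ ^ 2 + dist x z / σ) + (vol p σ M x + vol p σ M y)) := fun z =>
    aux (a' := ‖Φ c z - Φ c x‖) (by linarith) (by linarith [m.b0 z]) (k3 z)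
  have hG' : ∀ z, |log (q z) - log (q' z)| ≤ 40 * B ^ 2 * (dist x y / σ) *
      (1 + (‖Φ c z - Φ c y‖ ^ 2 + dist y z / σ) + (vol p σ M x + vol p σ M y)) := by
    intro z
    refine aux (a' := ‖Φ c z - Φ c y‖) ?_ (by linarith [m'.b0 z]) (k3 z)
    rw [show Φ c z - Φ c x = (Φ c z - Φ c y) - (Φ c x - Φ c y) by abel]
    exact (norm_sub_le _ _).trans (by linarith)
  refine ⟨k2, m.wdiff m' hp hC hB hρ0 hρ
    (fun z => by linarith [(abs_le.1 (abs_dist_div_sub hσ x y z)).2]) k1 hG hG', fun hΛ z => ?_⟩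
  have := m.loglip m' hℓ (η := 40 * B ^ 2 * (dist x y / σ)) (by positivity) (by linarith) z (hG z)
  linarith

end Vale.Agent.P249
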