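import Vale.Agent.P249.Basic

/-! Shifted partitions of unity on the line. -/

open Finset Real

namespace Vale.Agent.P249

/-- A ramp rising from `0` to `1` on `[c, c+1]`. -/
noncomputable def rmp (s c : ℝ) : ℝ := min s (c + 1) - min s c

lemma rmp_bounds (s c : ℝ) : 0 ≤ rmp s c ∧ rmp s c ≤ 1 := by
  unfold rmp
  rcases le_total s c with h | h
  · rw [min_eq_left h, min_eq_left (by linarith)]; simp
  · rw [min_eq_right h]
    constructor
    · linarith [le_min h (by linarith : c ≤ c + 1)]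
    · linarith [min_le_right s (c + 1)]

lemma rmp_zero {s c : ℝ} (h : s ≤ c) : rmp s c = 0 := by
  unfold rmp
  rw [min_eq_left h, min_eq_left (by linarith), sub_self]

lemma rmp_one {s c : ℝ} (h : c + 1 ≤ s) : rmp s c = 1 := by
  unfold rmp
  rw [min_eq_right h, min_eq_right (by linarith)]
  ring

lemma rmp_anti {s c c' : ℝ} (h : c + 1 ≤ c') : rmp s c' ≤ rmp s c := by
  rcases le_total s c' with h1 | h1
  · rw [rmp_zero h1]; exact (rmp_bounds s c).1
  · rw [rmp_one (h.trans h1)]; exact (rmp_bounds s c').2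

lemma min_sub_mono {s t c c' : ℝ} (hst : t ≤ s) (h : c ≤ c') :
    min s c - min t c ≤ min s c' - min t c' := by
  simp only [min_def]
  split_ifs <;> linarith

lemma rmp_sum_lip {Q : ℕ} (hQ : 1 ≤ Q) (x : ℝ) (K : ℕ) (s t : ℝ) :
    ∑ k ∈ range K, |rmp s (k * Q + x) - rmp t (k * Q + x)| ≤ |s - t| := by
  wlog h : t ≤ s generalizing s t
  · simp only [abs_sub_comm (rmp s _), abs_sub_comm s]
    exact this t s (by linarith)
  have hQ' : (1 : ℝ) ≤ Q := by exact_mod_cast hQ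
  have key : ∀ k ∈ range K, |rmp s (k * Q + x) - rmp t (k * Q + x)| ≤
      (min s (((k + 1 : ℕ) : ℝ) * Q + x) - min t (((k + 1 : ℕ) : ℝ) * Q + x)) -
        (min s (k * Q + x) - min t (k * Q + x)) := by
    intro k _
    have h1 := min_sub_mono h (by linarith : k * Q + x ≤ k * Q + x + 1)
    have h2 := min_sub_mono h
      (by push_cast; linarith : k * Q + x + 1 ≤ ((k + 1 : ℕ) : ℝ) * Q + x)
    unfold rmp
    rw [abs_of_nonneg (by linarith)]
    linarith
  refine (sum_le_sum key).trans ?_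
  rw [sum_range_sub (fun k : ℕ => min s (k * Q + x) - min t (k * Q + x)),
    abs_of_nonneg (by linarith)]
  have h1 := min_le_min_right (((0 : ℕ) : ℝ) * Q + x) h
  have h2 := min_sub_mono h (le_max_left (K * Q + x) s)
  rw [min_eq_left (le_max_right _ _), min_eq_left (h.trans (le_max_right _ _))] at h2
  linarith

/-- The `k`-th bump of the partition of unity with period `Q` and offset `ξ`. -/
noncomputable def chi (Q ξ k : ℕ) (s : ℝ) : ℝ :=
  rmp s (k * Q + ξ) - rmp s (((k + 1 : ℕ) : ℝ) * Q + ξ)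

variable {Q ξ : ℕ}

lemma chi_nonneg (hQ : 1 ≤ Q) (k : ℕ) (s : ℝ) : 0 ≤ chi Q ξ k s := by
  have hQ' : (1 : ℝ) ≤ Q := by exact_mod_cast hQ
  exact sub_nonneg.2 (rmp_anti (by push_cast; linarith))

lemma chi_le_one (k : ℕ) (s : ℝ) : chi Q ξ k s ≤ 1 := by
  unfold chi
  linarith [(rmp_bounds s (k * Q + ξ)).2, (rmp_bounds s (((k + 1 : ℕ) : ℝ) * Q + ξ)).1]

lemma sum_chi (K : ℕ) (s : ℝ) :
    ∑ k ∈ range K, chi Q ξ k s = rmp s ξ - rmp s (K * Q + ξ) := by
  have := sum_range_sub' (fun k : ℕ => rmp s (k * Q + ξ)) K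
  simpa [chi] using this

lemma sum_chi_le (K : ℕ) (s : ℝ) : ∑ k ∈ range K, chi Q ξ k s ≤ 1 := by
  rw [sum_chi]
  linarith [(rmp_bounds s ξ).2, (rmp_bounds s (K * Q + ξ)).1]

lemma chi_sum_two (hQ : 1 ≤ Q) (K : ℕ) (s t : ℝ) :
    ∑ k ∈ range K, |chi Q ξ k s - chi Q ξ k t| ≤ 2 := by
  have : ∑ k ∈ range K, |chi Q ξ k s - chi Q ξ k t| ≤
      ∑ k ∈ range K, (chi Q ξ k s + chi Q ξ k t) := sum_le_sum fun k _ =>
    abs_le.2 ⟨by linarith [chi_nonneg (ξ := ξ) hQ k s, chi_nonneg (ξ := ξ) hQ k t],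
      by linarith [chi_nonneg (ξ := ξ) hQ k s, chi_nonneg (ξ := ξ) hQ k t]⟩
  rw [sum_add_distrib] at this
  linarith [sum_chi_le (Q := Q) (ξ := ξ) K s, sum_chi_le (Q := Q) (ξ := ξ) K t]

lemma chi_sum_lip (hQ : 1 ≤ Q) (K : ℕ) (s t : ℝ) :
    ∑ k ∈ range K, |chi Q ξ k s - chi Q ξ k t| ≤ 2 * |s - t| := by
  have h1 := rmp_sum_lip hQ ξ K s t
  have h2 := rmp_sum_lip hQ (Q + ξ) K s t
  rw [two_mul]
  refine le_trans ?_ (add_le_add h1 h2)
  rw [← sum_add_distrib]
  refine sum_le_sum fun k _ => ?_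
  unfold chi
  rw [sub_sub_sub_comm, show ((k + 1 : ℕ) : ℝ) * Q + ξ = k * Q + (Q + ξ) by push_cast; ring]
  exact abs_sub _ _

lemma chi_lip (hQ : 1 ≤ Q) (k : ℕ) (s t : ℝ) : |chi Q ξ k s - chi Q ξ k t| ≤ 2 * |s - t| :=
  le_trans (single_le_sum (f := fun k => |chi Q ξ k s - chi Q ξ k t|) (fun _ _ => abs_nonneg _)
    (self_mem_range_succ k)) (chi_sum_lip hQ (k + 1) s t)

lemma chi_zero_lo (k : ℕ) {s : ℝ} (h : s ≤ k * Q) : chi Q ξ k s = 0 := by
  have h1 : (0 : ℝ) ≤ ξ := ξ.cast_nonneg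
  have h2 : (0 : ℝ) ≤ Q := Q.cast_nonneg
  unfold chi
  rw [rmp_zero (by linarith), rmp_zero (by push_cast; linarith), sub_self]

lemma chi_zero_hi (hξ : ξ < Q) (k : ℕ) {s : ℝ} (h : (k + 2) * Q ≤ s) : chi Q ξ k s = 0 := by
  have h1 : (ξ : ℝ) + 1 ≤ Q := by exact_mod_cast hξ
  have h2 : (0 : ℝ) ≤ Q := Q.cast_nonneg
  unfold chi
  rw [rmp_one (by linarith), rmp_one (by push_cast; linarith), sub_self]

lemma rmp_int {s : ℝ} (hs : 0 ≤ s) {c : ℕ} (hc : c ≠ ⌊s⌋₊) : rmp s c = 0 ∨ rmp s c = 1 := by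
  rcases lt_or_gt_of_ne hc with h | h
  · refine Or.inr (rmp_one ?_)
    have : ((c + 1 : ℕ) : ℝ) ≤ ⌊s⌋₊ := by exact_mod_cast h
    push_cast at this
    linarith [Nat.floor_le hs]
  · refine Or.inl (rmp_zero ?_)
    have : ((⌊s⌋₊ + 1 : ℕ) : ℝ) ≤ c := by exact_mod_cast h
    push_cast at this
    linarith [Nat.lt_floor_add_one s]

lemma chi_energy {p s : ℝ} {K : ℕ} (hp : 1 ≤ p) (hQ : 1 ≤ Q) (h1 : (Q : ℝ) ≤ s)
    (h2 : s ≤ K * Q) :
    (Q : ℝ) - 1 ≤ ∑ ξ ∈ range Q, ∑ k ∈ range K, |chi Q ξ k s| ^ p ∧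
      ∑ ξ ∈ range Q, ∑ k ∈ range K, |chi Q ξ k s| ^ p ≤ Q := by
  have hs : 0 ≤ s := le_trans Q.cast_nonneg h1
  constructor
  · have key : ∀ ξ ∈ range Q, 1 - (if ⌊s⌋₊ % Q = ξ then (1 : ℝ) else 0) ≤
        ∑ k ∈ range K, |chi Q ξ k s| ^ p := by
      intro ξ hξ
      rw [mem_range] at hξ
      split_ifs with h
      · rw [sub_self]
        exact sum_nonneg fun k _ => by positivity
      have hint : ∀ k : ℕ, rmp s (k * Q + ξ) = 0 ∨ rmp s (k * Q + ξ) = 1 := by
        intro k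
        have := rmp_int hs (c := k * Q + ξ) (fun he => h (by
          rw [← he, Nat.mul_add_mod_of_lt hξ]))
        push_cast at this
        exact this
      have h3 : (ξ : ℝ) + 1 ≤ Q := by exact_mod_cast hξ
      have h4 : ∑ k ∈ range K, chi Q ξ k s = 1 := by
        rw [sum_chi, rmp_one (by linarith), rmp_zero (by linarith [ξ.cast_nonneg (α := ℝ)]),
          sub_zero]
      rw [sub_zero, ← h4]
      refine sum_le_sum fun k _ => ?_
      have h5 := chi_nonneg (ξ := ξ) hQ k s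
      rw [abs_of_nonneg h5]
      have h6 : chi Q ξ k s = 0 ∨ chi Q ξ k s = 1 := by
        unfold chi at h5 ⊢
        rcases hint k with a | a <;> rcases hint (k + 1) with b | b
        · left; linarith
        · left; linarith
        · right; linarith
        · left; linarith
      rcases h6 with a | a <;> rw [a]
      · positivity
      · simp
    refine le_trans ?_ (sum_le_sum key)
    rw [sum_sub_distrib, sum_ite_eq]
    split_ifs <;> simp
  · calc _ ≤ ∑ _ξ ∈ range Q, (1 : ℝ) := by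
          refine sum_le_sum fun ξ _ => le_trans (sum_le_sum fun k _ => ?_)
            (sum_chi_le (Q := Q) (ξ := ξ) K s)
          rw [abs_of_nonneg (chi_nonneg hQ k s)]
          simpa using rpow_le_rpow_of_exponent_ge' (chi_nonneg hQ k s) (chi_le_one k s)
            zero_le_one hp
      _ = Q := by simp

end Vale.Agent.P249
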