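import Vale.Agent.P249.Osc
import Vale.Agent.P249.Ramp

/-! The band decomposition of an embedding. -/

open Finset Real

namespace Vale.Agent.P249

lemma exists_first {σ r : ℝ} {J : ℕ} (hσ : 0 < σ) (hr : 0 ≤ r) (hJ : r ≤ σ * 2 ^ J) :
    ∃ j₀, j₀ ≤ J ∧ (∀ j, j₀ ≤ j → r / (σ * 2 ^ j) ≤ 1) ∧ ∑ j ∈ range j₀, σ * 2 ^ j ≤ 2 * r ∧
      ∑ j ∈ Ico j₀ J, r / (σ * 2 ^ j) ≤ 2 := by
  classical
  have hex : ∃ j : ℕ, r ≤ σ * 2 ^ j := ⟨J, hJ⟩
  have h1 : ∀ j, Nat.find hex ≤ j → r / (σ * 2 ^ j) ≤ 1 := fun j hj =>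
    (div_le_one (by positivity)).2 ((Nat.find_spec hex).trans (mul_le_mul_of_nonneg_left
      (pow_le_pow_right₀ one_le_two hj) hσ.le))
  refine ⟨Nat.find hex, Nat.find_min' hex hJ, h1, ?_, ?_⟩
  · rcases h : Nat.find hex with _ | i
    · simp [hr]
    · have := Nat.find_min hex (m := i) (by omega)
      rw [← mul_sum, geom_sum_eq (by norm_num), pow_succ]
      push Not at this
      linarith
  · have := sum_Ico_sub (fun j => -2 * (r / (σ * 2 ^ j))) (Nat.find_min' hex hJ)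
    rw [sum_congr rfl fun j _ => show r / (σ * 2 ^ j) =
      -2 * (r / (σ * 2 ^ (j + 1))) - -2 * (r / (σ * 2 ^ j)) by field_simp; ring, this]
    have : 0 ≤ r / (σ * 2 ^ J) := by positivity
    linarith [h1 _ le_rfl]

namespace Fam

variable {X : Type*} [Fintype X] [MetricSpace X] {p σ A Λ B₁ V : ℝ} {J : ℕ}
  {k kt : ℕ → X → X → ℝ} {a ω : ℕ → X → ℝ} {ι : Type*} [Fintype ι] {μ : ι → ℝ} {g : X → ι → ℝ}

lemma ω_le (h : Fam p σ A Λ B₁ V J k kt a ω) (hp : 1 ≤ p) {j : ℕ} (hj : j ≤ J) (x : X) :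
    ω j x ≤ (4 * V + 2) ^ (1 / p) := by
  refine le_rpow_inv (by linarith) (h.ω0 j x) ?_
  have h1 := single_le_sum (f := fun j => ω j x ^ p) (fun j _ => rpow_nonneg (h.ω0 j x) p)
    (mem_range.2 (Nat.lt_succ_of_le hj))
  have h2 := rpow_nonneg (h.ω0 j x) p
  linarith [h.sω x]

lemma sum_ω (h : Fam p σ A Λ B₁ V J k kt a ω) (j₀ : ℕ) (x : X) :
    ∑ j ∈ Ico j₀ J, (ω j x ^ p + ω (j + 1) x ^ p) ≤ 2 * V := by
  have h0 : ∀ j, 0 ≤ ω j x ^ p := fun j => rpow_nonneg (h.ω0 j x) p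
  have h1 := h.sω x
  have h2 := h.sω x
  rw [sum_range_succ] at h1
  rw [sum_range_succ'] at h2
  have h3 : ∑ j ∈ Ico j₀ J, (ω j x ^ p + ω (j + 1) x ^ p) ≤
      ∑ j ∈ range J, (ω j x ^ p + ω (j + 1) x ^ p) :=
    sum_le_sum_of_subset_of_nonneg (fun j hj => mem_range.2 (mem_Ico.1 hj).2)
      fun j _ _ => add_nonneg (h0 _) (h0 _)
  rw [sum_add_distrib (s := range J)] at h3
  linarith [h0 J, h0 0]

lemma err_norm (h : Fam p σ A Λ B₁ V J k kt a ω) (hp : 1 ≤ p) (hA : 1 ≤ A) (hΛ : 1 ≤ Λ)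
    (hμ : ∀ i, 0 ≤ μ i) (hμ1 : ∑ i, μ i ≤ 1)
    (hg : ∀ x y, nrm p μ (fun i => g x i - g y i) ≤ dist x y) {W L : ℝ} (hW : 1 ≤ W) (hL : 1 ≤ L)
    (x y : X) : ∃ R : ι → ℝ, nrm p μ R ≤ (3000 * log (1 + L) * (A * (4 * V + 2) ^ (1 / p)) / W +
      (64 + 48 * log (1 + L)) * Λ * (1 + 24 * B₁) / L) * dist x y ∧
      ∀ (i : ι) (ψ : ℝ → ℝ), (∀ s t, |ψ s - ψ t| ≤ 2) →
        (∀ s t, |ψ s - ψ t| ≤ 2 / W * |log s - log t|) →
        |∑ j ∈ range J, DD k (fun z => g z i) x j * ψ (bb σ J kt (fun z => g z i) x j) -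
          ∑ j ∈ range J, DD k (fun z => g z i) y j * ψ (bb σ J kt (fun z => g z i) y j) -
          (g x i - g y i) * ψ (max (bb σ J kt (fun z => g z i) x 0)
            (bb σ J kt (fun z => g z i) y 0))| ≤ R i := by
  have hσ := h.pos
  have hp0 : 0 < p := by linarith
  have hr : 0 ≤ dist x y := dist_nonneg
  obtain ⟨j₀, hj₀, hρ, hs1, hs2⟩ := exists_first hσ hr (h.hi x y)
  set S : ℕ → ℝ := fun j => (ω j x ^ p + ω (j + 1) x ^ p) + (ω j y ^ p + ω (j + 1) y ^ p) +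
    dist x y / (σ * 2 ^ j) with hS
  have hω : ∀ j x, 0 ≤ ω j x ^ p := fun j x => rpow_nonneg (h.ω0 j x) p
  have hρ0 : ∀ j, 0 ≤ dist x y / (σ * 2 ^ j) := fun j => by positivity
  have hS0 : ∀ j ∈ Ico j₀ J, 0 ≤ S j := fun j _ => by
    simp only [hS]
    linarith [hω j x, hω j y, hω (j + 1) x, hω (j + 1) y, hρ0 j]
  have hSs : ∑ j ∈ Ico j₀ J, S j ≤ 4 * V + 2 := by
    simp only [hS]
    rw [sum_add_distrib, sum_add_distrib]
    linarith [h.sum_ω j₀ x, h.sum_ω j₀ y]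
  have hSb : ∀ j ∈ Ico j₀ J, ω j x ≤ S j ^ (1 / p) ∧ ω (j + 1) x ≤ S j ^ (1 / p) ∧
      ω j y ≤ S j ^ (1 / p) ∧ ω (j + 1) y ≤ S j ^ (1 / p) ∧
      dist x y / (σ * 2 ^ j) ≤ S j ^ (1 / p) := by
    intro j hj
    have h1 : (dist x y / (σ * 2 ^ j)) ^ p ≤ dist x y / (σ * 2 ^ j) := by
      simpa using rpow_le_rpow_of_exponent_ge' (hρ0 j) (hρ j (mem_Ico.1 hj).1) zero_le_one hp
    refine ⟨le_rpow_inv hp0 (h.ω0 _ _) ?_, le_rpow_inv hp0 (h.ω0 _ _) ?_,
      le_rpow_inv hp0 (h.ω0 _ _) ?_, le_rpow_inv hp0 (h.ω0 _ _) ?_, le_rpow_inv hp0 (hρ0 j) ?_⟩ <;>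
      simp only [hS] <;> linarith [hω j x, hω j y, hω (j + 1) x, hω (j + 1) y, hρ0 j]
  have hAr : 0 ≤ A * dist x y := by positivity
  obtain ⟨U, hU0, hU, hUn⟩ := nrm_sup hp hμ (Ico j₀ J)
    (fun j i => avg (k j x) (fun z => g z i) - avg (k j y) (fun z => g z i)) S
    (c := 7 * (A * dist x y)) (by positivity) hS0 (fun j hj => by
      obtain ⟨s1, s2, s3, s4, s5⟩ := hSb j hj
      refine (h.nrm_u hp hμ hg (hρ j (mem_Ico.1 hj).1)).trans ?_
      rw [mul_comm 7, mul_assoc _ 7]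
      exact mul_le_mul_of_nonneg_left (by linarith [hρ0 j]) hAr) hSs
  obtain ⟨V', hV0, hV, hVn⟩ := nrm_sup hp hμ (Ico j₀ J)
    (fun j i => (aa σ kt (fun z => g z i) x j - aa σ kt (fun z => g z i) y j) * (σ * 2 ^ j)) S
    (c := 168 * (A * dist x y)) (by positivity) hS0 (fun j hj => by
      obtain ⟨s1, s2, s3, s4, s5⟩ := hSb j hj
      refine (h.nrm_da hp (by linarith) hμ hg (hρ j (mem_Ico.1 hj).1)).trans ?_
      linarith [mul_le_mul_of_nonneg_left (show ω j x + 2 * ω (j + 1) x +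
        (ω j y + 2 * ω (j + 1) y) + dist x y / (σ * 2 ^ j) ≤ 7 * S j ^ (1 / p) by linarith) hAr])
    hSs
  have hLg : 0 ≤ log (1 + L) := log_nonneg (by linarith)
  set Y := (4 * V + 2) ^ (1 / p) with hY
  have hY0 : 0 ≤ Y := (h.ω0 0 x).trans (h.ω_le hp (Nat.zero_le _) x)
  refine ⟨fun i => 2 * log (1 + L) / W * (U i + 8 * V' i + ∑ j ∈ range j₀, σ * 2 ^ j *
      (aa σ kt (fun z => g z i) x j + aa σ kt (fun z => g z i) y j)) +
      (32 + 24 * log (1 + L)) * Λ * dist x y / L *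
        (bb σ J kt (fun z => g z i) x 0 + bb σ J kt (fun z => g z i) y 0), ?_, ?_⟩
  · have n1 : nrm p μ (fun i => ∑ j ∈ range j₀, σ * 2 ^ j *
        (aa σ kt (fun z => g z i) x j + aa σ kt (fun z => g z i) y j)) ≤
        96 * (dist x y * Y) := by
      refine (nrm_sum_le hp hμ _ fun j i => σ * 2 ^ j *
        (aa σ kt (fun z => g z i) x j + aa σ kt (fun z => g z i) y j)).trans ?_
      have : ∀ j ∈ range j₀, nrm p μ (fun i => σ * 2 ^ j *
          (aa σ kt (fun z => g z i) x j + aa σ kt (fun z => g z i) y j)) ≤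
          σ * 2 ^ j * (48 * Y) := by
        intro j hj
        have hj : j + 1 ≤ J := (mem_range.1 hj).trans_le hj₀
        rw [nrm_mul hp hμ (by positivity)]
        refine mul_le_mul_of_nonneg_left ((nrm_add_le hp hμ _ _).trans ?_) (by positivity)
        linarith [h.nrm_aa hp hμ hg ((h.sc j).hω x) ((h.sc (j + 1)).hω x),
          h.nrm_aa hp hμ hg ((h.sc j).hω y) ((h.sc (j + 1)).hω y), h.ω_le hp hj x,
          h.ω_le hp hj y, h.ω_le hp (Nat.le_of_succ_le hj) x, h.ω_le hp (Nat.le_of_succ_le hj) y]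
      refine (sum_le_sum this).trans ?_
      rw [← sum_mul]
      linarith [mul_le_mul_of_nonneg_right hs1 hY0]
    have n2 : nrm p μ (fun i => U i + 8 * V' i + ∑ j ∈ range j₀, σ * 2 ^ j *
        (aa σ kt (fun z => g z i) x j + aa σ kt (fun z => g z i) y j)) ≤
        1500 * (A * dist x y * Y) := by
      refine (nrm_add_le hp hμ _ _).trans ?_
      have := nrm_add_le hp hμ U fun i => 8 * V' i
      rw [nrm_mul hp hμ (by norm_num)] at this
      linarith [mul_le_mul_of_nonneg_right hA (mul_nonneg hr hY0), mul_nonneg hAr hY0]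
    have n3 : nrm p μ (fun i => bb σ J kt (fun z => g z i) x 0 + bb σ J kt (fun z => g z i) y 0) ≤
        2 * (1 + 24 * B₁) := by
      linarith [nrm_add_le hp hμ (fun i => bb σ J kt (fun z => g z i) x 0)
        fun i => bb σ J kt (fun z => g z i) y 0, h.nrm_bb hp hμ hμ1 hg x, h.nrm_bb hp hμ hμ1 hg y]
    refine (nrm_add_le hp hμ _ _).trans ?_
    rw [nrm_mul hp hμ (by positivity), nrm_mul hp hμ (by positivity)]
    refine (add_le_add (mul_le_mul_of_nonneg_left n2 (by positivity))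
      (mul_le_mul_of_nonneg_left n3 (by positivity))).trans (le_of_eq (by ring))
  · intro i ψ h2 hψ
    have := (h.seq hΛ (fun z => g z i) x y).err hW hL (hU0 i) (hV0 i) h2 hψ
      (fun j h1 h2 => hU j (mem_Ico.2 ⟨h1, h2⟩) i) (fun j h1 h2 => by
        have := hV j (mem_Ico.2 ⟨h1, h2⟩) i
        rwa [abs_mul, abs_of_pos (by positivity : 0 < σ * 2 ^ j)] at this) hj₀ hs1
    simp only [avg, h.first] at this
    exact this

lemma decomp (h : Fam p σ A Λ B₁ V J k kt a ω) (hp : 1 ≤ p) (hA : 1 ≤ A) (hΛ : 1 ≤ Λ)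
    (hμ : ∀ i, 0 ≤ μ i) (hμ1 : ∑ i, μ i ≤ 1)
    (hg : ∀ x y, nrm p μ (fun i => g x i - g y i) = dist x y) {H W L ε : ℝ} {Q K : ℕ}
    (hH : 0 ≤ H) (hlip : ∀ x y i, |g x i - g y i| ≤ H * dist x y) (hW : 2 ≤ W) (hL : 1 ≤ L)
    (hQ : 1 ≤ Q) (hK : log (1 + H * (24 * B₁)) / W + Q ≤ K * Q)
    (hε : 3000 * log (1 + L) * (A * (4 * V + 2) ^ (1 / p)) / W +
      (64 + 48 * log (1 + L)) * Λ * (1 + 24 * B₁) / L ≤ ε) (hQε : 1 / (Q : ℝ) ≤ ε)
    (hε2 : 2 * ε ≤ 1) :
    ∃ F : Fin Q × Fin K → X → ι → ℝ,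
      (∀ t x y i, |F t x i - F t y i| ≤ 48 * Λ * dist x y * exp (((t.2 : ℕ) + 1) * Q * W)) ∧
      (∀ t x (s : Finset ι), (∀ i ∈ s, F t x i ≠ 0) →
        ∑ i ∈ s, μ i ≤ ((1 + 24 * B₁) / exp (((t.2 : ℕ) - 1) * Q * W)) ^ p) ∧
      ∀ x y, ((1 - 2 * ε) * dist x y) ^ p ≤ ∑ t, (∑ i, μ i * |F t x i - F t y i| ^ p) / Q ∧
        ∑ t, (∑ i, μ i * |F t x i - F t y i| ^ p) / Q ≤ ((1 + ε) * dist x y) ^ p := by
  have hW0 : 0 < W := by linarith
  have hp0 : 0 < p := by linarith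
  have hQ0 : (0 : ℝ) < Q := by exact_mod_cast hQ
  have hshift : ∀ s t : ℝ, |log s / W + Q - (log t / W + Q)| = |log s - log t| / W := by
    intro s t
    rw [add_sub_add_right_eq_sub, ← sub_div, abs_div, abs_of_pos hW0]
  refine ⟨fun t x i => ∑ j ∈ range J, DD k (fun z => g z i) x j *
    chi Q t.1 t.2 (log (bb σ J kt (fun z => g z i) x j) / W + Q), fun t x y i => ?_,
    fun t x s hs => ?_, fun x y => ?_⟩
  · refine (h.seq hΛ (fun z => g z i) x y).lip (ψ := fun s => chi Q t.1 t.2 (log s / W + Q))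
      (exp_pos _).le (fun s => chi_nonneg hQ _ _) (fun s => chi_le_one _ _) (fun s s' => ?_)
      fun s hs => chi_zero_hi t.1.2 _ ?_
    · refine (chi_lip hQ _ _ _).trans ?_
      rw [hshift, ← mul_div_assoc, div_le_iff₀ hW0]
      linarith [mul_le_mul_of_nonneg_left hW (abs_nonneg (log s - log s'))]
    · have := log_le_log (exp_pos _) hs
      rw [log_exp, ← le_div_iff₀ hW0] at this
      linarith
  · refine markov hp hμ _ (exp_pos _) (h.nrm_bb hp hμ hμ1 (fun x y => (hg x y).le) x) s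
      fun i hi => ?_
    obtain ⟨j, hj, hne⟩ := exists_ne_zero_of_sum_ne_zero (hs i hi)
    have hq := h.seq hΛ (fun z => g z i) x x
    have hj := (mem_range.1 hj).le
    refine le_trans ?_ (hq.le_zero j hj)
    rw [← le_log_iff_exp_le (by linarith [hq.one_le j hj]), ← le_div_iff₀ hW0]
    by_contra hlt
    push Not at hlt
    exact right_ne_zero_of_mul hne (chi_zero_lo _ (by linarith))
  obtain ⟨R, hR, hRb⟩ := h.err_norm hp hA hΛ hμ hμ1 (fun x y => (hg x y).le)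
    (by linarith : 1 ≤ W) hL x y
  have hr : 0 ≤ dist x y := dist_nonneg
  have hRε : nrm p μ R ≤ ε * dist x y := hR.trans (mul_le_mul_of_nonneg_right hε hr)
  set F : Fin Q × Fin K → X → ι → ℝ := fun t x i => ∑ j ∈ range J, DD k (fun z => g z i) x j *
    chi Q t.1 t.2 (log (bb σ J kt (fun z => g z i) x j) / W + Q) with hF
  set s : ι → ℝ := fun i => log (max (bb σ J kt (fun z => g z i) x 0)
    (bb σ J kt (fun z => g z i) y 0)) / W + Q with hs
  set ν : (Fin Q × Fin K) × ι → ℝ := fun a => μ a.2 / Q with hν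
  have hν0 : ∀ a, 0 ≤ ν a := fun a => div_nonneg (hμ _) hQ0.le
  have hsum : ∀ f : (Fin Q × Fin K) × ι → ℝ, ∑ a, ν a * |f a| ^ p =
      ∑ i, μ i / Q * ∑ ξ : Fin Q, ∑ l : Fin K, |f ((ξ, l), i)| ^ p := by
    intro f
    rw [Fintype.sum_prod_type_right]
    refine sum_congr rfl fun i _ => ?_
    rw [← Fintype.sum_prod_type (f := fun t : Fin Q × Fin K => |f (t, i)| ^ p), mul_sum]
  set M : (Fin Q × Fin K) × ι → ℝ := fun a => (g x a.2 - g y a.2) * chi Q a.1.1 a.1.2 (s a.2)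
    with hM
  set E : (Fin Q × Fin K) × ι → ℝ := fun a => F a.1 x a.2 - F a.1 y a.2 - M a with hE
  have hEn : nrm p ν E ≤ ε * dist x y := by
    refine le_trans (nrm_le_of hp hν0 (nrm_nonneg hμ R) ?_) hRε
    rw [hsum, nrm_rpow hp hμ]
    refine sum_le_sum fun i _ => ?_
    have key : ∀ ξ : Fin Q, ∑ l : Fin K, |E ((ξ, l), i)| ^ p ≤ |R i| ^ p := by
      intro ξ
      refine (sum_rpow_le hp _ _).trans (rpow_le_rpow (sum_nonneg fun _ _ => abs_nonneg _)
        (le_trans ?_ (le_abs_self _)) hp0.le)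
      set e : Fin K → ℝ := fun l => SignType.sign (E ((ξ, l), i)) with he
      have he1 : ∀ l, |e l| ≤ 1 := fun l => by
        simp only [he]
        rcases (SignType.sign (E ((ξ, l), i))).trichotomy with h | h | h <;> simp [h]
      have hb : ∀ u v : ℝ, |∑ l : Fin K, e l * chi Q ξ l u - ∑ l : Fin K, e l * chi Q ξ l v| ≤
          ∑ l ∈ range K, |chi Q ξ l u - chi Q ξ l v| := by
        intro u v
        rw [← sum_sub_distrib, ← Fin.sum_univ_eq_sum_range fun l => |chi Q ξ l u - chi Q ξ l v|]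
        refine (abs_sum_le_sum_abs _ _).trans (sum_le_sum fun l _ => ?_)
        rw [← mul_sub, abs_mul]
        exact mul_le_of_le_one_left (abs_nonneg _) (he1 l)
      have := hRb i (fun u => ∑ l : Fin K, e l * chi Q ξ l (log u / W + Q))
        (fun u v => (hb _ _).trans (chi_sum_two hQ _ _ _))
        (fun u v => (hb _ _).trans ((chi_sum_lip hQ _ _ _).trans
          (le_of_eq (by rw [hshift]; ring))))
      refine le_trans (le_of_eq ?_) ((le_abs_self _).trans this)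
      simp only [mul_sum]
      rw [sum_comm, sum_comm (s := range J), ← sum_sub_distrib, ← sum_sub_distrib]
      refine sum_congr rfl fun l _ => ?_
      rw [← sign_mul_self]
      change e l * _ = _
      simp only [hE, hF, hM, hs, mul_sub, mul_sum, mul_left_comm (e l)]
    calc μ i / Q * ∑ ξ : Fin Q, ∑ l : Fin K, |E ((ξ, l), i)| ^ p ≤
          μ i / Q * ∑ _ξ : Fin Q, |R i| ^ p :=
          mul_le_mul_of_nonneg_left (sum_le_sum fun ξ _ => key ξ) (div_nonneg (hμ i) hQ0.le)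
      _ = _ := by
          simp only [sum_const, card_univ, Fintype.card_fin, nsmul_eq_mul]
          field_simp
  have hen : ∀ i, (Q : ℝ) - 1 ≤ ∑ ξ : Fin Q, ∑ l : Fin K, |chi Q ξ l (s i)| ^ p ∧
      ∑ ξ : Fin Q, ∑ l : Fin K, |chi Q ξ l (s i)| ^ p ≤ Q := by
    intro i
    have hq := h.seq hΛ (fun z => g z i) x y
    have h1 : 1 ≤ max (bb σ J kt (fun z => g z i) x 0) (bb σ J kt (fun z => g z i) y 0) :=
      le_max_of_le_left (hq.one_le 0 (Nat.zero_le _))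
    have h2 := log_le_log (by linarith) (max_le (h.bb_le hH (fun x y => hlip x y i) x)
      (h.bb_le hH (fun x y => hlip x y i) y))
    have := chi_energy (s := s i) (K := K) hp hQ
      (le_add_of_nonneg_left (div_nonneg (log_nonneg h1) hW0.le))
      (le_trans (add_le_add (div_le_div_of_nonneg_right h2 hW0.le) le_rfl) hK)
    simpa only [sum_range] using this
  have hMs : ∑ a, ν a * |M a| ^ p = ∑ i, μ i * |g x i - g y i| ^ p *
      ((∑ ξ : Fin Q, ∑ l : Fin K, |chi Q ξ l (s i)| ^ p) / Q) := by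
    rw [hsum]
    refine sum_congr rfl fun i _ => ?_
    simp only [hM, abs_mul, mul_rpow (abs_nonneg _) (abs_nonneg _), ← mul_sum]
    ring
  have hgp : ∑ i, μ i * |g x i - g y i| ^ p = dist x y ^ p := by
    rw [← hg x y, nrm_rpow hp hμ]
  have hMup : nrm p ν M ≤ dist x y := by
    refine nrm_le_of hp hν0 hr ?_
    rw [hMs, ← hgp]
    exact sum_le_sum fun i _ => mul_le_of_le_one_right (mul_nonneg (hμ i) (by positivity))
      ((div_le_one hQ0).2 (hen i).2)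
  have hε0 : 0 ≤ ε := le_trans (by positivity) hQε
  have hMlo : (1 - ε) * dist x y ≤ nrm p ν M := by
    refine le_rpow_inv hp0 (mul_nonneg (by linarith) hr) ?_
    rw [hMs, mul_rpow (by linarith) hr, ← hgp, mul_sum]
    refine sum_le_sum fun i _ => ?_
    rw [mul_comm]
    refine mul_le_mul_of_nonneg_left ?_ (mul_nonneg (hμ i) (by positivity))
    have h1 : (1 - ε) ^ p ≤ 1 - ε := by
      simpa using rpow_le_rpow_of_exponent_ge' (by linarith : 0 ≤ 1 - ε) (by linarith)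
        zero_le_one hp
    rw [div_le_iff₀ hQ0] at hQε
    rw [le_div_iff₀ hQ0]
    linarith [(hen i).1, mul_le_mul_of_nonneg_right h1 hQ0.le]
  have hFs : ∑ t, (∑ i, μ i * |F t x i - F t y i| ^ p) / Q =
      nrm p ν (fun a => F a.1 x a.2 - F a.1 y a.2) ^ p := by
    rw [nrm_rpow hp hν0, Fintype.sum_prod_type (α₂ := ι)]
    refine sum_congr rfl fun t _ => ?_
    rw [sum_div]
    exact sum_congr rfl fun i _ => by simp only [hν]; ring
  change _ ≤ ∑ t, (∑ i, μ i * |F t x i - F t y i| ^ p) / Q ∧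
    ∑ t, (∑ i, μ i * |F t x i - F t y i| ^ p) / Q ≤ _
  rw [hFs]
  have t1 := nrm_add_le hp hν0 M E
  have t2 := nrm_add_le hp hν0 (fun a => F a.1 x a.2 - F a.1 y a.2) fun a => -E a
  have t3 : nrm p ν (fun a => -E a) = nrm p ν E := by simp [nrm]
  simp only [hE, add_sub_cancel, neg_sub, add_sub_cancel] at t1 t2 t3
  constructor
  · refine rpow_le_rpow (mul_nonneg (by linarith) hr) ?_ hp0.le
    linarith
  · refine rpow_le_rpow (nrm_nonneg hν0 _) ?_ hp0.le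
    linarith

end Fam

end Vale.Agent.P249
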