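import Vale.Agent.P249.Basic

/-! Merging sparse coordinates and sampling. -/

open Finset Real

namespace Vale.Agent.P249

lemma one_sub_sum_le_prod {ι : Type*} (s : Finset ι) {f : ι → ℝ} (h0 : ∀ i, 0 ≤ f i)
    (h1 : ∀ i, f i ≤ 1) : 1 - ∑ i ∈ s, f i ≤ ∏ i ∈ s, (1 - f i) := by
  classical
  induction s using Finset.induction_on with
  | empty => simp
  | insert a s ha ih =>
    rw [sum_insert ha, prod_insert ha]
    have := mul_le_mul_of_nonneg_left ih (sub_nonneg.2 (h1 a))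
    have := mul_nonneg (h0 a) (sum_nonneg fun i (_ : i ∈ s) => h0 i)
    linarith

section Plant

variable {ι : Type*} [Fintype ι] [DecidableEq ι]

/-- Product weight of a random subset. -/
noncomputable def wt (pr : ι → ℝ) (ω : ι → Bool) : ℝ := ∏ i, if ω i then pr i else 1 - pr i

/-- Multiplicative statistic of a subset containing a planted element. -/
noncomputable def pl (i₀ : ι) (a : ι → ℝ) (ω : ι → Bool) : ℝ :=
  (if ω i₀ then 1 else 0) * ∏ i ∈ univ.erase i₀, if ω i then a i else 1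

lemma wt_sum (pr : ι → ℝ) : ∑ ω, wt pr ω = 1 := by
  unfold wt
  rw [← Fintype.prod_sum fun i (b : Bool) => if b then pr i else 1 - pr i]
  simp

lemma plant (pr a : ι → ℝ) (i₀ : ι) :
    ∑ ω, wt pr ω * pl i₀ a ω = pr i₀ * ∏ i ∈ univ.erase i₀, (1 + pr i * (a i - 1)) := by
  set φ : ι → Bool → ℝ := fun i b => (if b then pr i else 1 - pr i) *
    (if i = i₀ then (if b then 1 else 0) else if b then a i else 1) with hφ
  have h1 : ∀ ω, wt pr ω * pl i₀ a ω = ∏ i, φ i (ω i) := by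
    intro ω
    unfold wt pl
    rw [prod_mul_distrib]
    congr 1
    rw [← mul_prod_erase univ _ (mem_univ i₀), if_pos rfl]
    congr 1
    exact prod_congr rfl fun i hi => by rw [if_neg (ne_of_mem_erase hi)]
  rw [sum_congr rfl fun ω _ => h1 ω, ← Fintype.prod_sum, ← mul_prod_erase univ _ (mem_univ i₀)]
  congr 1
  · simp [hφ]
  · refine prod_congr rfl fun i hi => ?_
    simp only [hφ, if_neg (ne_of_mem_erase hi), Fintype.sum_bool, if_true, Bool.false_eq_true,
      if_false]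
    ring

lemma pl_exp (i₀ : ι) (P : ι → Prop) [DecidablePred P] (c : ℝ) (hc : 0 ≤ c) (ω : ι → Bool)
    (h : ω i₀ = true) : exp (c * ((univ.filter fun i => ω i = true ∧ P i).card - 1)) ≤
      pl i₀ (fun i => if P i then exp c else 1) ω := by
  unfold pl
  rw [if_pos h, one_mul]
  have h1 : ∏ i ∈ univ.erase i₀, (if ω i = true then (if P i then exp c else 1) else 1) =
      exp (c * ∑ i ∈ univ.erase i₀, if ω i = true ∧ P i then 1 else 0) := by
    rw [mul_sum, exp_sum]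
    refine prod_congr rfl fun i _ => ?_
    by_cases h1 : ω i = true <;> by_cases h2 : P i <;> simp [h1, h2]
  rw [h1, exp_le_exp]
  refine mul_le_mul_of_nonneg_left ?_ hc
  rw [card_filter, sum_erase_eq_sub (mem_univ i₀)]
  push_cast
  split_ifs <;> linarith

lemma plant_exp {pr : ι → ℝ} (h0 : ∀ i, 0 ≤ pr i) (i₀ : ι) (P : ι → Prop) [DecidablePred P]
    {c δ : ℝ} (hc : 0 ≤ c) (hδ : ∑ i ∈ univ.filter P, pr i ≤ δ) :
    ∑ ω, wt pr ω * pl i₀ (fun i => if P i then exp c else 1) ω ≤ pr i₀ * exp (δ * exp c) := by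
  rw [plant]
  refine mul_le_mul_of_nonneg_left ?_ (h0 i₀)
  have hc1 : 1 ≤ exp c := one_le_exp hc
  have hf : ∀ i, 0 ≤ pr i * ((if P i then exp c else 1) - 1) := fun i =>
    mul_nonneg (h0 i) (by split_ifs <;> linarith)
  refine (prod_one_add_le_exp_sum _ hf).trans (exp_le_exp.2 ?_)
  refine (sum_le_sum_of_subset_of_nonneg (erase_subset _ _) fun i _ _ => hf i).trans ?_
  refine le_trans ?_ (mul_le_mul_of_nonneg_right hδ (exp_pos c).le)
  rw [sum_filter, sum_mul]
  refine sum_le_sum fun i _ => ?_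
  split_ifs
  · linarith [h0 i]
  · simp

lemma plant_zero {pr : ι → ℝ} (h0 : ∀ i, 0 ≤ pr i) (h1 : ∀ i, pr i ≤ 1) (i₀ : ι) (P : ι → Prop)
    [DecidablePred P] {δ : ℝ} (hδ : ∑ i ∈ univ.filter P, pr i ≤ δ) :
    pr i₀ * (1 - δ) ≤ ∑ ω, wt pr ω * pl i₀ (fun i => if P i then 0 else 1) ω := by
  rw [plant]
  refine mul_le_mul_of_nonneg_left ?_ (h0 i₀)
  have := one_sub_sum_le_prod (univ.erase i₀) (f := fun i => if P i then pr i else 0)
    (fun i => by split_ifs <;> simp [h0 i]) fun i => by split_ifs <;> simp [h1 i]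
  refine le_trans ?_ (this.trans (le_of_eq (prod_congr rfl fun i _ => ?_)))
  · have h2 : ∑ i ∈ univ.erase i₀, (if P i then pr i else 0) ≤ ∑ i, if P i then pr i else 0 :=
      sum_le_sum_of_subset_of_nonneg (erase_subset _ _) fun i _ _ => by
        split_ifs <;> simp [h0 i]
    rw [← sum_filter P pr (s := univ)] at h2
    linarith
  · split_ifs <;> ring

lemma pl_bounds (i₀ : ι) (P : ι → Prop) [DecidablePred P] (ω : ι → Bool) :
    0 ≤ pl i₀ (fun i => if P i then 0 else 1) ω ∧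
      pl i₀ (fun i => if P i then 0 else 1) ω ≤ if ω i₀ then 1 else 0 := by
  unfold pl
  have h0 : ∀ i ∈ univ.erase i₀, (0 : ℝ) ≤ if ω i then (if P i then 0 else 1) else 1 :=
    fun i _ => by split_ifs <;> norm_num
  have h1 : ∀ i ∈ univ.erase i₀, (if ω i then (if P i then 0 else 1) else 1 : ℝ) ≤ 1 :=
    fun i _ => by split_ifs <;> norm_num
  have h2 : (0 : ℝ) ≤ if ω i₀ then 1 else 0 := by split_ifs <;> norm_num
  exact ⟨mul_nonneg h2 (prod_nonneg h0), mul_le_of_le_one_right h2 (prod_le_one h0 h1)⟩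

lemma pl_nonneg (i₀ : ι) (P : ι → Prop) [DecidablePred P] (c : ℝ) (ω : ι → Bool) :
    0 ≤ pl i₀ (fun i => if P i then exp c else 1) ω :=
  mul_nonneg (by split_ifs <;> norm_num) (prod_nonneg fun i _ => by split_ifs <;> positivity)

lemma merge_up {p : ℝ} (hp : 1 ≤ p) (Y : ι → ℝ) (P : ι → Prop) [DecidablePred P]
    (hP : ∀ i, Y i ≠ 0 → P i) (ω : ι → Bool) :
    |∑ i, if ω i then Y i else 0| ^ p ≤
      ∑ i₀, |Y i₀| ^ p * pl i₀ (fun i => if P i then exp p else 1) ω := by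
  set s := univ.filter fun i => ω i = true ∧ P i with hs
  have h1 : ∑ i, (if ω i then Y i else 0) = ∑ i ∈ s, Y i := by
    rw [hs, sum_filter]
    refine sum_congr rfl fun i _ => ?_
    by_cases h1 : ω i = true <;> by_cases h2 : P i <;> simp [h1, h2]
    by_contra h
    exact h2 (hP i h)
  rw [h1]
  refine (rpow_le_rpow (abs_nonneg _) (abs_sum_le_sum_abs _ _) (by linarith)).trans
    ((Real.rpow_sum_le_const_mul_sum_rpow s Y hp).trans ?_)
  rw [mul_sum]
  refine le_trans (sum_le_sum fun i hi => ?_) (sum_le_sum_of_subset_of_nonneg (subset_univ s)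
    fun i _ _ => mul_nonneg (by positivity) (pl_nonneg _ _ _ _))
  rw [mul_comm]
  refine mul_le_mul_of_nonneg_left (le_trans ?_
    (pl_exp i P p (by linarith) ω (mem_filter.1 hi).2.1)) (by positivity)
  have h2 : (1 : ℝ) ≤ s.card := by exact_mod_cast card_pos.2 ⟨i, hi⟩
  have h3 : (s.card : ℝ) ≤ exp (s.card - 1) := by linarith [add_one_le_exp ((s.card : ℝ) - 1)]
  refine (rpow_le_rpow (by linarith) h3 (by linarith)).trans ?_
  rw [← exp_mul, exp_le_exp, ← hs]
  linarith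

lemma merge_lo {p : ℝ} (hp : 1 ≤ p) (Y : ι → ℝ) (P : ι → Prop) [DecidablePred P]
    (hP : ∀ i, Y i ≠ 0 → P i) (ω : ι → Bool) :
    ∑ i₀, |Y i₀| ^ p * pl i₀ (fun i => if P i then 0 else 1) ω ≤
      |∑ i, if ω i then Y i else 0| ^ p := by
  have hp0 : p ≠ 0 := by linarith
  by_cases h : ∃ i₀, |Y i₀| ^ p * pl i₀ (fun i => if P i then 0 else 1) ω ≠ 0
  swap
  · push Not at h
    rw [sum_eq_zero fun i _ => h i]
    positivity
  obtain ⟨i₀, h⟩ := h
  have h1 := right_ne_zero_of_mul h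
  unfold pl at h1
  have h2 : ω i₀ = true := by
    by_contra h2
    simp [h2] at h1
  have h3 : ∀ i, i ≠ i₀ → ω i = true → Y i = 0 := by
    intro i hi hω
    by_contra hY
    have := prod_ne_zero_iff.1 (right_ne_zero_of_mul h1) i (mem_erase.2 ⟨hi, mem_univ _⟩)
    simp [hω, hP i hY] at this
  rw [sum_eq_single i₀, sum_eq_single i₀, if_pos h2]
  · refine mul_le_of_le_one_right (by positivity) ((pl_bounds i₀ P ω).2.trans ?_)
    rw [if_pos h2]
  · intro i _ hi
    split_ifs with hω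
    · exact h3 i hi hω
    · rfl
  · simp
  · intro i _ hi
    by_cases hω : ω i = true
    · simp [h3 i hi hω, hp0]
    · simp [pl, hω]
  · simp

end Plant

lemma compress {X ι : Type*} [Fintype X] [Fintype ι] [DecidableEq ι] {p q δ A : ℝ} (hp : 1 ≤ p)
    {μ : ι → ℝ} (hμ : ∀ i, 0 ≤ μ i) (F : X → ι → ℝ) (hq : 0 < q)
    (hF : ∀ x (s : Finset ι), (∀ i ∈ s, F x i ≠ 0) → ∑ i ∈ s, μ i ≤ q) (hδ0 : 0 < δ)
    (hδ1 : δ ≤ 1) (hA : Fintype.card X * exp (3 - A) ≤ δ) :
    ∃ (w : (ι → Bool) → ℝ) (f : X → (ι → Bool) → ℝ), (∀ ω, 0 ≤ w ω) ∧ ∑ ω, w ω = 1 ∧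
      (∀ x y M, (∀ i, |F x i - F y i| ≤ M) → 0 ≤ M → 0 ≤ A →
        ∀ ω, |f x ω - f y ω| ^ p ≤ 2 * q / δ * (2 * A * M) ^ p) ∧
      ∀ x y, (1 - 2 * δ) * ∑ i, μ i * |F x i - F y i| ^ p ≤ ∑ ω, w ω * |f x ω - f y ω| ^ p ∧
        ∑ ω, w ω * |f x ω - f y ω| ^ p ≤ exp (δ * exp p) * ∑ i, μ i * |F x i - F y i| ^ p := by
  classical
  have hp0 : 0 < p := by linarith
  set c := 2 * q / δ with hc
  have hc0 : 0 < c := by positivity
  set pr : ι → ℝ := fun i => if ∃ x, F x i ≠ 0 then μ i / c else 0 with hpr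
  have h0 : ∀ i, 0 ≤ pr i := fun i => by
    simp only [hpr]
    split_ifs
    · exact div_nonneg (hμ i) hc0.le
    · exact le_rfl
  have hsm : ∀ x (s : Finset ι), (∀ i ∈ s, F x i ≠ 0) → ∑ i ∈ s, pr i ≤ δ / 2 := by
    intro x s hs
    rw [sum_congr rfl fun i hi => show pr i = μ i / c from if_pos ⟨x, hs i hi⟩, ← sum_div,
      div_le_iff₀ hc0]
    refine (hF x s hs).trans (le_of_eq ?_)
    rw [hc]
    field_simp
  have h1 : ∀ i, pr i ≤ 1 := by
    intro i
    by_cases h : ∃ x, F x i ≠ 0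
    · obtain ⟨x, hx⟩ := h
      have := hsm x {i} (by simpa using hx)
      rw [sum_singleton] at this
      linarith
    · simp only [hpr, if_neg h]
      exact zero_le_one
  have hw0 : ∀ ω, 0 ≤ wt pr ω := fun ω => prod_nonneg fun i _ => by
    split_ifs <;> linarith [h0 i, h1 i]
  set good : (ι → Bool) → Prop := fun ω =>
    ∀ x, ((univ.filter fun i => ω i = true ∧ F x i ≠ 0).card : ℝ) ≤ A with hgood
  set f : X → (ι → Bool) → ℝ := fun x ω =>
    if good ω then c ^ (1 / p) * ∑ i, if ω i then F x i else 0 else 0 with hf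
  have hdf : ∀ x y ω, |f x ω - f y ω| ^ p =
      if good ω then c * |∑ i, if ω i then F x i - F y i else 0| ^ p else 0 := by
    intro x y ω
    simp only [hf]
    split_ifs
    · rw [← mul_sub, abs_mul, abs_of_nonneg (by positivity), mul_rpow (by positivity)
        (abs_nonneg _), rpow_inv_rpow hp0 hc0.le, ← sum_sub_distrib]
      congr 4
      ext i
      split_ifs <;> simp
    · simp [hp0.ne']
  refine ⟨wt pr, f, hw0, wt_sum pr, fun x y M hM hM0 hA0 ω => ?_, fun x y => ?_⟩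
  · rw [hdf]
    split_ifs with hω
    swap
    · positivity
    refine mul_le_mul_of_nonneg_left (rpow_le_rpow (abs_nonneg _) ?_ hp0.le) hc0.le
    have : ∀ i, |if ω i then F x i - F y i else 0| ≤ ((if ω i = true ∧ F x i ≠ 0 then 1 else 0) +
        if ω i = true ∧ F y i ≠ 0 then 1 else 0) * M := by
      intro i
      have := hM i
      by_cases h1 : ω i = true <;> by_cases h2 : F x i = 0 <;> by_cases h3 : F y i = 0 <;>
        simp [h1, h2, h3] at this ⊢ <;> linarith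
    refine (abs_sum_le_sum_abs _ _).trans ((sum_le_sum fun i _ => this i).trans ?_)
    rw [← sum_mul, sum_add_distrib, sum_boole, sum_boole]
    exact mul_le_mul_of_nonneg_right (by linarith [hω x, hω y]) hM0
  set Y : ι → ℝ := fun i => F x i - F y i with hY
  set P : ι → Prop := fun i => F x i ≠ 0 ∨ F y i ≠ 0 with hP
  have hYP : ∀ i, Y i ≠ 0 → P i := by
    intro i hi
    by_contra h
    simp only [hP, not_or, not_not] at h
    exact hi (by simp [hY, h.1, h.2])
  have hPδ : ∑ i ∈ univ.filter P, pr i ≤ δ := by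
    rw [filter_or]
    have := sum_union_inter (s₁ := univ.filter fun i => F x i ≠ 0)
      (s₂ := univ.filter fun i => F y i ≠ 0) (f := pr)
    linarith [hsm x _ fun i (hi : i ∈ univ.filter fun i => F x i ≠ 0) => (mem_filter.1 hi).2,
      hsm y _ fun i (hi : i ∈ univ.filter fun i => F y i ≠ 0) => (mem_filter.1 hi).2,
      sum_nonneg fun i (_ : i ∈ (univ.filter fun i => F x i ≠ 0) ∩
        univ.filter fun i => F y i ≠ 0) => h0 i]
  have hcY : ∀ i, c * (|Y i| ^ p * pr i) = μ i * |Y i| ^ p := by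
    intro i
    by_cases h : ∃ x, F x i ≠ 0
    · simp only [hpr, if_pos h]
      field_simp
    · push Not at h
      simp [hY, h, hp0.ne']
  have hYp : ∀ i, 0 ≤ c * |Y i| ^ p := fun i => by positivity
  constructor
  · have key : ∀ ω, ∑ i₀, c * |Y i₀| ^ p * (pl i₀ (fun i => if P i then 0 else 1) ω -
        ∑ z, exp (1 - A) * pl i₀ (fun i => if F z i ≠ 0 then exp 1 else 1) ω) ≤
        |f x ω - f y ω| ^ p := by
      intro ω
      have hz : ∀ i₀ z, 0 ≤ exp (1 - A) * pl i₀ (fun i => if F z i ≠ 0 then exp 1 else 1) ω :=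
        fun i₀ z => mul_nonneg (exp_pos _).le (pl_nonneg _ _ _ _)
      rw [hdf]
      split_ifs with hω
      · refine le_trans ?_ (mul_le_mul_of_nonneg_left (merge_lo hp Y P hYP ω) hc0.le)
        rw [mul_sum]
        refine sum_le_sum fun i₀ _ => ?_
        rw [← mul_assoc]
        exact mul_le_mul_of_nonneg_left (sub_le_self _ (sum_nonneg fun z _ => hz i₀ z)) (hYp i₀)
      · refine sum_nonpos fun i₀ _ => mul_nonpos_of_nonneg_of_nonpos (hYp i₀) (sub_nonpos.2 ?_)
        simp only [hgood, not_forall, not_le] at hω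
        obtain ⟨z, hzA⟩ := hω
        refine (pl_bounds i₀ P ω).2.trans (le_trans ?_
          (single_le_sum (fun z _ => hz i₀ z) (mem_univ z)))
        split_ifs with hi
        · refine le_trans ?_ (mul_le_mul_of_nonneg_left
            (pl_exp i₀ (fun i => F z i ≠ 0) 1 zero_le_one ω hi) (exp_pos _).le)
          rw [← exp_add]
          exact one_le_exp (by linarith)
        · exact hz i₀ z
    refine le_trans ?_ (sum_le_sum fun ω _ => mul_le_mul_of_nonneg_left (key ω) (hw0 ω))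
    simp only [mul_sum]
    rw [sum_comm]
    refine sum_le_sum fun i₀ _ => ?_
    have e1 : ∑ ω, wt pr ω * (c * |Y i₀| ^ p * (pl i₀ (fun i => if P i then 0 else 1) ω -
        ∑ z, exp (1 - A) * pl i₀ (fun i => if F z i ≠ 0 then exp 1 else 1) ω)) =
        c * |Y i₀| ^ p * (∑ ω, wt pr ω * pl i₀ (fun i => if P i then 0 else 1) ω -
          ∑ z, exp (1 - A) * ∑ ω, wt pr ω * pl i₀ (fun i => if F z i ≠ 0 then exp 1 else 1) ω) := by
      simp only [mul_sum (univ : Finset (ι → Bool))]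
      rw [sum_comm, ← sum_sub_distrib, mul_sum]
      refine sum_congr rfl fun ω _ => ?_
      rw [mul_left_comm, mul_sub (wt pr ω), mul_sum]
      simp only [mul_left_comm (wt pr ω)]
    have e2 : ∑ z, exp (1 - A) * ∑ ω, wt pr ω * pl i₀ (fun i => if F z i ≠ 0 then exp 1 else 1) ω
        ≤ pr i₀ * δ := by
      refine le_trans ?_ (mul_le_mul_of_nonneg_left hA (h0 i₀))
      have : ∀ z ∈ (univ : Finset X), exp (1 - A) *
          ∑ ω, wt pr ω * pl i₀ (fun i => if F z i ≠ 0 then exp 1 else 1) ω ≤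
          pr i₀ * exp (3 - A) := by
        intro z _
        refine (mul_le_mul_of_nonneg_left (plant_exp h0 i₀ (fun i => F z i ≠ 0) zero_le_one
          (hsm z _ fun i hi => (mem_filter.1 hi).2)) (exp_pos _).le).trans ?_
        rw [mul_left_comm, ← exp_add]
        refine mul_le_mul_of_nonneg_left (exp_le_exp.2 ?_) (h0 i₀)
        nlinarith [exp_one_lt_d9, exp_pos 1]
      refine (sum_le_sum this).trans (le_of_eq ?_)
      simp only [sum_const, card_univ, nsmul_eq_mul]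
      ring
    rw [e1, ← hcY]
    have e3 := plant_zero h0 h1 i₀ P hPδ
    linarith [mul_le_mul_of_nonneg_left (sub_le_sub e3 e2) (hYp i₀)]
  · have key : ∀ ω, |f x ω - f y ω| ^ p ≤
        ∑ i₀, c * |Y i₀| ^ p * pl i₀ (fun i => if P i then exp p else 1) ω := by
      intro ω
      rw [hdf]
      split_ifs with hω
      · refine (mul_le_mul_of_nonneg_left (merge_up hp Y P hYP ω) hc0.le).trans (le_of_eq ?_)
        simp only [mul_sum, mul_assoc]
      · exact sum_nonneg fun i₀ _ => mul_nonneg (hYp i₀) (pl_nonneg _ _ _ _)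
    refine (sum_le_sum fun ω _ => mul_le_mul_of_nonneg_left (key ω) (hw0 ω)).trans ?_
    simp only [mul_sum]
    rw [sum_comm]
    refine sum_le_sum fun i₀ _ => ?_
    simp only [mul_left_comm (wt pr _), ← mul_sum]
    rw [← hcY]
    linarith [mul_le_mul_of_nonneg_left (plant_exp h0 i₀ P hp0.le hPδ) (hYp i₀)]

lemma exists_le_mean {Ω : Type*} [Fintype Ω] {w : Ω → ℝ} (h0 : ∀ ω, 0 ≤ w ω) (h1 : ∑ ω, w ω = 1)
    (f : Ω → ℝ) : ∃ ω, f ω ≤ ∑ ω, w ω * f ω := by
  have hne : (univ : Finset Ω).Nonempty := by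
    by_contra h
    rw [not_nonempty_iff_eq_empty] at h
    simp [h] at h1
  obtain ⟨ω, -, hω⟩ := exists_min_image univ f hne
  refine ⟨ω, ?_⟩
  rw [← one_mul (f ω), ← h1, sum_mul]
  exact sum_le_sum fun ω' _ => mul_le_mul_of_nonneg_left (hω ω' (mem_univ _)) (h0 ω')

lemma sample_one {Ω κ : Type*} [Fintype Ω] [Fintype κ] {w : Ω → ℝ} (h0 : ∀ ω, 0 ≤ w ω)
    (h1 : ∑ ω, w ω = 1) (V : κ → Ω → ℝ) {M ε : ℝ} (hM : 1 ≤ M) (hε0 : 0 < ε) (hε1 : ε ≤ 1)
    (hV : ∀ a ω, |V a ω| ≤ M) (hm : ∀ a, ∑ ω, w ω * V a ω = 0) {ℓ : ℝ}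
    (hκ : (Fintype.card κ : ℝ) ≤ exp ℓ) {d : ℕ} (hd : 4 * M ^ 2 * ℓ / ε ^ 2 ≤ d) :
    ∃ ω : Fin d → Ω, ∀ a, ∑ s, V a (ω s) ≤ ε * d := by
  set η := ε / (2 * M ^ 2) with hη
  have hη0 : 0 < η := by positivity
  have hηM : η * M ≤ 1 := by
    rw [hη, div_mul_eq_mul_div, div_le_one (by positivity)]
    nlinarith
  have hmgf : ∀ a, ∑ ω, w ω * exp (η * V a ω) ≤ exp ((η * M) ^ 2) := by
    intro a
    have : ∀ ω, exp (η * V a ω) ≤ exp ((η * M) ^ 2) + η * V a ω := by
      intro ω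
      have k1 : |η * V a ω| ≤ η * M := by
        rw [abs_mul, abs_of_pos hη0]
        exact mul_le_mul_of_nonneg_left (hV a ω) hη0.le
      have k2 := (abs_le.1 (abs_exp_sub_one_sub_id_le (k1.trans hηM))).2
      have k3 := pow_le_pow_left₀ (abs_nonneg _) k1 2
      rw [sq_abs] at k3
      linarith [add_one_le_exp ((η * M) ^ 2)]
    refine (sum_le_sum fun ω _ => mul_le_mul_of_nonneg_left (this ω) (h0 ω)).trans (le_of_eq ?_)
    simp only [mul_add, sum_add_distrib, ← sum_mul, h1, mul_left_comm (w _) η, ← mul_sum, hm]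
    ring
  have key : ∀ d : ℕ, ∃ ω : Fin d → Ω,
      ∑ a, exp (η * ∑ s, V a (ω s)) ≤ exp ℓ * exp ((η * M) ^ 2 * d) := by
    intro d
    induction d with
    | zero => exact ⟨Fin.elim0, by simpa using hκ⟩
    | succ d ih =>
      obtain ⟨ω, hω⟩ := ih
      obtain ⟨ω', hω'⟩ := exists_le_mean h0 h1
        fun ω' => ∑ a, exp (η * V a ω') * exp (η * ∑ s, V a (ω s))
      refine ⟨Fin.cons ω' ω, ?_⟩
      simp only [Fin.sum_univ_succ, Fin.cons_zero, Fin.cons_succ, mul_add, exp_add]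
      refine hω'.trans ?_
      simp only [mul_sum (univ : Finset κ)]
      rw [sum_comm]
      simp only [← mul_assoc, ← sum_mul]
      refine (sum_le_sum fun a _ => mul_le_mul_of_nonneg_right (hmgf a) (exp_pos _).le).trans ?_
      rw [← mul_sum]
      refine (mul_le_mul_of_nonneg_left hω (exp_pos _).le).trans (le_of_eq ?_)
      push_cast
      rw [mul_add, exp_add, mul_one]
      ring
  obtain ⟨ω, hω⟩ := key d
  refine ⟨ω, fun a => ?_⟩
  have k1 := (single_le_sum (f := fun a => exp (η * ∑ s, V a (ω s))) (fun _ _ => (exp_pos _).le)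
    (mem_univ a)).trans hω
  rw [← exp_add, exp_le_exp] at k1
  refine le_of_mul_le_mul_left (k1.trans ?_) hη0
  rw [div_le_iff₀ (by positivity)] at hd
  have e1 : (η * M) ^ 2 * d = η * (ε * d) / 2 := by rw [hη]; field_simp
  have e2 : η * (ε * d) = d * ε ^ 2 / (2 * M ^ 2) := by rw [hη]; field_simp
  have e3 : ℓ ≤ η * (ε * d) / 2 := by
    rw [e2, div_div, le_div_iff₀ (by positivity)]
    linarith
  linarith

lemma sample_two {Ω κ : Type*} [Fintype Ω] [Fintype κ] {w : Ω → ℝ} (h0 : ∀ ω, 0 ≤ w ω)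
    (h1 : ∑ ω, w ω = 1) (Z : κ → Ω → ℝ) {M ε : ℝ} (hM : 1 ≤ M) (hε0 : 0 < ε) (hε1 : ε ≤ 1)
    (hZ0 : ∀ a ω, 0 ≤ Z a ω) (hZ : ∀ a ω, Z a ω ≤ M) {ℓ : ℝ}
    (hκ : 2 * (Fintype.card κ : ℝ) ≤ exp ℓ) {d : ℕ} (hd : 4 * M ^ 2 * ℓ / ε ^ 2 ≤ d) :
    ∃ ω : Fin d → Ω, ∀ a, |∑ s, Z a (ω s) - d * ∑ ω, w ω * Z a ω| ≤ ε * d := by
  have hm0 : ∀ a, 0 ≤ ∑ ω, w ω * Z a ω := fun a => sum_nonneg fun ω _ => mul_nonneg (h0 ω) (hZ0 a ω)
  have hmM : ∀ a, ∑ ω, w ω * Z a ω ≤ M := fun a => by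
    rw [← one_mul M, ← h1, sum_mul]
    exact sum_le_sum fun ω _ => mul_le_mul_of_nonneg_left (hZ a ω) (h0 ω)
  obtain ⟨ω, hω⟩ := sample_one (κ := Bool × κ) h0 h1
    (fun a ω => (if a.1 then 1 else -1) * (Z a.2 ω - ∑ ω, w ω * Z a.2 ω)) hM hε0 hε1
    (fun a ω => by
      rw [abs_mul, show |(if a.1 then 1 else -1 : ℝ)| = 1 by split_ifs <;> simp, one_mul, abs_le]
      constructor <;> linarith [hm0 a.2, hmM a.2, hZ0 a.2 ω, hZ a.2 ω])
    (fun a => by
      simp only [mul_left_comm (w _), ← mul_sum, mul_sub (w _), sum_sub_distrib, ← sum_mul, h1]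
      ring)
    (by simpa using hκ) hd
  refine ⟨ω, fun a => ?_⟩
  have k1 := hω (true, a)
  have k2 := hω (false, a)
  simp only [if_true, Bool.false_eq_true, if_false, ← mul_sum, sum_sub_distrib, sum_const,
    card_univ, Fintype.card_fin, nsmul_eq_mul] at k1 k2
  rw [abs_le]
  constructor <;> linarith

end Vale.Agent.P249
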