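import Vale.Agent.P249.Decomp
import Vale.Agent.P249.Sample

/-! The embedding with explicit parameters. -/

open Finset Real

namespace Vale.Agent.P249

variable {X : Type*} [Fintype X] [MetricSpace X] {ι : Type*} [Fintype ι]

lemma density {p ℓ : ℝ} (hp : 1 ≤ p) (hℓ : 0 ≤ ℓ) [Nonempty X] (F : X → ι → ℝ)
    (hF : ∀ x y, dist x y ^ p = ∑ i, |F x i - F y i| ^ p) (hn : (Fintype.card X : ℝ) ≤ exp ℓ) :
    ∃ (μ : ι → ℝ) (g : X → ι → ℝ), (∀ i, 0 ≤ μ i) ∧ ∑ i, μ i ≤ 1 ∧
      (∀ x y, nrm p μ (fun i => g x i - g y i) = dist x y) ∧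
      ∀ x y i, |g x i - g y i| ≤ exp (2 * ℓ) * dist x y := by
  have hp0 : 0 < p := by linarith
  set n : ℝ := (Fintype.card X : ℝ) with hnd
  have hn0 : 0 < n := by rw [hnd]; exact_mod_cast Fintype.card_pos
  set μ : ι → ℝ := fun i => (∑ a : X × X, |F a.1 i - F a.2 i| ^ p / dist a.1 a.2 ^ p) / n ^ 2
    with hμ
  have hμ0 : ∀ i, 0 ≤ μ i := fun i =>
    div_nonneg (sum_nonneg fun a _ => by positivity) (by positivity)
  have hkey : ∀ x y i, |F x i - F y i| ^ p ≤ μ i * (n ^ 2 * dist x y ^ p) := by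
    intro x y i
    rcases eq_or_ne x y with rfl | hne
    · simp [hp0.ne']
    have hd : 0 < dist x y ^ p := rpow_pos_of_pos (dist_pos.2 hne) p
    have := single_le_sum (f := fun a : X × X => |F a.1 i - F a.2 i| ^ p / dist a.1 a.2 ^ p)
      (fun a _ => by positivity) (mem_univ (x, y))
    rw [div_le_iff₀ hd] at this
    refine this.trans (le_of_eq ?_)
    simp only [hμ]
    field_simp
  have hg : ∀ x y i, μ i * |F x i / μ i ^ (1 / p) - F y i / μ i ^ (1 / p)| ^ p =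
      |F x i - F y i| ^ p := by
    intro x y i
    rcases (hμ0 i).eq_or_lt with h | h
    · have := hkey x y i
      rw [← h, zero_mul] at this ⊢
      exact le_antisymm (by positivity) this
    · rw [← sub_div, abs_div, abs_of_pos (rpow_pos_of_pos h _),
        div_rpow (abs_nonneg _) (by positivity), rpow_inv_rpow hp0 h.le]
      field_simp
  refine ⟨μ, fun x i => F x i / μ i ^ (1 / p), hμ0, ?_, fun x y => ?_, fun x y i => ?_⟩
  · simp only [hμ]
    rw [← sum_div, div_le_one (by positivity), sum_comm]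
    calc _ ≤ ∑ _a : X × X, (1 : ℝ) := sum_le_sum fun a _ => by
          rw [← sum_div, ← hF]
          exact div_self_le_one _
      _ = n ^ 2 := by simp [hnd, sq]
  · unfold nrm
    simp only [hg]
    rw [← hF, rpow_rpow_inv hp0 dist_nonneg]
  · beta_reduce
    rcases (hμ0 i).eq_or_lt with h | h
    · rw [← h, zero_rpow (by positivity)]
      simp only [div_zero, sub_self, abs_zero]
      positivity
    refine (rpow_le_rpow_iff (abs_nonneg _) (by positivity) hp0).1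
      (le_of_mul_le_mul_left ?_ h)
    rw [hg, mul_rpow (by positivity) dist_nonneg]
    refine (hkey x y i).trans (mul_le_mul_of_nonneg_left
      (mul_le_mul_of_nonneg_right ?_ (by positivity)) h.le)
    have h1 : n ^ 2 ≤ exp (2 * ℓ) := by
      rw [two_mul, exp_add, ← sq]
      exact pow_le_pow_left₀ hn0.le hn 2
    refine h1.trans ?_
    simpa using rpow_le_rpow_of_exponent_le (one_le_exp (by linarith : 0 ≤ 2 * ℓ)) hp

lemma Fam.embed [Nonempty X] {p σ A Λ B₁ V ℓ : ℝ} {J : ℕ} {k kt : ℕ → X → X → ℝ}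
    {a ω : ℕ → X → ℝ} (h : Fam p σ A Λ B₁ V J k kt a ω) (hp : 1 ≤ p) (hℓ : 1 ≤ ℓ) (hA : 1 ≤ A)
    (hΛ : 1 ≤ Λ) (hB : 0 ≤ B₁) (F : X → ι → ℝ)
    (hF : ∀ x y, dist x y ^ p = ∑ i, |F x i - F y i| ^ p) (hn : (Fintype.card X : ℝ) ≤ exp ℓ)
    {W L ε M : ℝ} {Q K d : ℕ} (hW : 2 ≤ W) (hL : 1 ≤ L) (hQ : 1 ≤ Q)
    (hK : 2 * ℓ + 24 * B₁ + 1 ≤ K)
    (hε : 3000 * log (1 + L) * (A * (4 * V + 2) ^ (1 / p)) / W +
      (64 + 48 * log (1 + L)) * Λ * (1 + 24 * B₁) / L ≤ ε) (hQε : 1 / (Q : ℝ) ≤ ε)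
    (hε2 : 2 * ε ≤ 1) (hM1 : 1 ≤ M)
    (hM : K * (2 / ε * (96 * (ℓ + 3 + 1 / ε) * Λ * (1 + 24 * B₁) * exp (2 * Q * W)) ^ p) ≤ M)
    (hd : 4 * M ^ 2 * (3 * ℓ) / ε ^ 2 ≤ d) :
    ∃ (f : X → Fin d → ℝ) (c : ℝ), 0 < c ∧ ∀ x y,
      c * ((1 - 2 * ε) * (1 - 2 * ε) ^ p - ε) * dist x y ^ p ≤ ∑ s, |f x s - f y s| ^ p ∧
      ∑ s, |f x s - f y s| ^ p ≤ c * (exp (ε * exp p) * (1 + ε) ^ p + ε) * dist x y ^ p := by
  classical
  have hp0 : 0 < p := by linarith
  have hQ1 : (1 : ℝ) ≤ Q := by exact_mod_cast hQ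
  have hQ0 : (0 : ℝ) < Q := by linarith
  have hε0 : 0 < ε := lt_of_lt_of_le (by positivity) hQε
  have hK0 : (0 : ℝ) < K := by linarith
  obtain ⟨μ, g, hμ, hμ1, hg, hlip⟩ := density hp (by linarith) F hF hn
  obtain ⟨G, hG1, hG2, hG3⟩ := h.decomp (K := K) hp hA hΛ hμ hμ1 hg (exp_pos _).le hlip hW hL hQ
    (by
      have h1 : 1 ≤ exp (2 * ℓ) := one_le_exp (by linarith)
      have h2 : log (1 + exp (2 * ℓ) * (24 * B₁)) ≤ log (exp (2 * ℓ) * (1 + 24 * B₁)) :=
        log_le_log (by positivity) (by linarith)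
      rw [log_mul (by positivity) (by positivity), log_exp] at h2
      have h3 := log_le_sub_one_of_pos (by positivity : 0 < 1 + 24 * B₁)
      have h4 : log (1 + exp (2 * ℓ) * (24 * B₁)) / W ≤ log (1 + exp (2 * ℓ) * (24 * B₁)) :=
        div_le_self (log_nonneg (le_add_of_nonneg_right (by positivity))) (by linarith)
      linarith [mul_le_mul_of_nonneg_left hQ1 (by linarith : (0 : ℝ) ≤ K - 1)])
    hε hQε hε2
  have hA₀ : Fintype.card X * exp (3 - (ℓ + 3 + 1 / ε)) ≤ ε := by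
    refine (mul_le_mul_of_nonneg_right hn (exp_pos _).le).trans ?_
    rw [← exp_add, show ℓ + (3 - (ℓ + 3 + 1 / ε)) = -(1 / ε) by ring, exp_neg,
      inv_le_comm₀ (exp_pos _) hε0, ← one_div]
    linarith [add_one_le_exp (1 / ε)]
  choose w f hw0 hw1 hf1 hf2 using fun t : Fin Q × Fin K =>
    compress hp hμ (G t) (by positivity) (hG2 t) hε0 (by linarith) hA₀
  set w' : (Fin Q × Fin K) × (ι → Bool) → ℝ := fun a => w a.1 a.2 / (Q * K) with hw'
  set Z : X × X → (Fin Q × Fin K) × (ι → Bool) → ℝ := fun b a =>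
    K * |f a.1 b.1 a.2 - f a.1 b.2 a.2| ^ p / dist b.1 b.2 ^ p with hZ
  obtain ⟨s, hs⟩ := sample_two (w := w') (fun a => div_nonneg (hw0 _ _) (by positivity)) (by
      rw [Fintype.sum_prod_type]
      simp only [hw', ← sum_div, hw1]
      simp only [sum_const, card_univ, Fintype.card_prod, Fintype.card_fin, nsmul_eq_mul]
      push_cast
      field_simp) Z hM1 hε0 (by linarith) (fun b a => by positivity) (fun b a => by
      refine le_trans (div_le_of_le_mul₀ (by positivity) (by positivity) ?_) hM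
      rw [mul_assoc]
      refine mul_le_mul_of_nonneg_left ((hf1 a.1 b.1 b.2 _ (hG1 a.1 b.1 b.2) (by positivity)
        (by positivity) a.2).trans (le_of_eq ?_)) hK0.le
      rw [mul_assoc (2 / ε), ← mul_rpow (by positivity) dist_nonneg, mul_div_right_comm, mul_assoc,
        ← mul_rpow (by positivity) (by positivity)]
      congr 2
      have : exp ((((a.1.2 : ℕ) : ℝ) + 1) * Q * W) =
          exp (2 * Q * W) * exp ((((a.1.2 : ℕ) : ℝ) - 1) * Q * W) := by
        rw [← exp_add]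
        ring_nf
      rw [this]
      field_simp
      ring) (ℓ := 3 * ℓ) (by
      rw [Fintype.card_prod]
      push_cast
      have h1 := mul_le_mul hn hn (Nat.cast_nonneg _) (exp_pos _).le
      have h2 : exp (3 * ℓ) = exp ℓ * (exp ℓ * exp ℓ) := by rw [← exp_add, ← exp_add]; ring_nf
      have h3 := add_one_le_exp ℓ
      rw [h2]
      exact mul_le_mul (by linarith) h1 (by positivity) (by positivity)) hd
  have hd0 : (0 : ℝ) < d := lt_of_lt_of_le (by positivity) hd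
  refine ⟨fun x j => f (s j).1 x (s j).2, d / K, by positivity, fun x y => ?_⟩
  rcases eq_or_ne x y with rfl | hne
  · simp [hp0.ne']
  have hr : 0 < dist x y ^ p := rpow_pos_of_pos (dist_pos.2 hne) p
  have e1 : ∑ j, |f (s j).1 x (s j).2 - f (s j).1 y (s j).2| ^ p =
      (∑ j, Z (x, y) (s j)) / K * dist x y ^ p := by
    simp only [hZ, ← sum_div, ← mul_sum]
    field_simp
  have e2 : ∑ a, w' a * Z (x, y) a =
      (∑ t, (∑ b, w t b * |f t x b - f t y b| ^ p) / Q) / dist x y ^ p := by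
    rw [Fintype.sum_prod_type, sum_div]
    refine sum_congr rfl fun t _ => ?_
    rw [sum_div, sum_div]
    refine sum_congr rfl fun b _ => ?_
    simp only [hw', hZ]
    field_simp
  obtain ⟨g1, g2⟩ := hG3 x y
  rw [mul_rpow (by linarith) dist_nonneg] at g1 g2
  have m1 : (1 - 2 * ε) * (1 - 2 * ε) ^ p ≤ ∑ a, w' a * Z (x, y) a := by
    rw [e2, le_div_iff₀ hr, mul_assoc]
    refine (mul_le_mul_of_nonneg_left g1 (by linarith)).trans ?_
    rw [mul_sum]
    refine sum_le_sum fun t _ => ?_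
    rw [← mul_div_assoc]
    exact div_le_div_of_nonneg_right (hf2 t x y).1 hQ0.le
  have m2 : ∑ a, w' a * Z (x, y) a ≤ exp (ε * exp p) * (1 + ε) ^ p := by
    rw [e2, div_le_iff₀ hr, mul_assoc]
    refine le_trans ?_ (mul_le_mul_of_nonneg_left g2 (exp_pos _).le)
    rw [mul_sum]
    refine sum_le_sum fun t _ => ?_
    rw [← mul_div_assoc]
    exact div_le_div_of_nonneg_right (hf2 t x y).2 hQ0.le
  obtain ⟨k1, k2⟩ := abs_le.1 (hs (x, y))
  rw [e1]
  constructor
  · refine mul_le_mul_of_nonneg_right ?_ hr.le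
    rw [div_mul_eq_mul_div]
    refine div_le_div_of_nonneg_right ?_ hK0.le
    linarith [mul_le_mul_of_nonneg_left m1 hd0.le]
  · refine mul_le_mul_of_nonneg_right ?_ hr.le
    rw [div_mul_eq_mul_div]
    refine div_le_div_of_nonneg_right ?_ hK0.le
    linarith [mul_le_mul_of_nonneg_left m2 hd0.le]

end Vale.Agent.P249
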