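import Vale.Agent.P249.Basic

/-! Scalar inequalities: isometries of finite subsets keep disjointness of supports. -/

open Finset Real

namespace Vale.Agent.P249

/-- The Clarkson defect. -/
noncomputable def cl (q a b : ℝ) : ℝ := |a + b| ^ q + |a - b| ^ q - 2 * |a| ^ q - 2 * |b| ^ q

lemma abs_rpow_sq (q x : ℝ) : |x| ^ q = (x ^ 2) ^ (q / 2) := by
  rw [← sq_abs, ← rpow_natCast, ← rpow_mul (abs_nonneg x)]
  congr 1
  push_cast
  ring

lemma rpow_split {r A : ℝ} (hA : 0 < A) : A ^ r = A * A ^ (r - 1) := by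
  rw [rpow_sub_one hA.ne']
  field_simp

lemma super_add {r A B : ℝ} (hr : 1 < r) (hA : 0 < A) (hB : 0 < B) :
    A ^ r + B ^ r < (A + B) ^ r := by
  rw [rpow_split hA, rpow_split hB, rpow_split (add_pos hA hB), add_mul]
  exact add_lt_add
    (mul_lt_mul_of_pos_left (rpow_lt_rpow hA.le (by linarith) (by linarith)) hA)
    (mul_lt_mul_of_pos_left (rpow_lt_rpow hB.le (by linarith) (by linarith)) hB)

lemma sub_add {r A B : ℝ} (hr : r < 1) (hA : 0 < A) (hB : 0 < B) :
    (A + B) ^ r < A ^ r + B ^ r := by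
  rw [rpow_split hA, rpow_split hB, rpow_split (add_pos hA hB), add_mul]
  exact add_lt_add
    (mul_lt_mul_of_pos_left (rpow_lt_rpow_of_neg hA (by linarith) (by linarith)) hA)
    (mul_lt_mul_of_pos_left (rpow_lt_rpow_of_neg hB (by linarith) (by linarith)) hB)

lemma cl_zero {q a b : ℝ} (hq : 0 < q) (h : a * b = 0) : cl q a b = 0 := by
  unfold cl
  rcases mul_eq_zero.1 h with rfl | rfl
  · simp [zero_rpow hq.ne']
    ring
  · simp [zero_rpow hq.ne']
    ring

lemma cl_pos {q a b : ℝ} (hq : 2 < q) (h : a * b ≠ 0) : 0 < cl q a b := by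
  have ha : 0 < a ^ 2 := sq_pos_of_ne_zero (left_ne_zero_of_mul h)
  have hb : 0 < b ^ 2 := sq_pos_of_ne_zero (right_ne_zero_of_mul h)
  have h1 := super_add (r := q / 2) (by linarith) ha hb
  have h2 := (convexOn_rpow (p := q / 2) (by linarith)).2 (Set.mem_Ici.2 (sq_nonneg (a + b)))
    (Set.mem_Ici.2 (sq_nonneg (a - b))) (by norm_num : (0 : ℝ) ≤ 1 / 2)
    (by norm_num : (0 : ℝ) ≤ 1 / 2) (by norm_num)
  simp only [smul_eq_mul] at h2
  rw [show 1 / 2 * (a + b) ^ 2 + 1 / 2 * (a - b) ^ 2 = a ^ 2 + b ^ 2 by ring] at h2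
  unfold cl
  simp only [abs_rpow_sq]
  linarith

lemma cl_neg {q a b : ℝ} (hq0 : 0 < q) (hq : q < 2) (h : a * b ≠ 0) : cl q a b < 0 := by
  have ha : 0 < a ^ 2 := sq_pos_of_ne_zero (left_ne_zero_of_mul h)
  have hb : 0 < b ^ 2 := sq_pos_of_ne_zero (right_ne_zero_of_mul h)
  have h1 := sub_add (r := q / 2) (by linarith) ha hb
  have h2 := (Real.concaveOn_rpow (p := q / 2) (by linarith) (by linarith)).2
    (Set.mem_Ici.2 (sq_nonneg (a + b)))
    (Set.mem_Ici.2 (sq_nonneg (a - b))) (by norm_num : (0 : ℝ) ≤ 1 / 2)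
    (by norm_num : (0 : ℝ) ≤ 1 / 2) (by norm_num)
  simp only [smul_eq_mul] at h2
  rw [show 1 / 2 * (a + b) ^ 2 + 1 / 2 * (a - b) ^ 2 = a ^ 2 + b ^ 2 by ring] at h2
  unfold cl
  simp only [abs_rpow_sq]
  linarith

lemma disj_iff {q : ℝ} (hq0 : 0 < q) (hq : q ≠ 2) {ι : Type*} [Fintype ι] (x y : ι → ℝ) :
    ∑ i, cl q (x i) (y i) = 0 ↔ ∀ i, x i * y i = 0 := by
  refine ⟨fun h => ?_, fun h => sum_eq_zero fun i _ => cl_zero hq0 (h i)⟩
  by_contra hne
  push Not at hne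
  obtain ⟨j, hj⟩ := hne
  rcases lt_or_gt_of_ne hq with h2 | h2
  · refine absurd h (ne_of_lt (sum_neg' (fun i _ => ?_) ⟨j, mem_univ _, cl_neg hq0 h2 hj⟩))
    by_cases hi : x i * y i = 0
    · exact (cl_zero hq0 hi).le
    · exact (cl_neg hq0 h2 hi).le
  · refine absurd h (ne_of_gt (sum_pos' (fun i _ => ?_) ⟨j, mem_univ _, cl_pos h2 hj⟩))
    by_cases hi : x i * y i = 0
    · exact (cl_zero hq0 hi).ge
    · exact (cl_pos h2 hi).le

/-- The midpoint defect. -/
noncomputable def md (q a b : ℝ) : ℝ := 2 ^ q * (|a| ^ q + |b| ^ q) / 2 - |a - b| ^ q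

lemma md_zero {q : ℝ} (a : ℝ) : md q a (-a) = 0 := by
  unfold md
  rw [abs_neg, sub_neg_eq_add, ← two_mul a, abs_mul, abs_two, mul_rpow zero_le_two (abs_nonneg a)]
  ring

lemma md_pos {q a b : ℝ} (hq : 1 < q) (h : b ≠ -a) : 0 < md q a b := by
  have h2 : (0 : ℝ) < 2 ^ q := by positivity
  unfold md
  by_cases hab : |a| = |b|
  · rcases abs_eq_abs.1 hab with rfl | h'
    · have ha : a ≠ 0 := fun h0 => h (by simp [h0])
      have : 0 < |a| ^ q := rpow_pos_of_pos (abs_pos.2 ha) _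
      rw [sub_self, abs_zero, zero_rpow (by linarith), sub_zero]
      positivity
    · exact absurd (by rw [h', neg_neg]) h
  · have h1 := (strictConvexOn_rpow hq).2 (Set.mem_Ici.2 (abs_nonneg a))
      (Set.mem_Ici.2 (abs_nonneg b)) hab (by norm_num : (0 : ℝ) < 1 / 2)
      (by norm_num : (0 : ℝ) < 1 / 2) (by norm_num)
    simp only [smul_eq_mul] at h1
    have h3 : |a - b| ^ q ≤ (2 * (1 / 2 * |a| + 1 / 2 * |b|)) ^ q :=
      rpow_le_rpow (abs_nonneg _) (by linarith [abs_sub a b]) (by linarith)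
    rw [mul_rpow zero_le_two (by positivity)] at h3
    linarith [mul_lt_mul_of_pos_left h1 h2]

lemma mid_iff {q : ℝ} (hq : 1 < q) {ι : Type*} [Fintype ι] (x y : ι → ℝ)
    (h : ∑ i, md q (x i) (y i) = 0) (j : ι) : y j = -x j := by
  by_contra hj
  refine absurd h (ne_of_gt (sum_pos' (fun i _ => ?_) ⟨j, mem_univ _, md_pos hq hj⟩))
  by_cases hi : y i = -x i
  · rw [hi, md_zero]
  · exact (md_pos hq hi).le

variable {ι κ : Type*} [Fintype ι] [Fintype κ] {q c : ℝ} {X : Set (ι → ℝ)}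
  {g : (ι → ℝ) → κ → ℝ}

lemma iso_neg (hq : 1 < q) (h0 : g 0 = 0) (hX : (0 : ι → ℝ) ∈ X)
    (hg : ∀ x ∈ X, ∀ y ∈ X, ∑ k, |g x k - g y k| ^ q = c * ∑ i, |x i - y i| ^ q)
    {x : ι → ℝ} (hx : x ∈ X) (hx' : -x ∈ X) (k : κ) : g (-x) k = -g x k := by
  refine mid_iff hq (g x) (g (-x)) ?_ k
  have a1 := hg x hx 0 hX
  have a2 := hg (-x) hx' 0 hX
  have a3 := hg x hx (-x) hx'
  have a4 : ∑ i, md q (x i) (-x i) = 0 := sum_eq_zero fun i _ => md_zero _
  simp only [h0, Pi.zero_apply, sub_zero, Pi.neg_apply] at a1 a2 a3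
  simp only [md, sum_sub_distrib, ← sum_div, ← mul_sum, sum_add_distrib] at a4 ⊢
  rw [a1, a2, a3]
  linear_combination c * a4

lemma iso_disj (hq : 1 < q) (hq2 : q ≠ 2) (hc : c ≠ 0) (h0 : g 0 = 0) (hX : (0 : ι → ℝ) ∈ X)
    (hg : ∀ x ∈ X, ∀ y ∈ X, ∑ k, |g x k - g y k| ^ q = c * ∑ i, |x i - y i| ^ q)
    {x y : ι → ℝ} (hx : x ∈ X) (hy : y ∈ X) (hy' : -y ∈ X) :
    (∀ k, g x k * g y k = 0) ↔ ∀ i, x i * y i = 0 := by
  rw [← disj_iff (by linarith) hq2, ← disj_iff (by linarith) hq2]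
  have a1 := hg x hx 0 hX
  have a2 := hg y hy 0 hX
  have a3 := hg x hx y hy
  have a4 := hg x hx (-y) hy'
  simp only [iso_neg hq h0 hX hg hy hy', h0, Pi.zero_apply, sub_zero, Pi.neg_apply,
    sub_neg_eq_add] at a1 a2 a3 a4
  have : ∑ k, cl q (g x k) (g y k) = c * ∑ i, cl q (x i) (y i) := by
    simp only [cl, sum_sub_distrib, ← mul_sum, sum_add_distrib]
    rw [a1, a2, a3, a4]
    ring
  rw [this, mul_eq_zero, or_iff_right hc]

/-- Rows and columns of a grid need a quadratic number of coordinates. -/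
lemma grid_lower (hq : 1 < q) (hq2 : q ≠ 2) (m : ℕ) :
    ∃ X : Finset (Fin m × Fin m → ℝ), X.card ≤ 4 * m + 1 ∧
      ∀ (d : ℕ) (g : (Fin m × Fin m → ℝ) → Fin d → ℝ) (c : ℝ), c ≠ 0 →
        (∀ x ∈ X, ∀ y ∈ X, ∑ k, |g x k - g y k| ^ q = c * ∑ i, |x i - y i| ^ q) → m ^ 2 ≤ d := by
  classical
  let u : Fin m → Fin m × Fin m → ℝ := fun a i => if i.1 = a then 1 else 0
  let v : Fin m → Fin m × Fin m → ℝ := fun a i => if i.2 = a then 1 else 0
  refine ⟨insert 0 ((univ.image u ∪ univ.image fun a => -u a) ∪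
    (univ.image v ∪ univ.image fun a => -v a)), ?_, fun d g c hc hg => ?_⟩
  · refine (card_insert_le _ _).trans (Nat.succ_le_succ ((card_union_le _ _).trans ?_))
    have h : ∀ w : Fin m → Fin m × Fin m → ℝ, (univ.image w).card ≤ m := fun w =>
      card_image_le.trans (by simp)
    linarith [(card_union_le (univ.image u) (univ.image fun a => -u a)),
      (card_union_le (univ.image v) (univ.image fun a => -v a)), h u, h v, h fun a => -u a,
      h fun a => -v a]
  set X : Finset (Fin m × Fin m → ℝ) := insert 0 ((univ.image u ∪ univ.image fun a => -u a) ∪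
    (univ.image v ∪ univ.image fun a => -v a)) with hXd
  have key : ∀ x ∈ X, ∀ y ∈ X, -y ∈ X →
      ((∀ k, (g x k - g 0 k) * (g y k - g 0 k) = 0) ↔ ∀ i, x i * y i = 0) := fun x hx y hy hy' =>
    iso_disj (X := (X : Set _)) (g := fun x k => g x k - g 0 k) hq hq2 hc (by ext; simp)
      (by simp [hXd]) (fun x hx y hy => by simpa using hg x hx y hy) hx hy hy'
  have hu : ∀ a, u a ∈ X := fun a => by simp [hXd]
  have hu' : ∀ a, -u a ∈ X := fun a => by simp [hXd]
  have hv : ∀ a, v a ∈ X := fun a => by simp [hXd]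
  have hv' : ∀ a, -v a ∈ X := fun a => by simp [hXd]
  have hk : ∀ ab : Fin m × Fin m, ∃ k, (g (u ab.1) k - g 0 k) * (g (v ab.2) k - g 0 k) ≠ 0 := by
    intro ab
    by_contra hne
    push Not at hne
    simpa [u, v] using (key _ (hu _) _ (hv _) (hv' _)).1 hne ab
  choose k hk using hk
  have hinj : Function.Injective k := by
    intro ab ab' h
    have h1 := hk ab
    have h2 := hk ab'
    rw [← h] at h2
    refine Prod.ext ?_ ?_
    · by_contra hne
      refine mul_ne_zero (left_ne_zero_of_mul h1) (left_ne_zero_of_mul h2)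
        ((key _ (hu _) _ (hu _) (hu' _)).2 (fun i => ?_) _)
      simp only [u]
      split_ifs with a1 a2
      · exact absurd (a1.symm.trans a2) hne
      all_goals simp
    · by_contra hne
      refine mul_ne_zero (right_ne_zero_of_mul h1) (right_ne_zero_of_mul h2)
        ((key _ (hv _) _ (hv _) (hv' _)).2 (fun i => ?_) _)
      simp only [v]
      split_ifs with a1 a2
      · exact absurd (a1.symm.trans a2) hne
      all_goals simp
  simpa [sq] using Fintype.card_le_of_injective k hinj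

end Vale.Agent.P249
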