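import Vale.Agent.P249.Sharp
import Vale.Agent.P249.Lamp
import Vale.Agent.P249.Ball

/-! Lower bounds on the dimension. -/

open Finset Filter Topology MeasureTheory Metric
open scoped ENNReal

namespace Vale.Agent.P249

universe u

lemma to_fin {p : ℝ≥0∞} [Fact (1 ≤ p)] (hp : p ≠ ∞) {n d : ℕ} {D : ℝ} (h : Embeds.{u} p n D d)
    {ι : Type} [Fintype ι] [Nonempty ι] (X : Finset (ι → ℝ)) (hX : X.card ≤ n) :
    ∃ (g : (ι → ℝ) → PiLp p fun _ : Fin d => ℝ) (s : ℝ), 0 < s ∧ ∀ x ∈ X, ∀ y ∈ X,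
      s * (∑ i, |x i - y i| ^ p.toReal) ^ (1 / p.toReal) ≤ ‖g x - g y‖ ∧
      ‖g x - g y‖ ≤ D * s * (∑ i, |x i - y i| ^ p.toReal) ^ (1 / p.toReal) := by
  classical
  have hp0 : p ≠ 0 := (zero_lt_one.trans_le (Fact.out : 1 ≤ p)).ne'
  have hq : 0 < p.toReal := ENNReal.toReal_pos hp0 hp
  obtain ⟨X', hXX, hX'⟩ := Infinite.exists_superset_card_eq X n hX
  letI : MeasurableSpace (ULift.{u} ι) := ⊤
  let T : (ι → ℝ) → Lp ℝ p (Measure.count : Measure (ULift.{u} ι)) := fun x =>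
    (MemLp.of_discrete (f := fun i : ULift.{u} ι => x i.down)).toLp _
  have hT : ∀ x y, ‖T x - T y‖ = (∑ i, |x i - y i| ^ p.toReal) ^ (1 / p.toReal) := by
    intro x y
    simp only [T]
    rw [← MemLp.toLp_sub, Lp.norm_toLp, eLpNorm_eq_lintegral_rpow_enorm_toReal hp0 hp,
      lintegral_count, tsum_fintype, ← ENNReal.toReal_rpow,
      ENNReal.toReal_sum fun _ _ => ENNReal.rpow_ne_top_of_nonneg hq.le enorm_ne_top]
    congr 1
    refine Fintype.sum_equiv Equiv.ulift _ _ fun i => ?_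
    rw [← ENNReal.toReal_rpow, toReal_enorm]
    rfl
  have hinj : Function.Injective T := by
    intro x y hxy
    have h1 := hT x y
    rw [hxy, sub_self, norm_zero, eq_comm, Real.rpow_eq_zero (by positivity) (by positivity),
      sum_eq_zero_iff_of_nonneg fun _ _ => by positivity] at h1
    funext i
    have := h1 i (mem_univ i)
    rwa [Real.rpow_eq_zero (abs_nonneg _) hq.ne', abs_eq_zero, sub_eq_zero] at this
  obtain ⟨f, s, hs, hf⟩ := h _ _ (X'.image T) (by rw [card_image_of_injective _ hinj, hX'])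
  refine ⟨fun x => f (T x), s, hs, fun x hx y hy => ?_⟩
  rw [← hT]
  exact hf _ (mem_image_of_mem _ (hXX hx)) _ (mem_image_of_mem _ (hXX hy))

lemma pack_count {E ι : Type*} [NormedAddCommGroup E] [NormedSpace ℝ E] [FiniteDimensional ℝ E]
    [Fintype ι] (z : ι → E) (i₀ : ι) {r D : ℝ} (hr : 0 < r) (hD : 0 ≤ D)
    (h1 : ∀ i j, i ≠ j → r ≤ ‖z i - z j‖) (h2 : ∀ i, ‖z i - z i₀‖ ≤ D * r) :
    (Fintype.card ι : ℝ) ≤ (1 + 2 * D) ^ Module.finrank ℝ E := by
  borelize E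
  let μ : Measure E := Measure.addHaar
  have hρ : 0 < (1 + 2 * D) * (r / 2) := by positivity
  have hδ : 0 < r / 2 := by positivity
  have hd : Set.Pairwise ((univ : Finset ι) : Set ι)
      (Function.onFun Disjoint fun i => ball (z i) (r / 2)) := fun i _ j _ hij =>
    ball_disjoint_ball (by rw [dist_eq_norm]; linarith [h1 i j hij])
  have hsub : (⋃ i ∈ (univ : Finset ι), ball (z i) (r / 2)) ⊆
      ball (z i₀) ((1 + 2 * D) * (r / 2)) := Set.iUnion₂_subset fun i _ =>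
    ball_subset_ball' (by rw [dist_eq_norm]; linarith [h2 i])
  have I := measure_mono (μ := μ) hsub
  rw [measure_biUnion_finset hd fun _ _ => measurableSet_ball] at I
  simp only [μ.addHaar_ball_of_pos _ hδ, μ.addHaar_ball_of_pos _ hρ, sum_const, nsmul_eq_mul,
    card_univ, ← mul_assoc] at I
  have J := ENNReal.toReal_le_of_le_ofReal (pow_nonneg hρ.le _)
    ((ENNReal.mul_le_mul_iff_left (measure_ball_pos _ _ zero_lt_one).ne'
      measure_ball_lt_top.ne).1 I)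
  rw [ENNReal.toReal_mul, ENNReal.toReal_natCast, ENNReal.toReal_ofReal (by positivity),
    mul_pow] at J
  exact le_of_mul_le_mul_right J (by positivity)

lemma vol_lower {p : ℝ≥0∞} [Fact (1 ≤ p)] (hp : p ≠ ∞) {n d : ℕ} {D : ℝ} (hD : 0 < D)
    (hn : 1 ≤ n) (h : Embeds.{u} p n D d) : Real.log n / Real.log (1 + 2 * D) ≤ d := by
  classical
  have hp0 : p ≠ 0 := (zero_lt_one.trans_le (Fact.out : 1 ≤ p)).ne'
  have hq : 0 < p.toReal := ENNReal.toReal_pos hp0 hp
  have : Nonempty (Fin n) := ⟨⟨0, hn⟩⟩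
  obtain ⟨g, s, hs, hg⟩ := to_fin hp h (univ.image fun i : Fin n => Pi.single i (1 : ℝ))
    (card_image_le.trans (by simp))
  have hsum : ∀ i j : Fin n, i ≠ j → ∑ k, |(Pi.single i (1 : ℝ) : Fin n → ℝ) k -
      (Pi.single j (1 : ℝ) : Fin n → ℝ) k| ^ p.toReal = 2 := by
    intro i j hij
    rw [Fintype.sum_eq_add i j hij fun k hk => by simp [hk.1, hk.2, Real.zero_rpow hq.ne']]
    simp [hij, hij.symm]
    norm_num
  have hc := pack_count (fun i : Fin n => g (Pi.single i 1)) ⟨0, hn⟩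
    (r := s * 2 ^ (1 / p.toReal)) (by positivity) hD.le
    (fun i j hij => by
      rw [← hsum i j hij]
      exact (hg _ (by simp) _ (by simp)).1)
    (fun i => by
      rcases eq_or_ne i ⟨0, hn⟩ with rfl | hi
      · rw [sub_self, norm_zero]
        positivity
      · rw [← hsum i _ hi, ← mul_assoc]
        exact (hg _ (by simp) _ (by simp)).2)
  rw [(WithLp.linearEquiv p ℝ (Fin d → ℝ)).finrank_eq, Module.finrank_fin_fun,
    Fintype.card_fin] at hc
  rw [div_le_iff₀ (Real.log_pos (by linarith)), ← Real.log_pow]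
  exact Real.log_le_log (by exact_mod_cast hn) hc

lemma exact_lower {p : ℝ≥0∞} [Fact (1 ≤ p)] (hp1 : 1 < p) (hp : p ≠ ∞) (hp2 : p ≠ 2) {n d : ℕ}
    (h : Embeds.{u} p n 1 d) : ((n - 1) / 4) ^ 2 ≤ d := by
  have hq : 1 < p.toReal := by
    rw [← ENNReal.toReal_one]
    exact (ENNReal.toReal_lt_toReal ENNReal.one_ne_top hp).2 hp1
  have hq0 : 0 < p.toReal := by linarith
  have hq2 : p.toReal ≠ 2 := fun h2 => hp2 (by
    rw [← ENNReal.ofReal_toReal hp, h2]
    simp)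
  rcases Nat.eq_zero_or_pos ((n - 1) / 4) with h0 | h0
  · simp [h0]
  have : Nonempty (Fin ((n - 1) / 4)) := ⟨⟨0, h0⟩⟩
  obtain ⟨X, hX, hlow⟩ := grid_lower hq hq2 ((n - 1) / 4)
  obtain ⟨g, s, hs, hg⟩ := to_fin hp h X (by omega)
  refine hlow d (fun x k => g x k) (s ^ p.toReal) (by positivity) fun x hx y hy => ?_
  obtain ⟨h1, h2⟩ := hg x hx y hy
  rw [one_mul] at h2
  have h3 := congrArg (· ^ p.toReal) (le_antisymm h2 h1)
  simp only [PiLp.norm_eq_sum hq0, PiLp.sub_apply, Real.norm_eq_abs] at h3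
  rwa [rpow_inv_rpow hq0 (by positivity), Real.mul_rpow hs.le (by positivity),
    rpow_inv_rpow hq0 (by positivity)] at h3

lemma dimP_isLeast (p : ℝ≥0∞) [Fact (1 ≤ p)] (hp : p ≠ ∞) (n : ℕ) {D : ℝ} (hD : 1 ≤ D) :
    IsLeast {d | Embeds.{u} p n D d} (dimP.{u} p n D) :=
  ⟨Nat.sInf_mem ⟨_, embeds_choose p hp n hD⟩, fun _ h => Nat.sInf_le h⟩

end Vale.Agent.P249
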