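import Vale.Agent.P249.Scale

/-! Local features for exponents at least two, through signed powers. -/

open Finset Real
open scoped RealInnerProductSpace

namespace Vale.Agent.P249

lemma pow_lo {ν s t : ℝ} (hν : 1 ≤ ν) (hs : 0 ≤ s) (ht : 0 ≤ t) :
    |s - t| ^ ν ≤ |s ^ ν - t ^ ν| := by
  wlog h : t ≤ s generalizing s t
  · rw [abs_sub_comm, abs_sub_comm (s ^ ν)]
    exact this ht hs (by linarith)
  have h1 := Real.add_rpow_le_rpow_add (sub_nonneg.2 h) ht hν
  rw [sub_add_cancel] at h1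
  rw [abs_of_nonneg (sub_nonneg.2 h)]
  exact le_trans (by linarith) (le_abs_self _)

lemma pow_up {ν s t m : ℝ} (hν : 1 ≤ ν) (hs : 0 ≤ s) (ht : 0 ≤ t) (hsm : s ≤ m) (htm : t ≤ m) :
    |s ^ ν - t ^ ν| ≤ ν * m ^ (ν - 1) * |s - t| := by
  wlog h : t ≤ s generalizing s t
  · rw [abs_sub_comm, abs_sub_comm s]
    exact this ht hs htm hsm (by linarith)
  rcases hs.eq_or_lt with rfl | hs'
  · obtain rfl : t = 0 := le_antisymm h ht
    simp
  rw [abs_of_nonneg (sub_nonneg.2 h),
    abs_of_nonneg (sub_nonneg.2 (rpow_le_rpow ht h (by linarith)))]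
  have h1 := one_add_mul_self_le_rpow_one_add (s := t / s - 1)
    (by have : 0 ≤ t / s := by positivity
        linarith) hν
  rw [add_sub_cancel, div_rpow ht hs, le_div_iff₀ (by positivity)] at h1
  have h2 : s ^ ν = s ^ (ν - 1) * s := by
    rw [rpow_sub_one hs'.ne']
    field_simp
  have h3 : (1 + ν * (t / s - 1)) * s ^ ν = s ^ ν - ν * s ^ (ν - 1) * (s - t) := by
    conv_lhs => rw [h2]
    conv_rhs => rw [h2]
    field_simp
    ring
  have h4 : s ^ (ν - 1) ≤ m ^ (ν - 1) := rpow_le_rpow hs hsm (by linarith)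
  have h5 : ν * s ^ (ν - 1) * (s - t) ≤ ν * m ^ (ν - 1) * (s - t) := by
    gcongr
  linarith

lemma young_pow {p x y : ℝ} (hp : 2 ≤ p) (hx : 0 ≤ x) (hy : 0 ≤ y) :
    x ^ 2 * y ^ (p - 2) ≤ x ^ p + y ^ p := by
  have key : ∀ m : ℝ, 0 ≤ m → x ≤ m → y ≤ m → x ^ 2 * y ^ (p - 2) ≤ m ^ p := by
    intro m hm h1 h2
    have e : m ^ p = m ^ 2 * m ^ (p - 2) := by
      rw [← rpow_two, ← rpow_add' hm (by linarith)]
      ring_nf
    rw [e]
    exact mul_le_mul (pow_le_pow_left₀ hx h1 2) (rpow_le_rpow hy h2 (by linarith))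
      (by positivity) (by positivity)
  have := rpow_nonneg hx p
  have := rpow_nonneg hy p
  rcases le_total x y with h | h
  · linarith [key y hy h le_rfl]
  · linarith [key x hx le_rfl h]

lemma add_rpow_le {p x y : ℝ} (hp : 0 ≤ p) (hx : 0 ≤ x) (hy : 0 ≤ y) :
    (x + y) ^ p ≤ 2 ^ p * (x ^ p + y ^ p) := by
  wlog h : x ≤ y generalizing x y
  · rw [add_comm x, add_comm (x ^ p)]
    exact this hy hx (by linarith)
  calc (x + y) ^ p ≤ (2 * y) ^ p := rpow_le_rpow (by linarith) (by linarith) hp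
    _ = 2 ^ p * y ^ p := mul_rpow (by norm_num) hy
    _ ≤ _ := mul_le_mul_of_nonneg_left (by linarith [rpow_nonneg hx p]) (by positivity)

/-- The two components of the signed power map. -/
noncomputable def spow (ν a : ℝ) (s : Bool) : ℝ := if s then (max a 0) ^ ν else (max (-a) 0) ^ ν

lemma spow_lo {p a a' : ℝ} (hp : 2 ≤ p) :
    |a - a'| ^ p ≤ 2 ^ p * ∑ s, (spow (p / 2) a s - spow (p / 2) a' s) ^ 2 := by
  have hν : 1 ≤ p / 2 := by linarith
  have key : ∀ s t : ℝ, 0 ≤ s → 0 ≤ t → |s - t| ^ p ≤ (s ^ (p / 2) - t ^ (p / 2)) ^ 2 := by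
    intro s t hs ht
    rw [← sq_abs (s ^ (p / 2) - t ^ (p / 2))]
    refine le_trans (le_of_eq ?_) (pow_le_pow_left₀ (by positivity) (pow_lo hν hs ht) 2)
    rw [← rpow_two, ← rpow_mul (abs_nonneg _)]
    ring_nf
  have h1 : |a - a'| ≤ |max a 0 - max a' 0| + |max (-a) 0 - max (-a') 0| := by
    have e : a - a' = (max a 0 - max a' 0) - (max (-a) 0 - max (-a') 0) := by
      have := max_zero_sub_max_neg_zero_eq_self a
      have := max_zero_sub_max_neg_zero_eq_self a'
      linarith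
    conv_lhs => rw [e]
    exact abs_sub _ _
  refine (rpow_le_rpow (abs_nonneg _) h1 (by linarith)).trans
    ((add_rpow_le (by linarith) (abs_nonneg _) (abs_nonneg _)).trans
      (mul_le_mul_of_nonneg_left ?_ (by positivity)))
  simp only [Fintype.sum_bool, spow, if_true, Bool.false_eq_true, if_false]
  exact add_le_add (key _ _ (le_max_right _ _) (le_max_right _ _))
    (key _ _ (le_max_right _ _) (le_max_right _ _))

lemma spow_up {p a a' m : ℝ} (hp : 2 ≤ p) (ha : |a| ≤ m) (ha' : |a'| ≤ m) :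
    ∑ s, (spow (p / 2) a s - spow (p / 2) a' s) ^ 2 ≤ p ^ 2 * (|a - a'| ^ 2 * m ^ (p - 2)) := by
  have hν : 1 ≤ p / 2 := by linarith
  have hm : 0 ≤ m := (abs_nonneg _).trans ha
  have key : ∀ b b' : ℝ, |b| ≤ m → |b'| ≤ m → ((max b 0) ^ (p / 2) - (max b' 0) ^ (p / 2)) ^ 2 ≤
      p ^ 2 / 4 * (|b - b'| ^ 2 * m ^ (p - 2)) := by
    intro b b' hb hb'
    have h1 := pow_up hν (le_max_right b 0) (le_max_right b' 0)
      (max_le ((le_abs_self _).trans hb) hm) (max_le ((le_abs_self _).trans hb') hm)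
    have h2 := mul_le_mul_of_nonneg_left (abs_max_sub_max_le_abs b b' 0)
      (by positivity : 0 ≤ p / 2 * m ^ (p / 2 - 1))
    rw [← sq_abs]
    refine (pow_le_pow_left₀ (abs_nonneg _) (h1.trans h2) 2).trans (le_of_eq ?_)
    have e : m ^ (p - 2) = (m ^ (p / 2 - 1)) ^ 2 := by
      rw [← rpow_two, ← rpow_mul hm]
      ring_nf
    rw [e]
    ring
  simp only [Fintype.sum_bool, spow, if_true, Bool.false_eq_true, if_false]
  have k1 := key a a' ha ha'
  have k2 := key (-a) (-a') (by rwa [abs_neg]) (by rwa [abs_neg])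
  rw [neg_sub_neg, abs_sub_comm a' a] at k2
  have : 0 ≤ p ^ 2 * (|a - a'| ^ 2 * m ^ (p - 2)) := by positivity
  linarith

variable {X ι : Type*} [Fintype X] [MetricSpace X] [Fintype ι]

omit [Fintype X] in
lemma feat_hi {p σ T B : ℝ} (hp : 2 ≤ p) (hσ : 0 < σ) (hT : 0 < T) (hB : 0 ≤ B)
    (hB2 : p ^ 2 * (1 + 2 * 2 ^ p) * (T + 1) ^ (p - 2) ≤ B ^ 2) (G : X → ι → ℝ)
    (hG : ∀ x y, (dist x y / σ) ^ p = ∑ i, |G x i - G y i| ^ p) :
    ∃ Φ : X → X → EuclideanSpace ℝ (ι × Bool), Feat p σ T B (2 ^ p) Φ := by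
  set Φ : X → X → EuclideanSpace ℝ (ι × Bool) := fun c z =>
    WithLp.toLp 2 fun a => spow (p / 2) (G z a.1 - G c a.1) a.2 with hΦ
  have hn : ∀ c x z, ‖Φ c z - Φ c x‖ ^ 2 =
      ∑ i, ∑ s, (spow (p / 2) (G z i - G c i) s - spow (p / 2) (G x i - G c i) s) ^ 2 := by
    intro c x z
    rw [EuclideanSpace.real_norm_sq_eq, Fintype.sum_prod_type]
    simp [hΦ]
  have hup : ∀ c x z, dist x c / σ ≤ T → ‖Φ c z - Φ c x‖ ^ 2 ≤
      p ^ 2 * (1 + 2 * 2 ^ p) * ((dist x z / σ) ^ 2 * (T + dist x z / σ) ^ (p - 2)) := by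
    intro c x z hc
    rcases eq_or_ne x z with rfl | hxz
    · simp
    have hb : 0 < dist x z / σ := div_pos (dist_pos.2 hxz) hσ
    set b := dist x z / σ with hbd
    set R := T + b with hR
    have hR0 : 0 < R := by positivity
    rw [hn]
    have h1 : ∀ i, ∑ s, (spow (p / 2) (G z i - G c i) s - spow (p / 2) (G x i - G c i) s) ^ 2 ≤
        p ^ 2 * (b ^ 2 * R ^ (p - 2)) * (|G x i - G z i| ^ p / b ^ p +
          2 ^ p * (|G x i - G c i| ^ p + |G x i - G z i| ^ p) / R ^ p) := by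
      intro i
      refine (spow_up (m := |G x i - G c i| + |G x i - G z i|) hp ?_ (by simp)).trans ?_
      · rw [show G z i - G c i = (G x i - G c i) - (G x i - G z i) by ring]
        exact abs_sub _ _
      rw [mul_assoc, sub_sub_sub_cancel_right, abs_sub_comm (G z i)]
      refine mul_le_mul_of_nonneg_left ?_ (by positivity)
      set δ := |G x i - G z i|
      set a := |G x i - G c i|
      have hδ : 0 ≤ δ := abs_nonneg _
      have ha : 0 ≤ a := abs_nonneg _
      have y1 := young_pow (x := δ / b) (y := (a + δ) / R) hp (by positivity) (by positivity)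
      rw [div_rpow hδ hb.le, div_rpow (by positivity) hR0.le, div_rpow (by positivity) hR0.le]
        at y1
      have y2 : (a + δ) ^ p / R ^ p ≤ 2 ^ p * (a ^ p + δ ^ p) / R ^ p :=
        div_le_div_of_nonneg_right (add_rpow_le (by linarith) ha hδ) (by positivity)
      refine le_trans (le_of_eq ?_) (mul_le_mul_of_nonneg_left (y1.trans (add_le_add le_rfl y2))
        (by positivity))
      field_simp
    refine (sum_le_sum fun i _ => h1 i).trans ?_
    rw [← mul_sum, sum_add_distrib, ← sum_div, ← sum_div, ← mul_sum, sum_add_distrib, ← hG, ← hG,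
      ← hbd, div_self (by positivity), mul_right_comm]
    refine mul_le_mul_of_nonneg_right (mul_le_mul_of_nonneg_left ?_ (by positivity))
      (by positivity)
    have z1 : (dist x c / σ) ^ p ≤ R ^ p := rpow_le_rpow (by positivity) (by linarith) (by linarith)
    have z2 : b ^ p ≤ R ^ p := rpow_le_rpow hb.le (by linarith) (by linarith)
    have z3 : 2 ^ p * ((dist x c / σ) ^ p + b ^ p) / R ^ p ≤ 2 * 2 ^ p := by
      rw [div_le_iff₀ (by positivity)]
      nlinarith [rpow_pos_of_pos two_pos p]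
    linarith
  have hsm : ∀ c x z, dist x c / σ ≤ T → dist x z / σ ≤ 1 →
      ‖Φ c z - Φ c x‖ ^ 2 ≤ B ^ 2 * (dist x z / σ) ^ 2 := by
    intro c x z hc hz
    have hb : 0 ≤ dist x z / σ := by positivity
    refine (hup c x z hc).trans (le_trans ?_ (mul_le_mul_of_nonneg_right hB2 (sq_nonneg _)))
    rw [mul_assoc (p ^ 2 * (1 + 2 * 2 ^ p)), mul_comm ((T + 1) ^ (p - 2))]
    gcongr
  refine ⟨Φ, fun c x z => ?_, fun c x z hc => ?_, fun c x y hc hy => ⟨Φ c x - Φ c y, 0, by simp,
    ?_, fun z => ?_⟩⟩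
  · rw [hn, hG, mul_sum]
    refine sum_le_sum fun i _ => le_trans (le_of_eq ?_) (spow_lo hp)
    rw [sub_sub_sub_cancel_right, abs_sub_comm]
  · have hb : 0 ≤ dist x z / σ := by positivity
    have hbp : 0 ≤ (dist x z / σ) ^ p := by positivity
    rcases le_total (dist x z / σ) 1 with hz | hz
    · refine (hsm c x z hc hz).trans (mul_le_mul_of_nonneg_left ?_ (sq_nonneg _))
      nlinarith
    · refine (hup c x z hc).trans (le_trans ?_ (mul_le_mul hB2 (by linarith : _ ≤ _) hbp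
        (sq_nonneg _)))
      rw [mul_assoc (p ^ 2 * (1 + 2 * 2 ^ p))]
      refine mul_le_mul_of_nonneg_left ?_ (by positivity)
      set b := dist x z / σ
      have e : b ^ p = b ^ 2 * b ^ (p - 2) := by
        rw [← rpow_two, ← rpow_add' hb (by linarith)]
        ring_nf
      rw [e, mul_left_comm, ← mul_rpow (by positivity) hb]
      exact mul_le_mul_of_nonneg_left (rpow_le_rpow (by positivity) (by nlinarith) (by linarith))
        (sq_nonneg _)
  · refine (pow_le_pow_iff_left₀ (norm_nonneg _) (by positivity) two_ne_zero).1 ?_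
    rw [norm_sub_rev, mul_pow]
    exact hsm c x y hc hy
  · simp only [inner_zero_left, abs_zero]
    positivity

end Vale.Agent.P249
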