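import Vale.Agent.P249.FeatHi

/-! Features for exponents below two, through trigonometric functions at dyadic frequencies. -/

open Finset Real Filter Topology
open scoped RealInnerProductSpace

namespace Vale.Agent.P249

lemma exists_range {κ : Type*} [Finite κ] (f : κ → ℝ) :
    ∃ (τ : ℝ) (L : ℕ), 0 < τ ∧ ∀ a, (0 < f a → τ < f a) ∧ f a < τ * 2 ^ L := by
  have h1 : ∀ᶠ τ in 𝓝[>] (0 : ℝ), ∀ a, 0 < f a → τ < f a := by
    refine eventually_all.2 fun a => ?_
    by_cases h : 0 < f a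
    · filter_upwards [nhdsWithin_le_nhds (gt_mem_nhds h)] with τ hτ _ using hτ
    · exact Eventually.of_forall fun τ h' => absurd h' h
  obtain ⟨τ, h2, hτ⟩ := (h1.and self_mem_nhdsWithin).exists
  have hτ : 0 < τ := hτ
  have h3 : ∀ᶠ L : ℕ in atTop, ∀ a, f a < τ * 2 ^ L :=
    eventually_all.2 fun a =>
      ((tendsto_pow_atTop_atTop_of_one_lt one_lt_two).const_mul_atTop hτ).eventually_gt_atTop _
  obtain ⟨L, hL⟩ := h3.exists
  exact ⟨τ, L, hτ, fun a => ⟨h2 a, hL a⟩⟩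

/-- Cosine or sine. -/
noncomputable def trig (t : ℝ) (s : Bool) : ℝ := if s then cos t else sin t

lemma trig_lip (a b : ℝ) (s : Bool) : |trig a s - trig b s| ≤ |a - b| := by
  cases s
  · exact abs_sin_sub_sin_le a b
  · exact abs_cos_sub_cos_le a b

lemma trig_two (a b : ℝ) (s : Bool) : |trig a s - trig b s| ≤ 2 := by
  refine (abs_sub _ _).trans ?_
  cases s
  · simp only [trig, Bool.false_eq_true, if_false]
    linarith [abs_sin_le_one a, abs_sin_le_one b]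
  · simp only [trig, if_true]
    linarith [abs_cos_le_one a, abs_cos_le_one b]

lemma trig_lo {a b : ℝ} (h1 : 1 ≤ |a - b|) (h2 : |a - b| ≤ 2) :
    1 / 2 ≤ ∑ s, (trig a s - trig b s) ^ 2 := by
  simp only [Fintype.sum_bool, trig, if_true, Bool.false_eq_true, if_false]
  have h3 : cos |a - b| ≤ cos 1 :=
    cos_le_cos_of_nonneg_of_le_pi zero_le_one (by linarith [pi_gt_three]) h1
  rw [cos_abs, cos_sub] at h3
  nlinarith [cos_one_le, sin_sq_add_cos_sq a, sin_sq_add_cos_sq b]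

lemma level_sums {p : ℝ} (hp1 : 1 < p) (hp2 : p < 2) : ∃ C : ℝ, 0 < C ∧
    ∀ (L : ℕ) (τ K u : ℝ), 0 < τ → 0 < K →
    ∑ l ∈ range L, (if K * |u| ≤ τ * 2 ^ l then |u| ^ 2 * (τ * 2 ^ l) ^ (p - 2) else 0) ≤
      C * K ^ (p - 2) * |u| ^ p ∧
    ∑ l ∈ range L, (if K * |u| ≤ τ * 2 ^ l then 0 else |u| * (τ * 2 ^ l) ^ (p - 1)) ≤
      C * K ^ (p - 1) * |u| ^ p := by
  obtain ⟨C₁, hC₁, h1⟩ := geo_hi (α := 2 - p) (by linarith)
  obtain ⟨C₂, hC₂, h2⟩ := geo_lo (α := p - 1) (by linarith)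
  refine ⟨C₁ + C₂, by positivity, fun L τ K u hτ hK => ?_⟩
  rcases eq_or_ne u 0 with rfl | hu
  · have hp0 : p ≠ 0 := by linarith
    simp [hp0]
  have hu' : 0 < |u| := abs_pos.2 hu
  have a1 := mul_le_mul_of_nonneg_left (h1 L τ (K * |u|) hτ (by positivity)) (sq_nonneg |u|)
  have a2 := mul_le_mul_of_nonneg_left (h2 L τ (K * |u|) hτ (by positivity)) hu'.le
  rw [mul_sum, mul_rpow hK.le hu'.le] at a1 a2
  simp only [mul_ite, mul_zero, neg_sub] at a1 a2
  have e1 : |u| ^ p = |u| ^ 2 * |u| ^ (p - 2) := by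
    rw [← rpow_two, ← rpow_add hu']
    ring_nf
  have e2 : |u| ^ p = |u| * |u| ^ (p - 1) := by
    rw [rpow_sub_one hu'.ne']
    field_simp
  constructor
  · refine a1.trans ?_
    rw [e1]
    have : 0 ≤ C₂ * K ^ (p - 2) * (|u| ^ 2 * |u| ^ (p - 2)) := by positivity
    linarith
  · refine a2.trans ?_
    rw [e2]
    have : 0 ≤ C₁ * K ^ (p - 1) * (|u| * |u| ^ (p - 1)) := by positivity
    linarith

lemma feat_lo {p : ℝ} (hp1 : 1 < p) (hp2 : p < 2) : ∃ B : ℝ, 1 ≤ B ∧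
    ∀ {X ι : Type*} [Fintype X] [MetricSpace X] [Fintype ι] {σ : ℝ} (T : ℝ) (G : X → ι → ℝ),
    0 < σ → (∀ x y, (dist x y / σ) ^ p = ∑ i, |G x i - G y i| ^ p) →
    ∃ (L : ℕ) (Φ : X → X → EuclideanSpace ℝ (ι × Fin L × Bool)), Feat p σ T B 8 Φ := by
  obtain ⟨C, hC, hlev⟩ := level_sums hp1 hp2
  refine ⟨1 + 10 * C, by linarith, ?_⟩
  intro X ι _ _ _ σ T G hσ hG
  obtain ⟨τ, L, hτ, hrange⟩ := exists_range fun a : X × X × ι => |G a.1 a.2.2 - G a.2.1 a.2.2|
  set t : Fin L → ℝ := fun l => τ * 2 ^ (l : ℕ) with ht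
  have ht0 : ∀ l, 0 < t l := fun l => by positivity
  set Ψ : X → EuclideanSpace ℝ (ι × Fin L × Bool) := fun z =>
    WithLp.toLp 2 fun a => t a.2.1 ^ (p / 2) * trig (G z a.1 / t a.2.1) a.2.2 with hΨ
  have hsq : ∀ l, (t l ^ (p / 2)) ^ 2 = t l ^ p := fun l => by
    rw [← rpow_two, ← rpow_mul (ht0 l).le]
    ring_nf
  have hco : ∀ x y a, (Ψ x - Ψ y) a = t a.2.1 ^ (p / 2) *
      (trig (G x a.1 / t a.2.1) a.2.2 - trig (G y a.1 / t a.2.1) a.2.2) := by
    intro x y a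
    simp [hΨ, mul_sub]
  have hlip : ∀ x y i l s, |trig (G x i / t l) s - trig (G y i / t l) s| ≤
      |G x i - G y i| / t l := by
    intro x y i l s
    refine (trig_lip _ _ s).trans (le_of_eq ?_)
    rw [← sub_div, abs_div, abs_of_pos (ht0 l)]
  have hsplit : ∀ (x y : X) (K : ℝ), 0 < K → ∃ h l, Ψ x - Ψ y = h + l ∧
      ‖h‖ ^ 2 ≤ 2 * C * K ^ (p - 2) * (dist x y / σ) ^ p ∧
      ∀ z z', |⟪l, Ψ z - Ψ z'⟫| ≤ 4 * C * K ^ (p - 1) * (dist x y / σ) ^ p := by
    intro x y K hK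
    refine ⟨WithLp.toLp 2 fun a => if K * |G x a.1 - G y a.1| ≤ t a.2.1 then (Ψ x - Ψ y) a else 0,
      WithLp.toLp 2 fun a => if K * |G x a.1 - G y a.1| ≤ t a.2.1 then 0 else (Ψ x - Ψ y) a,
      ?_, ?_, fun z z' => ?_⟩
    · ext a
      simp only [PiLp.add_apply]
      split_ifs <;> simp
    · rw [EuclideanSpace.real_norm_sq_eq, Fintype.sum_prod_type, hG, mul_sum]
      refine sum_le_sum fun i _ => ?_
      have := (hlev L τ K (G x i - G y i) hτ hK).1
      rw [← Fin.sum_univ_eq_sum_range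
        (fun l => if K * |G x i - G y i| ≤ τ * 2 ^ l then
          |G x i - G y i| ^ 2 * (τ * 2 ^ l) ^ (p - 2) else 0)] at this
      rw [mul_assoc 2, mul_assoc 2, Fintype.sum_prod_type]
      refine le_trans ?_ (mul_le_mul_of_nonneg_left this zero_le_two)
      rw [mul_sum]
      refine sum_le_sum fun l _ => ?_
      have key : ∀ s, ((Ψ x - Ψ y) (i, l, s)) ^ 2 ≤ |G x i - G y i| ^ 2 * t l ^ (p - 2) := by
        intro s
        rw [hco, mul_pow, hsq, ← sq_abs]
        refine (mul_le_mul_of_nonneg_left (pow_le_pow_left₀ (abs_nonneg _) (hlip x y i l s) 2)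
          (rpow_nonneg (ht0 l).le p)).trans (le_of_eq ?_)
        rw [rpow_sub (ht0 l), rpow_two]
        ring
      simp only [Fintype.sum_bool]
      split_ifs with hc
      · linarith [key true, key false]
      · simp
    · rw [PiLp.inner_apply, hG, mul_sum]
      refine (abs_sum_le_sum_abs _ _).trans ?_
      rw [Fintype.sum_prod_type]
      refine sum_le_sum fun i _ => ?_
      have := (hlev L τ K (G x i - G y i) hτ hK).2
      rw [← Fin.sum_univ_eq_sum_range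
        (fun l => if K * |G x i - G y i| ≤ τ * 2 ^ l then 0 else
          |G x i - G y i| * (τ * 2 ^ l) ^ (p - 1))] at this
      rw [mul_assoc 4, mul_assoc 4, Fintype.sum_prod_type]
      refine le_trans ?_ (mul_le_mul_of_nonneg_left this (by norm_num))
      rw [mul_sum]
      refine sum_le_sum fun l _ => ?_
      have key : ∀ s, |⟪(Ψ x - Ψ y) (i, l, s), (Ψ z - Ψ z') (i, l, s)⟫| ≤
          2 * (|G x i - G y i| * t l ^ (p - 1)) := by
        intro s
        refine (abs_real_inner_le_norm _ _).trans ?_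
        rw [hco, hco, Real.norm_eq_abs, Real.norm_eq_abs, abs_mul, abs_mul,
          abs_of_pos (rpow_pos_of_pos (ht0 l) _), mul_mul_mul_comm, ← sq, hsq]
        refine (mul_le_mul_of_nonneg_left (mul_le_mul (hlip x y i l s) (trig_two _ _ s)
          (abs_nonneg _) (div_nonneg (abs_nonneg _) (ht0 l).le))
          (rpow_nonneg (ht0 l).le p)).trans (le_of_eq ?_)
        rw [rpow_sub_one (ht0 l).ne']
        ring
      simp only [Fintype.sum_bool]
      split_ifs with hc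
      · simp
      · linarith [key true, key false]
  refine ⟨L, fun _ => Ψ, fun _ x z => ?_, fun _ x z _ => ?_, fun _ x y _ hxy => ?_⟩
  · rw [EuclideanSpace.real_norm_sq_eq, Fintype.sum_prod_type, hG, mul_sum]
    refine sum_le_sum fun i _ => ?_
    rcases (abs_nonneg (G x i - G z i)).eq_or_lt with h0 | h0
    · rw [← h0, zero_rpow (by linarith)]
      exact mul_nonneg (by norm_num) (sum_nonneg fun _ _ => sq_nonneg _)
    obtain ⟨r1, r2⟩ := hrange (x, z, i)
    have r1 := r1 h0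
    simp only at r1 r2
    obtain ⟨l, l1, l2⟩ := exists_nat_pow_near (x := |G x i - G z i| / τ) (y := 2)
      ((one_le_div hτ).2 r1.le) one_lt_two
    rw [le_div_iff₀ hτ] at l1
    rw [div_lt_iff₀ hτ, pow_succ] at l2
    have hl : l < L := by
      have : τ * 2 ^ l < τ * 2 ^ L := by linarith
      exact (pow_lt_pow_iff_right₀ one_lt_two).1 (lt_of_mul_lt_mul_left this hτ.le)
    rw [Fintype.sum_prod_type]
    refine le_trans ?_ (mul_le_mul_of_nonneg_left (single_le_sum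
      (f := fun l : Fin L => ∑ s, ((Ψ z - Ψ x) (i, l, s)) ^ 2)
      (fun l _ => sum_nonneg fun _ _ => sq_nonneg _) (mem_univ ⟨l, hl⟩)) (by norm_num))
    simp only [hco, mul_pow, hsq, ← mul_sum]
    have tl : t ⟨l, hl⟩ = τ * 2 ^ l := rfl
    have tp := ht0 ⟨l, hl⟩
    have e : |G z i / t ⟨l, hl⟩ - G x i / t ⟨l, hl⟩| = |G x i - G z i| / t ⟨l, hl⟩ := by
      rw [← sub_div, abs_div, abs_of_pos tp, abs_sub_comm]
    have k1 := trig_lo (a := G z i / t ⟨l, hl⟩) (b := G x i / t ⟨l, hl⟩)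
      (by rw [e, one_le_div tp]; linarith) (by rw [e, div_le_iff₀ tp]; linarith)
    have k2 : |G x i - G z i| ^ p ≤ (2 * t ⟨l, hl⟩) ^ p :=
      rpow_le_rpow h0.le (by linarith) (by linarith)
    rw [mul_rpow zero_le_two tp.le] at k2
    have k3 : (2 : ℝ) ^ p ≤ 4 := by
      have := rpow_le_rpow_of_exponent_le one_le_two hp2.le
      rw [rpow_two] at this
      linarith
    have k4 := rpow_pos_of_pos tp p
    nlinarith [mul_le_mul_of_nonneg_left k1 k4.le, mul_le_mul_of_nonneg_right k3 k4.le]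
  · obtain ⟨h, l, e, k1, k2⟩ := hsplit z x 1 one_pos
    have k2 := k2 z x
    rw [one_rpow, dist_comm] at k1 k2
    have k3 : ‖Ψ z - Ψ x‖ ^ 2 = ⟪h, Ψ z - Ψ x⟫ + ⟪l, Ψ z - Ψ x⟫ := by
      rw [← inner_add_left, ← e, real_inner_self_eq_norm_sq]
    have k4 := real_inner_le_norm h (Ψ z - Ψ x)
    have k5 := le_abs_self ⟪l, Ψ z - Ψ x⟫
    have b0 : 0 ≤ dist x z / σ := by positivity
    have b1 : 0 ≤ (dist x z / σ) ^ p := by positivity
    have k6 : ‖Ψ z - Ψ x‖ ^ 2 ≤ 10 * C * (dist x z / σ) ^ p := by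
      nlinarith [sq_nonneg (‖h‖ - ‖Ψ z - Ψ x‖)]
    refine k6.trans (mul_le_mul (by nlinarith) (by linarith) b1 (sq_nonneg _))
  · rcases eq_or_ne x y with rfl | hne
    · exact ⟨0, 0, by simp, by simp, by simp⟩
    have hρ : 0 < dist x y / σ := div_pos (dist_pos.2 hne) hσ
    obtain ⟨h, l, e, k1, k2⟩ := hsplit x y (dist x y / σ)⁻¹ (inv_pos.2 hρ)
    set ρ := dist x y / σ
    have e1 : ρ⁻¹ ^ (p - 2) * ρ ^ p = ρ ^ 2 := by
      rw [inv_rpow hρ.le, ← rpow_neg hρ.le, ← rpow_add hρ, ← rpow_two]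
      ring_nf
    have e2 : ρ⁻¹ ^ (p - 1) * ρ ^ p = ρ := by
      rw [inv_rpow hρ.le, ← rpow_neg hρ.le, ← rpow_add hρ]
      ring_nf
      simp
    rw [mul_assoc, e1] at k1
    refine ⟨h, l, e, ?_, fun z => (k2 z x).trans ?_⟩
    · refine (pow_le_pow_iff_left₀ (norm_nonneg _) (by positivity) two_ne_zero).1 (k1.trans ?_)
      rw [mul_pow]
      exact mul_le_mul_of_nonneg_right (by nlinarith) (sq_nonneg _)
    · rw [mul_assoc, e2]
      exact mul_le_mul_of_nonneg_right (by linarith) hρ.le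

end Vale.Agent.P249
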