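import Vale.Agent.P249.Embed

/-! The dimension bound for finite subsets of finite-dimensional spaces. -/

open Finset Real Filter Topology

namespace Vale.Agent.P249

universe u v

/-- Growth at most `exp (C ℓ ^ γ)`. -/
def Gr (γ : ℝ) (f : ℝ → ℝ) : Prop :=
  ∃ C : ℝ, 0 ≤ C ∧ ∀ ℓ : ℝ, 1 ≤ ℓ → 0 ≤ f ℓ ∧ f ℓ ≤ exp (C * ℓ ^ γ)

namespace Gr

variable {γ : ℝ} {f g : ℝ → ℝ}

lemma const (hγ : 0 < γ) {c : ℝ} (hc : 0 ≤ c) : Gr γ fun _ => c :=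
  ⟨c, hc, fun ℓ hℓ => ⟨hc, by
    linarith [add_one_le_exp (c * ℓ ^ γ), mul_le_mul_of_nonneg_left (one_le_rpow hℓ hγ.le) hc]⟩⟩

lemma id (hγ : 0 < γ) : Gr γ fun ℓ => ℓ :=
  ⟨1 / γ, by positivity, fun ℓ hℓ => ⟨by linarith, by
    rw [← log_le_iff_le_exp (by linarith)]
    exact (log_le_rpow_div (by linarith) hγ).trans (le_of_eq (by ring))⟩⟩

lemma mul (hf : Gr γ f) (hg : Gr γ g) : Gr γ fun ℓ => f ℓ * g ℓ := by
  obtain ⟨C, hC, h⟩ := hf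
  obtain ⟨C', hC', h'⟩ := hg
  refine ⟨C + C', by positivity, fun ℓ hℓ => ⟨mul_nonneg (h ℓ hℓ).1 (h' ℓ hℓ).1, ?_⟩⟩
  rw [add_mul, exp_add]
  exact mul_le_mul (h ℓ hℓ).2 (h' ℓ hℓ).2 (h' ℓ hℓ).1 (exp_pos _).le

lemma add (hγ : 0 < γ) (hf : Gr γ f) (hg : Gr γ g) : Gr γ fun ℓ => f ℓ + g ℓ := by
  obtain ⟨C, hC, h⟩ := hf
  obtain ⟨C', hC', h'⟩ := hg
  refine ⟨C + C' + 1, by positivity, fun ℓ hℓ => ⟨add_nonneg (h ℓ hℓ).1 (h' ℓ hℓ).1, ?_⟩⟩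
  have h1 := one_le_rpow hℓ hγ.le
  have h2 : exp (C * ℓ ^ γ) ≤ exp ((C + C') * ℓ ^ γ) :=
    exp_le_exp.2 (mul_le_mul_of_nonneg_right (by linarith) (by linarith))
  have h3 : exp (C' * ℓ ^ γ) ≤ exp ((C + C') * ℓ ^ γ) :=
    exp_le_exp.2 (mul_le_mul_of_nonneg_right (by linarith) (by linarith))
  have h4 : 2 ≤ exp (1 * ℓ ^ γ) := by linarith [add_one_le_exp (1 * ℓ ^ γ)]
  rw [add_mul (C + C'), exp_add]
  linarith [(h ℓ hℓ).2, (h' ℓ hℓ).2, mul_le_mul_of_nonneg_left h4 (exp_pos ((C + C') * ℓ ^ γ)).le]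

lemma rpow (hf : Gr γ f) {p : ℝ} (hp : 0 ≤ p) : Gr γ fun ℓ => f ℓ ^ p := by
  obtain ⟨C, hC, h⟩ := hf
  refine ⟨C * p, by positivity, fun ℓ hℓ => ⟨rpow_nonneg (h ℓ hℓ).1 p, ?_⟩⟩
  rw [mul_right_comm, exp_mul]
  exact rpow_le_rpow (h ℓ hℓ).1 (h ℓ hℓ).2 hp

lemma sq (hf : Gr γ f) : Gr γ fun ℓ => f ℓ ^ 2 := by
  simpa only [pow_two] using hf.mul hf

lemma exp {c : ℝ} (hc : 0 ≤ c) : Gr γ fun ℓ => Real.exp (c * ℓ ^ γ) :=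
  ⟨c, hc, fun _ _ => ⟨(exp_pos _).le, le_rfl⟩⟩

end Gr

lemma exists_Q {p D : ℝ} (hD : 1 < D) : ∃ Q : ℕ, 2 ≤ Q ∧
    0 < (1 - 2 * (1 / (Q : ℝ))) * (1 - 2 * (1 / (Q : ℝ))) ^ p - 1 / (Q : ℝ) ∧
    exp (1 / (Q : ℝ) * exp p) * (1 + 1 / (Q : ℝ)) ^ p + 1 / (Q : ℝ) <
      D * ((1 - 2 * (1 / (Q : ℝ))) * (1 - 2 * (1 / (Q : ℝ))) ^ p - 1 / (Q : ℝ)) := by
  have h0 : Tendsto (fun Q : ℕ => 1 / (Q : ℝ)) atTop (𝓝 0) := tendsto_one_div_atTop_nhds_zero_nat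
  have h1 : Tendsto (fun Q : ℕ => (1 - 2 * (1 / (Q : ℝ))) * (1 - 2 * (1 / (Q : ℝ))) ^ p -
      1 / (Q : ℝ)) atTop (𝓝 ((1 - 2 * 0) * (1 - 2 * 0) ^ p - 0)) :=
    (((h0.const_mul 2).const_sub 1).mul
      (((h0.const_mul 2).const_sub 1).rpow_const (Or.inl (by norm_num)))).sub h0
  have h2 : Tendsto (fun Q : ℕ => exp (1 / (Q : ℝ) * exp p) * (1 + 1 / (Q : ℝ)) ^ p + 1 / (Q : ℝ))
      atTop (𝓝 (exp (0 * exp p) * (1 + 0) ^ p + 0)) :=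
    ((h0.mul_const (exp p)).rexp.mul ((h0.const_add 1).rpow_const (Or.inl (by norm_num)))).add h0
  obtain ⟨Q, hQ⟩ := ((eventually_ge_atTop 2).and ((h1.eventually_const_lt (u := 0)
    (by norm_num)).and (h2.eventually_lt (h1.const_mul D) (by simpa using hD)))).exists
  exact ⟨Q, hQ⟩

lemma err_small {ε C C₄ ℓ θ η AY Λ B₁ S : ℝ} (hε : 0 < ε) (hε1 : ε ≤ 1) (hC : 1 ≤ C)
    (hC₄ : 1 ≤ C₄) (hℓ : 1 ≤ ℓ) (hAY0 : 0 ≤ AY) (hAY : AY ≤ C * ℓ ^ θ) (hΛ0 : 0 ≤ Λ)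
    (hΛ : Λ ≤ C * ℓ ^ 2) (hB0 : 0 ≤ B₁) (hB : B₁ ≤ C * ℓ ^ 2)
    (hS : S = 8000 / ε * (C * ℓ ^ 2) ^ 2) (hlog : log (1 + S ^ 2) ≤ C₄ * ℓ ^ η) :
    1 ≤ S ^ 2 ∧ 3000 * log (1 + S ^ 2) * AY / (6000 * C₄ * C / ε * ℓ ^ (θ + η)) +
      (64 + 48 * log (1 + S ^ 2)) * Λ * (1 + 24 * B₁) / S ^ 2 ≤ ε := by
  have hℓ0 : 0 < ℓ := by linarith
  have h1 : 1 ≤ C * ℓ ^ 2 := one_le_mul_of_one_le_of_one_le hC (one_le_pow₀ hℓ)
  have hS1 : 1 ≤ S := by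
    rw [hS]
    exact one_le_mul_of_one_le_of_one_le ((one_le_div hε).2 (by linarith)) (one_le_pow₀ h1)
  refine ⟨one_le_pow₀ hS1, ?_⟩
  have k1 : 3000 * log (1 + S ^ 2) * AY / (6000 * C₄ * C / ε * ℓ ^ (θ + η)) ≤ ε / 2 := by
    rw [div_le_iff₀ (by positivity), rpow_add hℓ0]
    have := mul_le_mul hlog hAY hAY0 (by positivity)
    refine le_trans (by linarith) ((mul_le_mul_of_nonneg_left this
      (by norm_num : (0 : ℝ) ≤ 3000)).trans (le_of_eq ?_))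
    field_simp
    ring
  have k2 : log (1 + S ^ 2) ≤ 2 * S := by
    have a1 : log (1 + S ^ 2) ≤ log ((1 + S) ^ 2) := log_le_log (by positivity) (by linarith)
    rw [log_pow] at a1
    have := log_le_sub_one_of_pos (by positivity : 0 < 1 + S)
    push_cast at a1
    linarith
  have k3 : (64 + 48 * log (1 + S ^ 2)) * Λ * (1 + 24 * B₁) / S ^ 2 ≤ ε / 2 := by
    rw [div_le_iff₀ (by positivity)]
    have a1 : (64 + 48 * log (1 + S ^ 2)) * Λ * (1 + 24 * B₁) ≤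
        160 * S * (C * ℓ ^ 2) * (25 * (C * ℓ ^ 2)) :=
      mul_le_mul (mul_le_mul (by linarith) hΛ hΛ0 (by positivity)) (by linarith) (by positivity)
        (by positivity)
    refine a1.trans (le_of_eq ?_)
    rw [hS]
    field_simp
    ring
  linarith

theorem finite_embed {p D : ℝ} (hp : 1 < p) (hD : 1 < D) : ∃ γ C : ℝ, 0 < γ ∧ γ < 1 ∧ 0 ≤ C ∧
    ∀ ℓ : ℝ, 1 ≤ ℓ → ∃ d : ℕ, (d : ℝ) ≤ exp (C * ℓ ^ γ) ∧
    ∀ (X : Type u) (ι : Type v) [Fintype X] [MetricSpace X] [Nonempty X] [Fintype ι]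
      (F : X → ι → ℝ), (∀ x y, dist x y ^ p = ∑ i, |F x i - F y i| ^ p) →
      (Fintype.card X : ℝ) ≤ exp ℓ →
      ∃ (f : X → Fin d → ℝ) (s : ℝ), 0 < s ∧ ∀ x y,
        (s * dist x y) ^ p ≤ ∑ j, |f x j - f y j| ^ p ∧
        ∑ j, |f x j - f y j| ^ p ≤ (D * s * dist x y) ^ p := by
  obtain ⟨θ, C, hθ0, hθ1, hC, hfam⟩ := exists_fam.{u, v} hp
  obtain ⟨Q, hQ2, hlo, hhi⟩ := exists_Q (p := p) hD
  have hQ2' : (2 : ℝ) ≤ Q := by exact_mod_cast hQ2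
  set ε := 1 / (Q : ℝ) with hεd
  have hε : 0 < ε := by positivity
  have hε2 : 2 * ε ≤ 1 := by
    rw [hεd, mul_one_div, div_le_one (by linarith)]
    exact hQ2'
  have hp0 : 0 < p := by linarith
  set η := (1 - θ) / 2 with hηd
  have hη : 0 < η := by linarith
  have hγ : 0 < θ + η := by linarith
  obtain ⟨C₄, hC₄, hlog⟩ := log_bound (c := (8000 / ε * C ^ 2) ^ 2) (a := 8) (by positivity)
    (by norm_num) hη
  set M : ℝ → ℝ := fun ℓ => 1 + 28 * C * ℓ ^ 2 * (2 / ε * (96 * (ℓ + (3 + 1 / ε)) * (C * ℓ ^ 2) *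
    (25 * C * ℓ ^ 2) * exp (2 * Q * (6000 * C₄ * C / ε) * ℓ ^ (θ + η))) ^ p) with hMd
  have hc : ∀ {c : ℝ}, 0 ≤ c → Gr (θ + η) fun _ => c := fun hc => Gr.const hγ hc
  have hi := Gr.id hγ
  have hMg : Gr (θ + η) M :=
    (hc zero_le_one).add hγ (((hc (by positivity)).mul hi.sq).mul ((hc (by positivity)).mul
      ((((((hc (by norm_num)).mul (hi.add hγ (hc (by positivity)))).mul
        ((hc (by positivity)).mul hi.sq)).mul ((hc (by positivity)).mul hi.sq)).mul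
          (Gr.exp (by positivity))).rpow hp0.le)))
  obtain ⟨C', hC', hbd⟩ : Gr (θ + η) fun ℓ => 12 / ε ^ 2 * (M ℓ ^ 2 * ℓ) + 1 :=
    ((hc (by positivity)).mul (hMg.sq.mul hi)).add hγ (hc zero_le_one)
  refine ⟨θ + η, C', hγ, by linarith, hC', fun ℓ hℓ => ⟨⌈12 / ε ^ 2 * (M ℓ ^ 2 * ℓ)⌉₊,
    (Nat.ceil_lt_add_one (by positivity)).le.trans (hbd ℓ hℓ).2, ?_⟩⟩
  intro X ι _ _ _ _ F hF hn
  obtain ⟨A, Λ, B₁, V, hA, hΛ, hB, hV, hAY, hΛC, hBC, hfam⟩ := hfam ℓ hℓ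
  obtain ⟨σ, J, k, kt, a, ω, h⟩ := hfam X ι F hF hn
  have hℓ0 : 0 < ℓ := by linarith
  obtain ⟨hS1, herr⟩ := err_small (C₄ := C₄) (η := η) hε (by linarith) hC hC₄ hℓ (by positivity)
    hAY (by linarith) hΛC hB hBC rfl (by
      refine le_trans (le_of_eq ?_) (hlog ℓ hℓ)
      rw [show (8 : ℝ) = ((8 : ℕ) : ℝ) by norm_num, rpow_natCast]
      ring_nf)
  have h1 : 1 ≤ C * ℓ ^ 2 := one_le_mul_of_one_le_of_one_le hC (one_le_pow₀ hℓ)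
  have h2 : ℓ ≤ C * ℓ ^ 2 := by
    linarith [mul_le_mul_of_nonneg_left hℓ hℓ0.le, mul_le_mul_of_nonneg_right hC (sq_nonneg ℓ)]
  have hW : 2 ≤ 6000 * C₄ * C / ε * ℓ ^ (θ + η) := by
    have a1 := one_le_mul_of_one_le_of_one_le (one_le_mul_of_one_le_of_one_le hC₄ hC)
      (one_le_rpow hℓ hγ.le)
    rw [div_mul_eq_mul_div, le_div_iff₀ hε]
    linarith
  have hM1 : 1 ≤ M ℓ := le_add_of_nonneg_right (by positivity)
  obtain ⟨f, c, hc0, hf⟩ := h.embed (M := M ℓ) (K := ⌈2 * ℓ + 24 * B₁ + 1⌉₊)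
    (d := ⌈12 / ε ^ 2 * (M ℓ ^ 2 * ℓ)⌉₊) hp.le hℓ hA hΛ hB F hF hn hW hS1 (by omega : 1 ≤ Q)
    (Nat.le_ceil _) herr le_rfl hε2 hM1 (by
      refine le_trans ?_ (le_add_of_nonneg_left zero_le_one)
      have a1 := (Nat.ceil_lt_add_one (by positivity : 0 ≤ 2 * ℓ + 24 * B₁ + 1)).le
      refine mul_le_mul (by linarith) (mul_le_mul_of_nonneg_left (rpow_le_rpow (by positivity)
        ?_ hp0.le) (by positivity)) (by positivity) (by positivity)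
      rw [← add_assoc, mul_assoc (2 * (Q : ℝ))]
      gcongr
      linarith)
    (le_trans (le_of_eq (by ring)) (Nat.le_ceil _))
  set lo := (1 - 2 * ε) * (1 - 2 * ε) ^ p - ε
  refine ⟨f, (c * lo) ^ (1 / p), by positivity, fun x y => ?_⟩
  obtain ⟨f1, f2⟩ := hf x y
  rw [mul_assoc, mul_rpow (by linarith : 0 ≤ D) (by positivity),
    mul_rpow (by positivity) dist_nonneg, rpow_inv_rpow hp0 (by positivity)]
  refine ⟨f1, f2.trans ?_⟩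
  have hDp : D ≤ D ^ p := by simpa using rpow_le_rpow_of_exponent_le hD.le hp.le
  have hcr : 0 ≤ c * dist x y ^ p := by positivity
  linarith [mul_le_mul_of_nonneg_left hhi.le hcr,
    mul_le_mul_of_nonneg_left hDp (mul_nonneg hcr hlo.le)]

end Vale.Agent.P249
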