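import Vale.Agent.P249.Basic

/-! Penalised Gibbs measures attached to Hilbert space features. -/

open Finset Real
open scoped RealInnerProductSpace

namespace Vale.Agent.P249

variable {X : Type*} [Fintype X] {H : Type*} [NormedAddCommGroup H] [InnerProductSpace ℝ H]

/-- The penalised Gibbs equation at the base point `x`. -/
structure IsGibbs (Φ : X → H) (x : X) (b q : X → ℝ) : Prop where
  ex : ∃ C : ℝ, ∀ z, q z =
    exp (C - ‖Φ z - Φ x‖ ^ 2 - 1 / 8 * ⟪∑ w, q w • (Φ w - Φ x), Φ z - Φ x⟫ - b z)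
  sum : ∑ z, q z = 1

lemma exists_gibbs [FiniteDimensional ℝ H] (Φ : X → H) (x : X) (b : X → ℝ) (hb : b x = 0) :
    ∃ q, IsGibbs Φ x b q := by
  set φ : X → H := fun z => Φ z - Φ x with hφ
  set W : H → X → ℝ := fun ξ z =>
    exp (-‖φ z‖ ^ 2 - 1 / 8 * ⟪ξ, φ z⟫ - b z + 1 / 16 * ‖ξ‖ ^ 2) with hW
  have hWpos : ∀ ξ z, 0 < W ξ z := fun ξ z => exp_pos _
  have hc : Continuous fun ξ => ∑ z, W ξ z := by
    refine continuous_finsetSum _ fun z _ => ?_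
    simp only [hW]
    fun_prop
  have hco : ∀ ξ, 1 / 16 * ‖ξ‖ ^ 2 ≤ ∑ z, W ξ z := by
    intro ξ
    have h1 : W ξ x = exp (1 / 16 * ‖ξ‖ ^ 2) := by simp [hW, hφ, hb]
    have h2 : W ξ x ≤ ∑ z, W ξ z := single_le_sum (fun z _ => (hWpos ξ z).le) (mem_univ x)
    have := add_one_le_exp (1 / 16 * ‖ξ‖ ^ 2)
    linarith
  obtain ⟨ξ, hξ⟩ := hc.exists_forall_le' 0 (by
    have h0 : 0 ≤ ∑ z, W 0 z := sum_nonneg fun z _ => (hWpos 0 z).le
    filter_upwards [(tendsto_norm_cocompact_atTop (E := H)).eventually_ge_atTop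
      (16 * ∑ z, W 0 z + 1)] with ξ hξ
    refine le_trans ?_ (hco ξ)
    nlinarith)
  set Z := ∑ z, W ξ z with hZ
  have hZpos : 0 < Z := sum_pos (fun z _ => hWpos ξ z) ⟨x, mem_univ x⟩
  have hder : ∀ η : H, ∑ z, W ξ z * (1 / 8 * ⟪ξ, η⟫ - 1 / 8 * ⟪η, φ z⟫) = 0 := by
    intro η
    have e1 : ∀ t : ℝ, ∑ z, W (ξ + t • η) z = ∑ z, W ξ z *
        exp (t * (1 / 8 * ⟪ξ, η⟫ - 1 / 8 * ⟪η, φ z⟫) + 1 / 16 * ‖η‖ ^ 2 * t ^ 2) := by
      intro t
      refine sum_congr rfl fun z _ => ?_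
      simp only [hW]
      rw [← exp_add, norm_add_sq_real, inner_add_left, inner_smul_left, inner_smul_right,
        norm_smul, mul_pow, Real.norm_eq_abs, sq_abs]
      congr 1
      simp only [conj_trivial]
      ring
    have hd : HasDerivAt (fun t : ℝ => ∑ z, W ξ z *
        exp (t * (1 / 8 * ⟪ξ, η⟫ - 1 / 8 * ⟪η, φ z⟫) + 1 / 16 * ‖η‖ ^ 2 * t ^ 2))
        (∑ z, W ξ z * (1 / 8 * ⟪ξ, η⟫ - 1 / 8 * ⟪η, φ z⟫)) 0 := by
      refine HasDerivAt.fun_sum fun z _ => ?_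
      refine HasDerivAt.const_mul _ ?_
      have h1 : HasDerivAt (fun t : ℝ =>
          t * (1 / 8 * ⟪ξ, η⟫ - 1 / 8 * ⟪η, φ z⟫) + 1 / 16 * ‖η‖ ^ 2 * t ^ 2)
          (1 / 8 * ⟪ξ, η⟫ - 1 / 8 * ⟪η, φ z⟫) 0 := by
        have := ((hasDerivAt_id (0 : ℝ)).mul_const (1 / 8 * ⟪ξ, η⟫ - 1 / 8 * ⟪η, φ z⟫)).add
          ((hasDerivAt_pow 2 (0 : ℝ)).const_mul (1 / 16 * ‖η‖ ^ 2))
        exact this.congr_deriv (by simp)
      exact h1.exp.congr_deriv (by simp)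
    refine IsLocalMin.hasDerivAt_eq_zero ?_ hd
    refine Filter.Eventually.of_forall fun t => ?_
    have := hξ (ξ + t • η)
    rw [e1] at this
    simpa using this
  have hfix : ∑ w, (W ξ w / Z) • φ w = ξ := by
    set η := ξ - ∑ w, (W ξ w / Z) • φ w with hη
    have h1 := hder η
    have h2 : ⟪η, η⟫ = 0 := by
      have h3 : ⟪η, η⟫ = ⟪η, ξ⟫ - ∑ w, W ξ w / Z * ⟪η, φ w⟫ := by
        conv_lhs => rw [hη]
        rw [inner_sub_right, inner_sum, ← hη]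
        simp only [inner_smul_right]
      have h4 : ∑ z, W ξ z * (1 / 8 * ⟪ξ, η⟫ - 1 / 8 * ⟪η, φ z⟫) =
          Z / 8 * (⟪η, ξ⟫ - ∑ w, W ξ w / Z * ⟪η, φ w⟫) := by
        rw [mul_sub, mul_sum, real_inner_comm η ξ]
        simp only [mul_sub, sum_sub_distrib, ← sum_mul, ← hZ]
        congr 1
        · ring
        · refine sum_congr rfl fun z _ => ?_
          field_simp
      rw [h4] at h1
      rw [h3]
      rcases mul_eq_zero.1 h1 with h | h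
      · exfalso; linarith
      · exact h
    rw [inner_self_eq_zero] at h2
    exact (sub_eq_zero.1 h2).symm
  refine ⟨fun z => W ξ z / Z, ⟨1 / 16 * ‖ξ‖ ^ 2 - log Z, fun z => ?_⟩, ?_⟩
  · have : ∑ w, (W ξ w / Z) • (Φ w - Φ x) = ξ := hfix
    rw [this, div_eq_iff hZpos.ne']
    conv_rhs => rw [← exp_log hZpos, ← exp_add]
    simp only [hW, hφ, exp_log hZpos]
    congr 1
    ring
  · rw [← sum_div, div_self hZpos.ne']

lemma jensen_exp {q y : X → ℝ} (hq : ∀ z, 0 ≤ q z) (h1 : ∑ z, q z = 1) :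
    exp (∑ z, q z * y z) ≤ ∑ z, q z * exp (y z) := by
  set m := ∑ z, q z * y z with hm
  have h : ∀ z, q z * (exp m * (1 + y z - m)) ≤ q z * exp (y z) := by
    intro z
    refine mul_le_mul_of_nonneg_left ?_ (hq z)
    have := add_one_le_exp (y z - m)
    rw [show exp (y z) = exp m * exp (y z - m) by rw [← exp_add]; ring_nf]
    exact mul_le_mul_of_nonneg_left (by linarith) (exp_pos m).le
  refine le_trans (le_of_eq ?_) (sum_le_sum fun z _ => h z)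
  have : ∑ z, q z * (exp m * (1 + y z - m)) =
      exp m * ((1 - m) * ∑ z, q z + ∑ z, q z * y z) := by
    rw [mul_sum, ← sum_add_distrib, mul_sum]
    exact sum_congr rfl fun z _ => by ring
  rw [this, h1, ← hm]
  ring

namespace IsGibbs

variable {Φ : X → H} {x y : X} {b b' q q' : X → ℝ}

lemma pos (hq : IsGibbs Φ x b q) (z : X) : 0 < q z := by
  obtain ⟨C, hC⟩ := hq.ex
  rw [hC]
  exact exp_pos _

lemma moments (hq : IsGibbs Φ x b q) (hb : ∀ z, 0 ≤ b z) (hbx : b x = 0) {v : ℝ}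
    (hv : ∑ z, exp (-(‖Φ z - Φ x‖ ^ 2 + b z) / 2) ≤
      exp v * ∑ z, exp (-2 * (‖Φ z - Φ x‖ ^ 2 + b z))) :
    ∑ z, q z * (‖Φ z - Φ x‖ ^ 2 + b z) ≤ 4 * v ∧
    ∑ z, q z * exp (7 / 16 * (‖Φ z - Φ x‖ ^ 2 + b z)) ≤ exp (3 / 2 * v) ∧
    ∀ z, q z ≤ exp (v / 2 - 15 / 16 * (‖Φ z - Φ x‖ ^ 2 + b z)) := by
  have hpos := hq.pos
  obtain ⟨C, hC⟩ := hq.ex
  set m := ∑ w, q w • (Φ w - Φ x) with hm
  set κ := ∑ z, q z * ‖Φ z - Φ x‖ ^ 2 with hκ
  set e : X → ℝ := fun z => ‖Φ z - Φ x‖ ^ 2 + b z with he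
  have hin : ∀ z, |⟪m, Φ z - Φ x⟫| ≤ (‖m‖ ^ 2 + ‖Φ z - Φ x‖ ^ 2) / 2 := fun z =>
    (abs_real_inner_le_norm _ _).trans (by nlinarith [sq_nonneg (‖m‖ - ‖Φ z - Φ x‖)])
  have hmκ : ‖m‖ ^ 2 ≤ κ := by
    have h1 : ‖m‖ ^ 2 = ∑ z, q z * ⟪m, Φ z - Φ x⟫ := by
      rw [← real_inner_self_eq_norm_sq]
      conv_lhs => rw [hm]
      rw [inner_sum, ← hm]
      simp only [inner_smul_right]
    have h2 : ∑ z, q z * ⟪m, Φ z - Φ x⟫ ≤ ∑ z, q z * ((‖m‖ ^ 2 + ‖Φ z - Φ x‖ ^ 2) / 2) :=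
      sum_le_sum fun z _ =>
        mul_le_mul_of_nonneg_left ((le_abs_self _).trans (hin z)) (hpos z).le
    have h3 : ∑ z, q z * ((‖m‖ ^ 2 + ‖Φ z - Φ x‖ ^ 2) / 2) =
        ‖m‖ ^ 2 / 2 * ∑ z, q z + κ / 2 := by
      rw [hκ, mul_sum, sum_div, ← sum_add_distrib]
      exact sum_congr rfl fun z _ => by ring
    rw [h3, hq.sum] at h2
    linarith
  set S := ∑ z, exp (-2 * e z) with hS
  have hS1 : 1 ≤ S := by
    have := single_le_sum (f := fun z => exp (-2 * e z)) (fun z _ => (exp_pos _).le) (mem_univ x)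
    refine le_trans (le_of_eq ?_) this
    simp [he, hbx]
  have hlow : exp (C - κ / 16) * S ≤ 1 := by
    rw [← hq.sum, hS, mul_sum]
    refine sum_le_sum fun z _ => ?_
    rw [hC z, ← exp_add, exp_le_exp]
    have := abs_le.1 (hin z)
    have := hb z
    simp only [he]
    nlinarith [sq_nonneg ‖Φ z - Φ x‖]
  have hup : ∀ z, q z * S ≤ exp (κ / 8 - 15 / 16 * e z) := by
    intro z
    have h1 : q z ≤ exp (κ / 8 - 15 / 16 * e z) * exp (C - κ / 16) := by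
      rw [hC z, ← exp_add, exp_le_exp]
      have := abs_le.1 (hin z)
      have := hb z
      simp only [he]
      nlinarith
    calc q z * S ≤ exp (κ / 8 - 15 / 16 * e z) * exp (C - κ / 16) * S :=
          mul_le_mul_of_nonneg_right h1 (by linarith)
      _ = exp (κ / 8 - 15 / 16 * e z) * (exp (C - κ / 16) * S) := by ring
      _ ≤ _ := mul_le_of_le_one_right (exp_pos _).le hlow
  have hmgf : ∑ z, q z * exp (7 / 16 * e z) ≤ exp (κ / 8 + v) := by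
    refine le_of_mul_le_mul_right ?_ (by linarith : 0 < S)
    calc (∑ z, q z * exp (7 / 16 * e z)) * S = ∑ z, q z * S * exp (7 / 16 * e z) := by
          rw [sum_mul]
          exact sum_congr rfl fun z _ => by ring
      _ ≤ ∑ z, exp (κ / 8) * exp (-e z / 2) := by
          refine sum_le_sum fun z _ => ?_
          refine (mul_le_mul_of_nonneg_right (hup z) (exp_pos _).le).trans (le_of_eq ?_)
          rw [← exp_add, ← exp_add]
          ring_nf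
      _ ≤ exp (κ / 8) * (exp v * S) := by
          rw [← mul_sum]
          exact mul_le_mul_of_nonneg_left hv (exp_pos _).le
      _ = _ := by rw [exp_add]; ring
  have hj := (jensen_exp (y := fun z => 7 / 16 * e z) (fun z => (hpos z).le) hq.sum).trans hmgf
  rw [exp_le_exp] at hj
  have h7 : ∑ z, q z * (7 / 16 * e z) = 7 / 16 * ∑ z, q z * e z := by
    rw [mul_sum]
    exact sum_congr rfl fun z _ => by ring
  have hκe : κ ≤ ∑ z, q z * e z :=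
    sum_le_sum fun z _ => mul_le_mul_of_nonneg_left (by simp [he, hb z]) (hpos z).le
  have hκ0 : 0 ≤ κ := sum_nonneg fun z _ => mul_nonneg (hpos z).le (sq_nonneg _)
  rw [h7] at hj
  refine ⟨by linarith, hmgf.trans (exp_le_exp.2 (by linarith)), fun z => ?_⟩
  have h1 : q z ≤ q z * S := le_mul_of_one_le_right (hpos z).le hS1
  exact h1.trans ((hup z).trans (exp_le_exp.2 (by simp only [he]; linarith)))

end IsGibbs

lemma second_moment {q e : X → ℝ} (hq : ∀ z, 0 ≤ q z) (h1 : ∑ z, q z = 1) (he : ∀ z, 0 ≤ e z)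
    {v : ℝ} (hv : 0 ≤ v) (h : ∑ z, q z * exp (7 / 16 * e z) ≤ exp (3 / 2 * v)) :
    ∑ z, q z * e z ^ 2 ≤ 60 * (v + v ^ 2) := by
  rcases le_total v 1 with hv1 | hv1
  · have h2 : ∑ z, q z * e z ^ 2 ≤ ∑ z, q z * (512 / 49 * (exp (7 / 16 * e z) - 1)) := by
      refine sum_le_sum fun z _ => mul_le_mul_of_nonneg_left ?_ (hq z)
      have := he z
      have := quadratic_le_exp_of_nonneg (x := 7 / 16 * e z) (by positivity)
      nlinarith
    have h3 : ∑ z, q z * (512 / 49 * (exp (7 / 16 * e z) - 1)) =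
        512 / 49 * (∑ z, q z * exp (7 / 16 * e z) - ∑ z, q z) := by
      rw [← sum_sub_distrib, mul_sum]
      exact sum_congr rfl fun z _ => by ring
    have h4 : exp (3 / 2 * v) = exp (3 / 4 * v) ^ 2 := by rw [sq, ← exp_add]; ring_nf
    have h5 := exp_sub_one_le (x := 3 / 4 * v) (by positivity) (by linarith)
    have h6 : exp (3 / 4 * v) ^ 2 ≤ (1 + 3 / 2 * v) ^ 2 :=
      pow_le_pow_left₀ (exp_pos _).le (by linarith) 2
    rw [h3, h1] at h2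
    nlinarith
  · have h2 : ∑ z, q z * e z ^ 2 ≤ ∑ z, q z *
        (256 / 49 * (9 / 2 * v ^ 2 + 4 * exp (-(3 / 2 * v)) * exp (7 / 16 * e z))) := by
      refine sum_le_sum fun z _ => mul_le_mul_of_nonneg_left ?_ (hq z)
      have := he z
      rw [mul_assoc 4, ← exp_add]
      rcases le_total (7 / 16 * e z) (3 / 2 * v) with h3 | h3
      · have := exp_pos (-(3 / 2 * v) + 7 / 16 * e z)
        nlinarith
      · have := quadratic_le_exp_of_nonneg (x := -(3 / 2 * v) + 7 / 16 * e z) (by linarith)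
        nlinarith [sq_nonneg (7 / 16 * e z - 3 * v)]
    have h3 : ∑ z, q z *
        (256 / 49 * (9 / 2 * v ^ 2 + 4 * exp (-(3 / 2 * v)) * exp (7 / 16 * e z))) =
        256 / 49 * (9 / 2 * v ^ 2 * ∑ z, q z +
          4 * (exp (-(3 / 2 * v)) * ∑ z, q z * exp (7 / 16 * e z))) := by
      rw [mul_sum, mul_sum, mul_sum, ← sum_add_distrib, mul_sum]
      exact sum_congr rfl fun z _ => by ring
    have h4 : exp (-(3 / 2 * v)) * ∑ z, q z * exp (7 / 16 * e z) ≤ 1 := by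
      refine (mul_le_mul_of_nonneg_left h (exp_pos _).le).trans (le_of_eq ?_)
      rw [← exp_add]
      simp
    rw [h3, h1] at h2
    nlinarith

lemma chi_le_log {a b : ℝ} (ha : 0 < a) (hb : 0 < b) :
    2 * ((a - b) ^ 2 / (a + b)) ≤ (a - b) * (log a - log b) := by
  wlog h : b ≤ a generalizing a b
  · have := this hb ha (by linarith)
    rw [show (a - b) ^ 2 = (b - a) ^ 2 by ring, add_comm a b]
    linarith
  have h1 := le_log_one_add_of_nonneg (x := (a - b) / b) (div_nonneg (by linarith) hb.le)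
  rw [show 1 + (a - b) / b = a / b by field_simp; ring, log_div ha.ne' hb.ne'] at h1
  have h2 : 2 * ((a - b) / b) / ((a - b) / b + 2) = 2 * (a - b) / (a + b) := by
    rw [show (a - b) / b + 2 = (a + b) / b by field_simp; ring]
    field_simp
  rw [h2] at h1
  calc 2 * ((a - b) ^ 2 / (a + b)) = (a - b) * (2 * (a - b) / (a + b)) := by ring
    _ ≤ _ := mul_le_mul_of_nonneg_left h1 (by linarith)

lemma wsum_sq_le {q q' f : X → ℝ} (hq : ∀ z, 0 < q z) (hq' : ∀ z, 0 < q' z) :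
    (∑ z, |q z - q' z| * f z) ^ 2 ≤
      (∑ z, (q z - q' z) ^ 2 / (q z + q' z)) * ∑ z, (q z + q' z) * f z ^ 2 := by
  refine sum_sq_le_sum_mul_sum_of_sq_le_mul _ (fun z _ => ?_) (fun z _ => ?_) fun z _ => ?_
  · have := hq z; have := hq' z; positivity
  · have := hq z; have := hq' z; positivity
  · have := hq z; have := hq' z
    rw [mul_pow, sq_abs]
    field_simp
    rfl

namespace IsGibbs

variable {Φ : X → H} {x y : X} {b b' q q' : X → ℝ}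

lemma ratio (hq : IsGibbs Φ x b q) (hq' : IsGibbs Φ y b' q') : ∃ C : ℝ, ∀ z,
    log (q z) - log (q' z) = C + (17 / 8 * ⟪Φ x - Φ y, Φ z - Φ x⟫ -
      1 / 8 * ⟪∑ w, (q w - q' w) • (Φ w - Φ x), Φ z - Φ x⟫ + (b' z - b z)) := by
  obtain ⟨C, hC⟩ := hq.ex
  obtain ⟨C', hC'⟩ := hq'.ex
  set m := ∑ w, q w • (Φ w - Φ x) with hm
  set m' := ∑ w, q' w • (Φ w - Φ y) with hm'
  set c := Φ x - Φ y with hc
  set δ := ∑ w, (q w - q' w) • (Φ w - Φ x) with hδ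
  have h1 : m' = m - δ + c := by
    have : c = ∑ w, q' w • c := by rw [← sum_smul, hq'.sum, one_smul]
    rw [this, hm, hm', hδ, ← sum_sub_distrib, ← sum_add_distrib]
    refine sum_congr rfl fun w _ => ?_
    rw [hc]
    module
  refine ⟨C - C' + ‖c‖ ^ 2 + 1 / 8 * ⟪m', c⟫, fun z => ?_⟩
  rw [hC z, hC' z, log_exp, log_exp, show Φ z - Φ y = (Φ z - Φ x) + c by rw [hc]; abel,
    norm_add_sq_real, inner_add_right, real_inner_comm c (Φ z - Φ x)]
  conv_lhs => rw [show ⟪m', Φ z - Φ x⟫ = ⟪m, Φ z - Φ x⟫ - ⟪δ, Φ z - Φ x⟫ + ⟪c, Φ z - Φ x⟫ by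
    rw [h1, inner_add_left, inner_sub_left]]
  ring

lemma pair1 (hq : IsGibbs Φ x b q) (hq' : IsGibbs Φ y b' q') {h l : H} {τ : ℝ}
    (hc : Φ x - Φ y = h + l) (hh : ‖h‖ ≤ τ) (hl : ∀ z, |⟪l, Φ z - Φ x⟫| ≤ τ)
    (hb : ∀ z, |b z - b' z| ≤ τ) :
    ∑ z, (q z - q' z) ^ 2 / (q z + q' z) ≤ 25 * τ ^ 2 ∧ ∑ z, |q z - q' z| ≤ 7 * τ ∧
    ‖∑ w, (q w - q' w) • (Φ w - Φ x)‖ ≤ 20 * τ := by
  have hτ : 0 ≤ τ := (norm_nonneg _).trans hh
  have hpos := hq.pos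
  have hpos' := hq'.pos
  obtain ⟨C, hC⟩ := hq.ratio hq'
  set δ := ∑ w, (q w - q' w) • (Φ w - Φ x) with hδ
  set χ := ∑ z, (q z - q' z) ^ 2 / (q z + q' z) with hχ
  set N := ∑ z, |q z - q' z| with hN
  set J := ∑ z, (q z - q' z) * (log (q z) - log (q' z)) with hJ
  have hN0 : 0 ≤ N := sum_nonneg fun z _ => abs_nonneg _
  have hχJ : 2 * χ ≤ J := by
    rw [hχ, mul_sum]
    exact sum_le_sum fun z _ => chi_le_log (hpos z) (hpos' z)
  have hNχ : N ^ 2 ≤ χ * 2 := by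
    have := wsum_sq_le (f := fun _ => 1) hpos hpos'
    simp only [mul_one, one_pow, sum_add_distrib, hq.sum, hq'.sum] at this
    rw [hN, hχ]
    linarith
  have hin : ∀ u : H, ∑ z, (q z - q' z) * ⟪u, Φ z - Φ x⟫ = ⟪u, δ⟫ := by
    intro u
    rw [hδ, inner_sum]
    simp only [inner_smul_right]
  have hwt : ∀ f : X → ℝ, (∀ z, |f z| ≤ τ) → ∑ z, (q z - q' z) * f z ≤ τ * N := by
    intro f hf
    rw [hN, mul_sum]
    refine sum_le_sum fun z _ => (le_abs_self _).trans ?_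
    rw [abs_mul, mul_comm]
    exact mul_le_mul_of_nonneg_right (hf z) (abs_nonneg _)
  have hJ2 : J = C * (∑ z, q z - ∑ z, q' z) +
      17 / 8 * ∑ z, (q z - q' z) * ⟪h, Φ z - Φ x⟫ + 17 / 8 * ∑ z, (q z - q' z) * ⟪l, Φ z - Φ x⟫
      - 1 / 8 * ∑ z, (q z - q' z) * ⟪δ, Φ z - Φ x⟫ + ∑ z, (q z - q' z) * (b' z - b z) := by
    rw [hJ, ← sum_sub_distrib]
    simp only [mul_sum, ← sum_add_distrib, ← sum_sub_distrib]
    refine sum_congr rfl fun z _ => ?_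
    rw [hC z, hc, inner_add_left]
    ring
  rw [hq.sum, hq'.sum, hin, hin δ, real_inner_self_eq_norm_sq] at hJ2
  have k1 := hwt _ hl
  have k2 := hwt (fun z => b' z - b z) fun z => by rw [abs_sub_comm]; exact hb z
  have k3 : ⟪h, δ⟫ ≤ τ * ‖δ‖ :=
    (real_inner_le_norm _ _).trans (mul_le_mul_of_nonneg_right hh (norm_nonneg _))
  have k4 : J / 2 + ‖δ‖ ^ 2 / 16 ≤ 23 * τ ^ 2 := by
    nlinarith [sq_nonneg (N - 25 / 8 * τ), sq_nonneg (‖δ‖ - 17 * τ), sq_nonneg τ]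
  have hχ0 : 0 ≤ χ := by nlinarith [sq_nonneg N]
  have k5 : ‖δ‖ ≤ 20 * τ := by
    refine (pow_le_pow_iff_left₀ (norm_nonneg _) (by positivity) two_ne_zero).1 ?_
    nlinarith [sq_nonneg τ]
  refine ⟨by nlinarith [sq_nonneg ‖δ‖, sq_nonneg τ], ?_, k5⟩
  refine (pow_le_pow_iff_left₀ hN0 (by positivity) two_ne_zero).1 ?_
  nlinarith [sq_nonneg ‖δ‖, sq_nonneg τ]

lemma pair2 (hq : IsGibbs Φ x b q) (hq' : IsGibbs Φ y b' q') {h l : H} {τ v v' : ℝ}
    (hc : Φ x - Φ y = h + l) (hh : ‖h‖ ≤ τ) (hl : ∀ z, |⟪l, Φ z - Φ x⟫| ≤ τ)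
    (hb : ∀ z, |b z - b' z| ≤ τ) (hv : ∑ z, q z * ‖Φ z - Φ x‖ ^ 2 ≤ 4 * v)
    (hv' : ∑ z, q' z * ‖Φ z - Φ y‖ ^ 2 ≤ 4 * v') (z : X) :
    |log (q z) - log (q' z)| ≤
      τ * (5 * ‖Φ z - Φ x‖ + 13 + 5 * (v + v') + 5 * ‖Φ x - Φ y‖) := by
  have hτ : 0 ≤ τ := (norm_nonneg _).trans hh
  have hpos := hq.pos
  have hpos' := hq'.pos
  obtain ⟨C, hC⟩ := hq.ratio hq'
  have k5 := (hq.pair1 hq' hc hh hl hb).2.2
  set δ := ∑ w, (q w - q' w) • (Φ w - Φ x) with hδ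
  set ρ : X → ℝ := fun z => 17 / 8 * ⟪Φ x - Φ y, Φ z - Φ x⟫ - 1 / 8 * ⟪δ, Φ z - Φ x⟫ +
    (b' z - b z) with hρ
  have hρb : ∀ z, |ρ z| ≤ τ * (5 * ‖Φ z - Φ x‖ + 4) := by
    intro z
    have a0 := norm_nonneg (Φ z - Φ x)
    have a1 := abs_le.1 ((abs_real_inner_le_norm h (Φ z - Φ x)).trans
      (mul_le_mul_of_nonneg_right hh a0))
    have a2 := abs_le.1 ((abs_real_inner_le_norm δ (Φ z - Φ x)).trans
      (mul_le_mul_of_nonneg_right k5 a0))
    have a3 := abs_le.1 (hl z)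
    have a4 := abs_le.1 (hb z)
    have a5 := mul_nonneg hτ a0
    simp only [hρ]
    rw [hc, inner_add_left, abs_le]
    constructor <;> nlinarith
  have hv0 : 0 ≤ v := by
    have : 0 ≤ ∑ z, q z * ‖Φ z - Φ x‖ ^ 2 :=
      sum_nonneg fun z _ => mul_nonneg (hpos z).le (sq_nonneg _)
    linarith
  have hv0' : 0 ≤ v' := by
    have : 0 ≤ ∑ z, q' z * ‖Φ z - Φ y‖ ^ 2 :=
      sum_nonneg fun z _ => mul_nonneg (hpos' z).le (sq_nonneg _)
    linarith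
  have hc0 := norm_nonneg (Φ x - Φ y)
  have hClo : -C ≤ τ * (9 + 5 * v) := by
    have j1 := jensen_exp (y := fun z => -(C + ρ z)) (fun z => (hpos z).le) hq.sum
    have j2 : ∑ z, q z * exp (-(C + ρ z)) = 1 := by
      rw [← hq'.sum]
      refine sum_congr rfl fun z _ => ?_
      rw [← hC z, neg_sub, exp_sub, exp_log (hpos z), exp_log (hpos' z)]
      field_simp [(hpos z).ne']
    rw [j2, exp_le_one_iff] at j1
    have j3 : ∑ z, q z * (-C - τ * (9 + 5 / 4 * ‖Φ z - Φ x‖ ^ 2)) ≤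
        ∑ z, q z * -(C + ρ z) := by
      refine sum_le_sum fun z _ => mul_le_mul_of_nonneg_left ?_ (hpos z).le
      have := (abs_le.1 (hρb z)).2
      nlinarith [mul_nonneg hτ (sq_nonneg (‖Φ z - Φ x‖ - 2))]
    have j4 : ∑ z, q z * (-C - τ * (9 + 5 / 4 * ‖Φ z - Φ x‖ ^ 2)) =
        (-C - τ * 9) * ∑ z, q z - 5 / 4 * τ * ∑ z, q z * ‖Φ z - Φ x‖ ^ 2 := by
      rw [mul_sum, mul_sum, ← sum_sub_distrib]
      exact sum_congr rfl fun z _ => by ring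
    rw [j4, hq.sum] at j3
    nlinarith [mul_le_mul_of_nonneg_left hv hτ]
  have hChi : C ≤ τ * (9 + 5 * v' + 5 * ‖Φ x - Φ y‖) := by
    have j1 := jensen_exp (y := fun z => C + ρ z) (fun z => (hpos' z).le) hq'.sum
    have j2 : ∑ z, q' z * exp (C + ρ z) = 1 := by
      rw [← hq.sum]
      refine sum_congr rfl fun z _ => ?_
      rw [← hC z, exp_sub, exp_log (hpos z), exp_log (hpos' z)]
      field_simp [(hpos' z).ne']
    rw [j2, exp_le_one_iff] at j1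
    have j3 : ∑ z, q' z * (C - τ * (9 + 5 * ‖Φ x - Φ y‖ + 5 / 4 * ‖Φ z - Φ y‖ ^ 2)) ≤
        ∑ z, q' z * (C + ρ z) := by
      refine sum_le_sum fun z _ => mul_le_mul_of_nonneg_left ?_ (hpos' z).le
      have := (abs_le.1 (hρb z)).1
      have t1 : ‖Φ z - Φ x‖ ≤ ‖Φ z - Φ y‖ + ‖Φ x - Φ y‖ := by
        rw [show Φ z - Φ x = (Φ z - Φ y) - (Φ x - Φ y) by abel]
        exact norm_sub_le _ _
      nlinarith [mul_nonneg hτ (sq_nonneg (‖Φ z - Φ y‖ - 2)), mul_le_mul_of_nonneg_left t1 hτ]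
    have j4 : ∑ z, q' z * (C - τ * (9 + 5 * ‖Φ x - Φ y‖ + 5 / 4 * ‖Φ z - Φ y‖ ^ 2)) =
        (C - τ * (9 + 5 * ‖Φ x - Φ y‖)) * ∑ z, q' z -
          5 / 4 * τ * ∑ z, q' z * ‖Φ z - Φ y‖ ^ 2 := by
      rw [mul_sum, mul_sum, ← sum_sub_distrib]
      exact sum_congr rfl fun z _ => by ring
    rw [j4, hq'.sum] at j3
    nlinarith [mul_le_mul_of_nonneg_left hv' hτ]
  rw [hC z]
  have := abs_le.1 (hρb z)
  simp only [hρ] at this
  rw [abs_le]
  constructor <;> nlinarith [mul_nonneg hτ hv0, mul_nonneg hτ hv0', mul_nonneg hτ hc0]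

end IsGibbs

end Vale.Agent.P249
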