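import Vale.Agent.P249.FeatLo

/-! The multi-scale family of kernels. -/

open Finset Real

namespace Vale.Agent.P249

universe u v

lemma scale_any {p : ℝ} (hp : 1 < p) : ∃ κ C₀ C₁ : ℝ, 0 ≤ κ ∧ κ + 1 / p < 1 ∧ 1 ≤ C₀ ∧ 1 ≤ C₁ ∧
    ∀ ℓ : ℝ, 1 ≤ ℓ → ∃ B : ℝ, 1 ≤ B ∧ B ^ 2 ≤ C₁ * ℓ ^ κ ∧
    ∀ (X : Type u) (ι : Type v) [Fintype X] [MetricSpace X] [Fintype ι] (F : X → ι → ℝ) (σ M : ℝ),
      (∀ x y, dist x y ^ p = ∑ i, |F x i - F y i| ^ p) → (Fintype.card X : ℝ) ≤ exp ℓ → 0 < σ →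
      2 * C₀ ≤ M → 2 * (B ^ 2 + 1) ≤ M →
      (∀ x : X, 0 ≤ vol p σ M x) ∧ ∃ k kt : X → X → ℝ,
        Scale σ (9 * ℓ ^ κ + 5120 * B ^ 2) (13 * ℓ ^ κ + 11520 * B ^ 2 * ℓ) k kt
          (fun x => 4 * (vol p σ M x + flm σ ℓ x))
          (fun x => 9 * C₀ * (vol p σ M x + flm σ ℓ x) ^ (1 / p)) := by
  have hscale : ∀ {X : Type u} {ι : Type v} [MetricSpace X] [Fintype ι] {F : X → ι → ℝ} {σ : ℝ},
      (∀ x y, dist x y ^ p = ∑ i, |F x i - F y i| ^ p) → 0 < σ →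
      ∀ x y, (dist x y / σ) ^ p = ∑ i, |F x i / σ - F y i / σ| ^ p := by
    intro X ι _ _ F σ hF hσ x y
    rw [div_rpow dist_nonneg hσ.le, hF, sum_div]
    refine sum_congr rfl fun i _ => ?_
    rw [← sub_div, abs_div, abs_of_pos hσ, div_rpow (abs_nonneg _) hσ.le]
  rcases lt_or_ge p 2 with hp2 | hp2
  · obtain ⟨B, hB, hfeat⟩ := feat_lo.{u, v} hp hp2
    refine ⟨0, 8, B ^ 2, le_rfl, by rw [zero_add, div_lt_one (by linarith)]; exact hp,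
      by norm_num, by nlinarith, fun ℓ hℓ => ⟨B, hB, by simp, ?_⟩⟩
    intro X ι _ _ _ F σ M hF hn hσ hM1 hM2
    obtain ⟨L, Φ, hΦ⟩ := hfeat (3 * ℓ / ℓ ^ (0 : ℝ) + 1) (fun x i => F x i / σ) hσ (hscale hF hσ)
    exact scale_gibbs hΦ hp.le hσ (by norm_num) hB hℓ (by simp) hM1 hM2 le_rfl hn
  · have h2p : 1 ≤ (2 : ℝ) ^ p := one_le_rpow one_le_two (by linarith)
    have h5p : 1 ≤ (5 : ℝ) ^ (p - 2) := one_le_rpow (by norm_num) (by linarith)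
    have hC : 1 ≤ p ^ 2 * (1 + 2 * 2 ^ p) * 5 ^ (p - 2) :=
      one_le_mul_of_one_le_of_one_le (one_le_mul_of_one_le_of_one_le (by nlinarith) (by linarith))
        h5p
    have hp1 : 0 < p - 1 := by linarith
    have hκ : 0 ≤ (p - 2) / (p - 1) := div_nonneg (by linarith) hp1.le
    refine ⟨(p - 2) / (p - 1), 2 ^ p, p ^ 2 * (1 + 2 * 2 ^ p) * 5 ^ (p - 2), hκ, ?_, h2p, hC,
      fun ℓ hℓ => ?_⟩
    · rw [div_add_div _ _ hp1.ne' (by linarith), div_lt_one (by positivity)]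
      nlinarith
    have ho : 1 ≤ ℓ ^ ((p - 2) / (p - 1)) := one_le_rpow hℓ hκ
    have hB := one_le_mul_of_one_le_of_one_le hC ho
    refine ⟨√(p ^ 2 * (1 + 2 * 2 ^ p) * 5 ^ (p - 2) * ℓ ^ ((p - 2) / (p - 1))),
      one_le_sqrt.2 hB, (sq_sqrt (by linarith)).le, ?_⟩
    intro X ι _ _ _ F σ M hF hn hσ hM1 hM2
    obtain ⟨Φ, hΦ⟩ := feat_hi (T := 3 * ℓ / ℓ ^ ((p - 2) / (p - 1)) + 1)
      (B := √(p ^ 2 * (1 + 2 * 2 ^ p) * 5 ^ (p - 2) * ℓ ^ ((p - 2) / (p - 1)))) hp2 hσ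
      (by positivity) (sqrt_nonneg _) (by
        rw [sq_sqrt (by linarith), mul_assoc (p ^ 2 * (1 + 2 * 2 ^ p))]
        refine mul_le_mul_of_nonneg_left ?_ (by positivity)
        have hℓ0 : 0 < ℓ := by linarith
        have e1 : ℓ / ℓ ^ ((p - 2) / (p - 1)) = ℓ ^ (1 / (p - 1)) := by
          rw [show 1 / (p - 1) = 1 - (p - 2) / (p - 1) by field_simp; ring, rpow_sub hℓ0, rpow_one]
        have e2 : ℓ ^ ((p - 2) / (p - 1)) = (ℓ ^ (1 / (p - 1))) ^ (p - 2) := by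
          rw [← rpow_mul hℓ0.le]
          congr 1
          ring
        have h3 : 1 ≤ ℓ ^ (1 / (p - 1)) := one_le_rpow hℓ (by positivity)
        rw [mul_div_assoc, e1, e2, ← mul_rpow (by norm_num) (by linarith)]
        exact rpow_le_rpow (by linarith) (by linarith) (by linarith))
      (fun x i => F x i / σ) (hscale hF hσ)
    exact scale_gibbs hΦ hp.le hσ h2p (one_le_sqrt.2 hB) hℓ ho hM1 hM2 le_rfl hn

lemma log_bound {c a η : ℝ} (hc : 0 ≤ c) (ha : 0 ≤ a) (hη : 0 < η) :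
    ∃ C : ℝ, 1 ≤ C ∧ ∀ ℓ : ℝ, 1 ≤ ℓ → log (1 + c * ℓ ^ a) ≤ C * ℓ ^ η := by
  refine ⟨1 + c + a / η, by have : 0 ≤ a / η := by positivity
                            linarith, fun ℓ hℓ => ?_⟩
  have h1 : 1 ≤ ℓ ^ a := one_le_rpow hℓ ha
  have h2 : 1 ≤ ℓ ^ η := one_le_rpow hℓ hη.le
  have h3 : log (1 + c * ℓ ^ a) ≤ log ((1 + c) * ℓ ^ a) :=
    log_le_log (by positivity) (by nlinarith)
  rw [log_mul (by positivity) (by positivity), log_rpow (by linarith)] at h3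
  have h4 := log_le_sub_one_of_pos (by positivity : 0 < 1 + c)
  have h5 := mul_le_mul_of_nonneg_left (log_le_rpow_div (by linarith : 0 ≤ ℓ) hη) ha
  have h6 : a * (ℓ ^ η / η) = a / η * ℓ ^ η := by ring
  nlinarith

lemma dyadic_bound {c η : ℝ} (hc : 0 ≤ c) (hη : 0 < η) :
    ∃ C : ℝ, 1 ≤ C ∧ ∀ ℓ : ℝ, 1 ≤ ℓ → ∃ m : ℕ, c * ℓ ≤ 2 ^ m ∧ (m : ℝ) ≤ C * ℓ ^ η := by
  obtain ⟨C, hC, h⟩ := log_bound hc zero_le_one hη
  refine ⟨2 * C + 1, by linarith, fun ℓ hℓ => ?_⟩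
  have h0 : 1 ≤ 1 + c * ℓ := by nlinarith
  obtain ⟨m, h1, h2⟩ := exists_nat_pow_near h0 one_lt_two
  refine ⟨m + 1, by linarith, ?_⟩
  have h3 := log_le_log (by positivity) h1
  have h4 := h ℓ hℓ
  rw [rpow_one] at h4
  rw [log_pow] at h3
  have h5 : 1 ≤ ℓ ^ η := one_le_rpow hℓ hη.le
  have h6 : (0 : ℝ) ≤ m := m.cast_nonneg
  push_cast
  nlinarith [log_two_gt_d9]

/-- A multi-scale family of kernels interpolating between the identity and a constant. -/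
structure Fam {X : Type*} [Fintype X] [MetricSpace X] (p σ A Λ B₁ V : ℝ) (J : ℕ)
    (k kt : ℕ → X → X → ℝ) (a ω : ℕ → X → ℝ) : Prop where
  pos : 0 < σ
  sc : ∀ j, Scale (σ * 2 ^ j) A Λ (k j) (kt j) (a j) (ω j)
  first : ∀ x (g : X → ℝ), ∑ z, k 0 x z * g z = g x
  last : ∀ x y, k J x = k J y
  sa : ∀ x, ∑ j ∈ range (J + 1), a j x ≤ B₁
  sω : ∀ x, ∑ j ∈ range (J + 1), ω j x ^ p ≤ V
  lo : ∀ x y : X, x ≠ y → σ < dist x y
  hi : ∀ x y : X, dist x y ≤ σ * 2 ^ J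

lemma fam_of_scales {X : Type*} [Fintype X] [MetricSpace X] [Nonempty X] {p ℓ C₀ A Λ : ℝ} {m : ℕ}
    (hp : 1 ≤ p) (hC₀ : 1 ≤ C₀) (hA : 0 ≤ A) (hΛ : 1 ≤ Λ)
    (hn : (Fintype.card X : ℝ) ≤ exp ℓ)
    (hG : ∀ σ, 0 < σ → (∀ x : X, 0 ≤ vol p σ (2 ^ m) x) ∧ ∃ k kt : X → X → ℝ,
      Scale σ A Λ k kt (fun x => 4 * (vol p σ (2 ^ m) x + flm σ ℓ x))
        (fun x => 9 * C₀ * (vol p σ (2 ^ m) x + flm σ ℓ x) ^ (1 / p))) :
    ∃ (σ : ℝ) (J : ℕ) (k kt : ℕ → X → X → ℝ) (a ω : ℕ → X → ℝ),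
      Fam p σ A Λ (4 * (2 * m * ℓ + 8) + 1) ((9 * C₀) ^ p * (2 * m * ℓ + 8) + 1) J k kt a ω := by
  have hp0 : 0 < p := by linarith
  classical
  obtain ⟨σ, L, hσ, hrange⟩ := exists_range fun a : X × X => dist a.1 a.2
  have hlo : ∀ x y : X, x ≠ y → σ < dist x y := fun x y h => (hrange (x, y)).1 (dist_pos.2 h)
  have hhi : ∀ x y : X, ∀ j, L + 1 ≤ j → dist x y ≤ σ * 2 ^ j := fun x y j hj =>
    (hrange (x, y)).2.le.trans (mul_le_mul_of_nonneg_left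
      (pow_le_pow_right₀ one_le_two (by omega)) hσ.le)
  have hσj : ∀ j : ℕ, 0 < σ * 2 ^ j := fun j => by positivity
  choose hv0 k kt hk using fun j : ℕ => hG (σ * 2 ^ j) (hσj j)
  obtain ⟨x₀⟩ := (inferInstance : Nonempty X)
  set w : ℕ → X → ℝ := fun j x => vol p (σ * 2 ^ j) (2 ^ m) x + flm (σ * 2 ^ j) ℓ x with hw
  have hw0 : ∀ j x, 0 ≤ w j x := fun j x => add_nonneg (hv0 j x) (flm_nonneg (hσj j) x)
  have hwsum : ∀ x, ∑ j ∈ range (L + 1), w j x ≤ 2 * m * ℓ + 8 := by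
    intro x
    simp only [hw, sum_add_distrib]
    refine add_le_add ?_ (flm_sum hσ hn x _)
    have := sum_shift_le (fun t => log (Yf p (σ * 2 ^ t / 2 ^ m) x))
      (fun t => (log_Yf hp (by positivity) hn x).1)
      (fun t => (log_Yf hp (by positivity) hn x).2) (2 * m) (L + 1)
    push_cast at this
    refine le_trans (le_of_eq (sum_congr rfl fun j _ => ?_)) this
    unfold vol
    rw [show σ * 2 ^ (j + 2 * m) / 2 ^ m = σ * 2 ^ j * 2 ^ m by field_simp; ring]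
  refine ⟨σ, L + 1,
    fun j => if j = 0 then fun x z => if x = z then 1 else 0 else
      if j < L + 1 then k j else fun _ z => if x₀ = z then 1 else 0,
    fun j => if j = 0 then fun x z => if x = z then 1 else 0 else
      if j < L + 1 then kt j else fun _ z => if x₀ = z then 1 else 0,
    fun j => if j < L + 1 then fun x => 4 * w j x else fun _ => 1,
    fun j => if j < L + 1 then fun x => 9 * C₀ * w j x ^ (1 / p) else fun _ => 1,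
    hσ, fun j => ?_, fun x g => by simp, fun x y => by simp, fun x => ?_, fun x => ?_, hlo,
    fun x y => hhi x y _ le_rfl⟩
  · by_cases h0 : j = 0
    · subst h0
      simp only [if_true, Nat.zero_lt_succ]
      refine scale_delta (hσj 0) hΛ (by simpa using hlo) (fun x => ?_) fun x => ?_
      · linarith [hw0 0 x]
      · have := hw0 0 x
        positivity
    by_cases h1 : j < L + 1
    · simp only [h0, h1, if_true, if_false]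
      exact hk j
    · simp only [h0, h1, if_false]
      exact scale_const (hσj j) hA (by linarith) x₀ fun x y => hhi x y j (by omega)
  · rw [sum_range_succ, if_neg (lt_irrefl _),
      sum_congr rfl fun j hj => by rw [if_pos (mem_range.1 hj)], ← mul_sum]
    linarith [hwsum x]
  · rw [sum_range_succ, if_neg (lt_irrefl _), one_rpow,
      sum_congr rfl fun j hj => by
        rw [if_pos (mem_range.1 hj), mul_rpow (by positivity) (rpow_nonneg (hw0 j x) _),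
          rpow_inv_rpow hp0 (hw0 j x)], ← mul_sum]
    linarith [mul_le_mul_of_nonneg_left (hwsum x) (by positivity : 0 ≤ (9 * C₀) ^ p)]

lemma exists_fam {p : ℝ} (hp : 1 < p) : ∃ θ C : ℝ, 0 ≤ θ ∧ θ < 1 ∧ 1 ≤ C ∧
    ∀ ℓ : ℝ, 1 ≤ ℓ → ∃ A Λ B₁ V : ℝ, 1 ≤ A ∧ 1 ≤ Λ ∧ 0 ≤ B₁ ∧ 0 ≤ V ∧
      A * (4 * V + 2) ^ (1 / p) ≤ C * ℓ ^ θ ∧ Λ ≤ C * ℓ ^ 2 ∧ B₁ ≤ C * ℓ ^ 2 ∧
    ∀ (X : Type u) (ι : Type v) [Fintype X] [MetricSpace X] [Nonempty X] [Fintype ι]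
      (F : X → ι → ℝ), (∀ x y, dist x y ^ p = ∑ i, |F x i - F y i| ^ p) →
      (Fintype.card X : ℝ) ≤ exp ℓ →
      ∃ (σ : ℝ) (J : ℕ) (k kt : ℕ → X → X → ℝ) (a ω : ℕ → X → ℝ),
        Fam p σ A Λ B₁ V J k kt a ω := by
  obtain ⟨κ, C₀, C₁, hκ, hκp, hC₀, hC₁, hsc⟩ := scale_any.{u, v} hp
  have hp0 : 0 < p := by linarith
  have hpi : 0 < 1 / p := by positivity
  have hpi1 : 1 / p ≤ 1 := by linarith
  set η := (1 - κ - 1 / p) / 2 with hηd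
  have hη : 0 < η := by linarith
  obtain ⟨C₂, hC₂, hm⟩ := dyadic_bound (c := 2 * C₀ + 2 * C₁ + 2) (by positivity) hη
  set C₃ := 4 * ((9 * C₀) ^ p * (2 * C₂ + 8) + 1) + 2 with hC₃
  have hC₃1 : 1 ≤ C₃ := by
    have : 0 ≤ (9 * C₀) ^ p * (2 * C₂ + 8) := by positivity
    linarith
  have hAC : 0 ≤ (9 + 5120 * C₁) * C₃ := by positivity
  refine ⟨κ + (1 + η) * (1 / p), (9 + 5120 * C₁) * C₃ + (13 + 11520 * C₁) + (8 * C₂ + 33),
    by positivity, by linarith [mul_le_mul_of_nonneg_left hpi1 hη.le], by linarith,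
    fun ℓ hℓ => ?_⟩
  obtain ⟨B, hB, hBC, hsc⟩ := hsc ℓ hℓ
  obtain ⟨m, hm1, hm2⟩ := hm ℓ hℓ
  have hℓ0 : 0 < ℓ := by linarith
  have ho : 1 ≤ ℓ ^ κ := one_le_rpow hℓ hκ
  have ho' : ℓ ^ κ ≤ ℓ := by simpa using rpow_le_rpow_of_exponent_le hℓ (by linarith : κ ≤ 1)
  have hη1 : 1 ≤ ℓ ^ η := one_le_rpow hℓ hη.le
  have hη' : ℓ ^ η ≤ ℓ := by simpa using rpow_le_rpow_of_exponent_le hℓ (by linarith : η ≤ 1)
  have hℓ2 : ℓ ≤ ℓ ^ 2 := by linarith [mul_le_mul_of_nonneg_left hℓ hℓ0.le]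
  have hℓη : 1 ≤ ℓ * ℓ ^ η := one_le_mul_of_one_le_of_one_le hℓ hη1
  have hW : 2 * m * ℓ + 8 ≤ (2 * C₂ + 8) * (ℓ * ℓ ^ η) := by
    linarith [mul_le_mul_of_nonneg_right hm2 hℓ0.le]
  have hA : 1 ≤ 9 * ℓ ^ κ + 5120 * B ^ 2 := by linarith [sq_nonneg B]
  have hΛ : 1 ≤ 13 * ℓ ^ κ + 11520 * B ^ 2 * ℓ := by
    have : 0 ≤ B ^ 2 * ℓ := by positivity
    linarith
  have hM1 : 2 * C₀ ≤ 2 ^ m := le_trans (by
    linarith [mul_le_mul_of_nonneg_left hℓ (by linarith : 0 ≤ C₀),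
      mul_nonneg (by linarith : 0 ≤ C₁) hℓ0.le]) hm1
  have hM2 : 2 * (B ^ 2 + 1) ≤ 2 ^ m := by
    refine le_trans ?_ hm1
    have := mul_le_mul_of_nonneg_left ho' (by linarith : 0 ≤ C₁)
    have : 0 ≤ C₀ * ℓ := by positivity
    linarith
  refine ⟨9 * ℓ ^ κ + 5120 * B ^ 2, 13 * ℓ ^ κ + 11520 * B ^ 2 * ℓ, 4 * (2 * m * ℓ + 8) + 1,
    (9 * C₀) ^ p * (2 * m * ℓ + 8) + 1, hA, hΛ, by positivity, by positivity, ?_, ?_, ?_, ?_⟩
  · have h1 : 4 * ((9 * C₀) ^ p * (2 * m * ℓ + 8) + 1) + 2 ≤ C₃ * ℓ ^ (1 + η) := by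
      rw [rpow_add hℓ0, rpow_one, hC₃]
      have := mul_le_mul_of_nonneg_left hW (by positivity : 0 ≤ (9 * C₀) ^ p)
      linarith
    have h2 := rpow_le_rpow (by positivity) h1 hpi.le
    rw [mul_rpow (x := C₃) (by linarith) (by positivity), ← rpow_mul hℓ0.le] at h2
    have h3 : C₃ ^ (1 / p) ≤ C₃ := by
      simpa using rpow_le_rpow_of_exponent_le hC₃1 hpi1
    have h4 := h2.trans (mul_le_mul_of_nonneg_right h3 (by positivity))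
    have h5 : 9 * ℓ ^ κ + 5120 * B ^ 2 ≤ (9 + 5120 * C₁) * ℓ ^ κ := by linarith
    refine (mul_le_mul h5 h4 (by positivity) (by positivity)).trans ?_
    rw [mul_mul_mul_comm, ← rpow_add hℓ0]
    exact mul_le_mul_of_nonneg_right (by linarith) (by positivity)
  · have h1 : B ^ 2 * ℓ ≤ C₁ * ℓ ^ 2 := by
      linarith [mul_le_mul_of_nonneg_right hBC hℓ0.le,
        mul_le_mul_of_nonneg_left ho' (by positivity : 0 ≤ C₁ * ℓ)]
    linarith [sq_nonneg ℓ, mul_nonneg hAC (sq_nonneg ℓ), mul_nonneg (by linarith : 0 ≤ C₂) (sq_nonneg ℓ)]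
  · have h1 : ℓ * ℓ ^ η ≤ ℓ ^ 2 := by linarith [mul_le_mul_of_nonneg_left hη' hℓ0.le]
    linarith [mul_nonneg hAC (sq_nonneg ℓ), mul_nonneg (by linarith : 0 ≤ C₁) (sq_nonneg ℓ),
      mul_le_mul_of_nonneg_left h1 (by linarith : 0 ≤ 2 * C₂ + 8)]
  intro X ι _ _ _ _ F hF hn
  exact fam_of_scales hp.le hC₀ (by linarith) hΛ hn fun σ hσ =>
    hsc X ι F σ (2 ^ m) hF hn hσ hM1 hM2

end Vale.Agent.P249
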