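import Vale.Agent.P249.Kernel
import Vale.Agent.P249.Band

/-! Local oscillations of a function with respect to the kernels. -/

open Finset Real

namespace Vale.Agent.P249

variable {X : Type*} [Fintype X]

/-- Average against a kernel. -/
noncomputable def avg (k g : X → ℝ) : ℝ := ∑ z, k z * g z

/-- Mean oscillation against a kernel. -/
noncomputable def osc (k g : X → ℝ) : ℝ := ∑ z, ∑ w, k z * k w * |g z - g w|

lemma osc_nonneg {k : X → ℝ} (hk : ∀ z, 0 ≤ k z) (g : X → ℝ) : 0 ≤ osc k g :=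
  sum_nonneg fun z _ => sum_nonneg fun w _ => mul_nonneg (mul_nonneg (hk z) (hk w)) (abs_nonneg _)

lemma dbl {k g : X → ℝ} {c f : X → X → ℝ} {η : ℝ} (hf : ∀ z w, |f z w| ≤ |g z - g w|)
    (hc : ∀ z w, |c z w| ≤ η * (k z * k w)) : |∑ z, ∑ w, c z w * f z w| ≤ η * osc k g := by
  unfold osc
  rw [mul_sum]
  refine (abs_sum_le_sum_abs _ _).trans (sum_le_sum fun z _ => ?_)
  rw [mul_sum]
  refine (abs_sum_le_sum_abs _ _).trans (sum_le_sum fun w _ => ?_)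
  rw [abs_mul, ← mul_assoc]
  exact mul_le_mul (hc z w) (hf z w) (abs_nonneg _) ((abs_nonneg _).trans (hc z w))

lemma avg_sub {k k' : X → ℝ} (h : ∑ z, k z = 1) (h' : ∑ z, k' z = 1) (g : X → ℝ) :
    avg k g - avg k' g = ∑ z, ∑ w, k z * k' w * (g z - g w) := by
  have e1 : avg k g = ∑ z, ∑ w, k z * k' w * g z := by
    unfold avg
    refine sum_congr rfl fun z _ => ?_
    rw [← sum_mul, ← mul_sum, h', mul_one]
  have e2 : avg k' g = ∑ z, ∑ w, k z * k' w * g w := by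
    unfold avg
    rw [sum_comm]
    refine sum_congr rfl fun w _ => ?_
    rw [← sum_mul, ← sum_mul, h, one_mul]
  rw [e1, e2, ← sum_sub_distrib]
  refine sum_congr rfl fun z _ => ?_
  rw [← sum_sub_distrib]
  exact sum_congr rfl fun w _ => by ring

lemma prod_diff {a b a' b' A B η : ℝ} (ha : |a - a'| ≤ η * A) (hb : |b - b'| ≤ η * B)
    (a0 : 0 ≤ a) (aA : a ≤ A) (b0 : 0 ≤ b) (bB : b ≤ B) (η0 : 0 ≤ η) (η1 : η ≤ 1) :
    |a * b - a' * b'| ≤ 3 * η * (A * B) := by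
  have hA : 0 ≤ A := a0.trans aA
  have h1 : |a'| ≤ 2 * A := by
    have := abs_le.1 ha
    have := mul_le_of_le_one_left hA η1
    rw [abs_le]
    constructor <;> linarith
  rw [show a * b - a' * b' = (a - a') * b + a' * (b - b') by ring]
  refine (abs_add_le _ _).trans ?_
  rw [abs_mul, abs_mul, abs_of_nonneg b0]
  linarith [mul_le_mul ha bB b0 (mul_nonneg η0 hA), mul_le_mul h1 hb (abs_nonneg _) (by linarith)]

lemma dbl_sum (f g d : X → ℝ) : ∑ z, ∑ w, f z * g w * (d z + d w) =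
    (∑ z, f z * d z) * ∑ w, g w + (∑ z, f z) * ∑ w, g w * d w := by
  rw [sum_mul_sum, sum_mul_sum, ← sum_add_distrib]
  refine sum_congr rfl fun z _ => ?_
  rw [← sum_add_distrib]
  exact sum_congr rfl fun w _ => by ring

variable [MetricSpace X]

lemma dbl_dist {f g : X → ℝ} (hf : ∀ z, 0 ≤ f z) (hg : ∀ z, 0 ≤ g z) (x : X) :
    ∑ z, ∑ w, f z * g w * dist z w ≤
      (∑ z, f z * dist x z) * ∑ w, g w + (∑ z, f z) * ∑ w, g w * dist x w := by
  rw [← dbl_sum]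
  exact sum_le_sum fun z _ => sum_le_sum fun w _ =>
    mul_le_mul_of_nonneg_left (dist_triangle_left z w x) (mul_nonneg (hf z) (hg w))

lemma nrm_dbl {ι : Type*} [Fintype ι] {p : ℝ} {μ : ι → ℝ} (hp : 1 ≤ p) (hμ : ∀ i, 0 ≤ μ i)
    {g : X → ι → ℝ} (hg : ∀ x y, nrm p μ (fun i => g x i - g y i) ≤ dist x y)
    {c : X → X → ℝ} (hc : ∀ z w, 0 ≤ c z w) :
    nrm p μ (fun i => ∑ z, ∑ w, c z w * |g z i - g w i|) ≤ ∑ z, ∑ w, c z w * dist z w := by
  refine (nrm_sum_le hp hμ univ fun z i => ∑ w, c z w * |g z i - g w i|).trans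
    (sum_le_sum fun z _ => ?_)
  exact (nrm_wsum_le hp hμ univ (c z) (hc z) fun w i => g z i - g w i).trans
    (sum_le_sum fun w _ => mul_le_mul_of_nonneg_left (hg z w) (hc z w))

/-- The dominating kernel for two consecutive scales. -/
def kh (kt : ℕ → X → X → ℝ) (j : ℕ) (x z : X) : ℝ := kt j x z + kt (j + 1) x z

/-- Local Lipschitz size at scale `j`. -/
noncomputable def aa (σ : ℝ) (kt : ℕ → X → X → ℝ) (g : X → ℝ) (x : X) (j : ℕ) : ℝ :=
  osc (kh kt j x) g / (σ * 2 ^ j)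

/-- Cumulated local Lipschitz size. -/
noncomputable def bb (σ : ℝ) (J : ℕ) (kt : ℕ → X → X → ℝ) (g : X → ℝ) (x : X) (j : ℕ) : ℝ :=
  1 + ∑ i ∈ Ico j J, aa σ kt g x i

/-- The increment at scale `j`. -/
noncomputable def DD (k : ℕ → X → X → ℝ) (g : X → ℝ) (x : X) (j : ℕ) : ℝ :=
  avg (k j x) g - avg (k (j + 1) x) g

namespace Fam

variable {p σ A Λ B₁ V : ℝ} {J : ℕ} {k kt : ℕ → X → X → ℝ} {a ω : ℕ → X → ℝ}

lemma kt0 (h : Fam p σ A Λ B₁ V J k kt a ω) (j : ℕ) (x z : X) : 0 ≤ kt j x z :=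
  ((h.sc j).k0 x z).trans ((h.sc j).kle x z)

lemma kh0 (h : Fam p σ A Λ B₁ V J k kt a ω) (j : ℕ) (x z : X) : 0 ≤ kh kt j x z :=
  add_nonneg (h.kt0 j x z) (h.kt0 _ x z)

lemma mass (h : Fam p σ A Λ B₁ V J k kt a ω) (j : ℕ) (x : X) : ∑ z, kh kt j x z ≤ 4 := by
  unfold kh
  rw [sum_add_distrib]
  linarith [(h.sc j).mass x, (h.sc (j + 1)).mass x]

lemma aa0 (h : Fam p σ A Λ B₁ V J k kt a ω) (g : X → ℝ) (x : X) (j : ℕ) : 0 ≤ aa σ kt g x j := by
  have := h.pos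
  exact div_nonneg (osc_nonneg (h.kh0 j x) g) (by positivity)

lemma k_le (h : Fam p σ A Λ B₁ V J k kt a ω) (j : ℕ) (x z : X) :
    k j x z ≤ kh kt j x z ∧ k (j + 1) x z ≤ kh kt j x z := by
  unfold kh
  constructor <;>
    linarith [(h.sc j).kle x z, (h.sc (j + 1)).kle x z, h.kt0 j x z, h.kt0 (j + 1) x z]

lemma loglip (h : Fam p σ A Λ B₁ V J k kt a ω) (hΛ : 1 ≤ Λ) {j : ℕ} {x y : X}
    (hc : Λ * dist x y ≤ σ * 2 ^ j) (z : X) :
    |k j x z - k j y z| ≤ Λ * (dist x y / (σ * 2 ^ j)) * kh kt j x z ∧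
    |k (j + 1) x z - k (j + 1) y z| ≤ Λ * (dist x y / (σ * 2 ^ j)) * kh kt j x z ∧
    |kh kt j x z - kh kt j y z| ≤ Λ * (dist x y / (σ * 2 ^ j)) * kh kt j x z := by
  have hσ := h.pos
  have e : Λ * (dist x y / (σ * 2 ^ (j + 1))) = Λ * (dist x y / (σ * 2 ^ j)) / 2 := by
    field_simp
    ring
  have h1 : Λ * (dist x y / (σ * 2 ^ j)) ≤ 1 := by
    rw [← mul_div_assoc, div_le_one (by positivity)]
    exact hc
  have h0 : 0 ≤ Λ * (dist x y / (σ * 2 ^ j)) := by positivity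
  have k1 := (h.sc j).lk x y z h1
  have k2 := (h.sc j).lkt x y z h1
  have k3 := (h.sc (j + 1)).lk x y z (by linarith)
  have k4 := (h.sc (j + 1)).lkt x y z (by linarith)
  rw [e] at k3 k4
  have m1 := mul_nonneg h0 (h.kt0 j x z)
  have m2 := mul_nonneg h0 (h.kt0 (j + 1) x z)
  unfold kh
  refine ⟨by linarith, by linarith, ?_⟩
  rw [add_sub_add_comm]
  linarith [abs_add_le (kt j x z - kt j y z) (kt (j + 1) x z - kt (j + 1) y z)]

lemma seq_aux (h : Fam p σ A Λ B₁ V J k kt a ω) (hΛ : 1 ≤ Λ) (g : X → ℝ) {j : ℕ} {x y : X}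
    (hc : Λ * dist x y ≤ σ * 2 ^ j) :
    |DD k g x j - DD k g y j| ≤ 3 * Λ * dist x y * aa σ kt g x j ∧
    |aa σ kt g x j - aa σ kt g y j| * (σ * 2 ^ j) ≤ 3 * Λ * dist x y * aa σ kt g x j := by
  have hσ := h.pos
  have h1 : Λ * (dist x y / (σ * 2 ^ j)) ≤ 1 := by
    rw [← mul_div_assoc, div_le_one (by positivity)]
    exact hc
  have h0 : 0 ≤ Λ * (dist x y / (σ * 2 ^ j)) := by positivity
  have e : 3 * Λ * dist x y * aa σ kt g x j =
      3 * (Λ * (dist x y / (σ * 2 ^ j))) * osc (kh kt j x) g := by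
    unfold aa
    ring
  rw [e]
  constructor
  · unfold DD
    rw [avg_sub ((h.sc j).k1 x) ((h.sc (j + 1)).k1 x),
      avg_sub ((h.sc j).k1 y) ((h.sc (j + 1)).k1 y)]
    simp only [← sum_sub_distrib, ← sub_mul]
    exact dbl (fun _ _ => le_rfl) fun z w => prod_diff (h.loglip hΛ hc z).1 (h.loglip hΛ hc w).2.1
      ((h.sc j).k0 x z) (h.k_le j x z).1 ((h.sc (j + 1)).k0 x w) (h.k_le j x w).2 h0 h1
  · unfold aa
    rw [← sub_div, abs_div, abs_of_pos (by positivity : 0 < σ * 2 ^ j),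
      div_mul_cancel₀ _ (by positivity)]
    conv_lhs => unfold osc
    simp only [← sum_sub_distrib, ← sub_mul]
    exact dbl (fun _ _ => by rw [abs_abs]) fun z w =>
      prod_diff (h.loglip hΛ hc z).2.2 (h.loglip hΛ hc w).2.2
        (h.kh0 j x z) le_rfl (h.kh0 j x w) le_rfl h0 h1

lemma DD_le (h : Fam p σ A Λ B₁ V J k kt a ω) (g : X → ℝ) (x : X) (j : ℕ) :
    |DD k g x j| ≤ σ * 2 ^ j * aa σ kt g x j := by
  have hσ := h.pos
  unfold DD aa
  rw [avg_sub ((h.sc j).k1 x) ((h.sc (j + 1)).k1 x), mul_div_cancel₀ _ (by positivity),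
    ← one_mul (osc _ _)]
  refine dbl (fun _ _ => le_rfl) fun z w => ?_
  rw [one_mul, abs_of_nonneg (mul_nonneg ((h.sc j).k0 x z) ((h.sc (j + 1)).k0 x w))]
  exact mul_le_mul (h.k_le j x z).1 (h.k_le j x w).2 ((h.sc (j + 1)).k0 x w) (h.kh0 j x z)

lemma seq (h : Fam p σ A Λ B₁ V J k kt a ω) (hΛ : 1 ≤ Λ) (g : X → ℝ) (x y : X) :
    Seq σ (dist x y) Λ J (aa σ kt g x) (aa σ kt g y) (bb σ J kt g x) (bb σ J kt g y)
      (DD k g x) (DD k g y) (fun j => avg (k j x) g - avg (k j y) g) := by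
  have hb : ∀ x j, j < J → bb σ J kt g x j = aa σ kt g x j + bb σ J kt g x (j + 1) := by
    intro x j hj
    unfold bb
    rw [sum_eq_sum_Ico_succ_bot hj]
    ring
  refine ⟨h.pos, dist_nonneg, hΛ, h.aa0 g x, h.aa0 g y, by simp [bb], by simp [bb], hb x, hb y,
    by rw [h.last x y, sub_self], fun j _ => by unfold DD; ring, h.DD_le g x, h.DD_le g y,
    fun j hc => (h.seq_aux hΛ g hc).1, fun j hc => ?_, fun j hc => (h.seq_aux hΛ g hc).2,
    fun j hc => ?_⟩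
  · rw [dist_comm] at hc ⊢
    exact (h.seq_aux hΛ g hc).1
  · rw [dist_comm] at hc ⊢
    exact (h.seq_aux hΛ g hc).2

lemma kh_dist (h : Fam p σ A Λ B₁ V J k kt a ω) {j : ℕ} {x : X} {t t' : ℝ}
    (ht : ∑ z, kt j x z * (dist x z / (σ * 2 ^ j)) ≤ t)
    (ht' : ∑ z, kt (j + 1) x z * (dist x z / (σ * 2 ^ (j + 1))) ≤ t') :
    ∑ z, kh kt j x z * dist x z ≤ σ * 2 ^ j * (t + 2 * t') := by
  have hσ := h.pos
  have : ∑ z, kh kt j x z * dist x z = σ * 2 ^ j * (∑ z, kt j x z * (dist x z / (σ * 2 ^ j)) +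
      2 * ∑ z, kt (j + 1) x z * (dist x z / (σ * 2 ^ (j + 1)))) := by
    rw [mul_sum, ← sum_add_distrib, mul_sum]
    refine sum_congr rfl fun z _ => ?_
    unfold kh
    field_simp
    ring
  rw [this]
  exact mul_le_mul_of_nonneg_left (by linarith) (by positivity)

lemma dbl_kh (h : Fam p σ A Λ B₁ V J k kt a ω) {j : ℕ} {x : X} {t t' : ℝ}
    (ht : ∑ z, kt j x z * (dist x z / (σ * 2 ^ j)) ≤ t)
    (ht' : ∑ z, kt (j + 1) x z * (dist x z / (σ * 2 ^ (j + 1))) ≤ t') :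
    (∑ z, ∑ w, kh kt j x z * kh kt j x w * dist z w) / (σ * 2 ^ j) ≤ 8 * (t + 2 * t') := by
  have hσ := h.pos
  rw [div_le_iff₀ (by positivity)]
  refine (dbl_dist (h.kh0 j x) (h.kh0 j x) x).trans ?_
  have h0 : 0 ≤ ∑ z, kh kt j x z * dist x z :=
    sum_nonneg fun z _ => mul_nonneg (h.kh0 j x z) dist_nonneg
  linarith [h.kh_dist ht ht', mul_le_mul_of_nonneg_left (h.mass j x) h0]

lemma a0 (h : Fam p σ A Λ B₁ V J k kt a ω) (j : ℕ) (x : X) : 0 ≤ a j x := by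
  have hσ := h.pos
  exact le_trans (sum_nonneg fun z _ => mul_nonneg (h.kt0 j x z) (by positivity)) ((h.sc j).ha x)

lemma ω0 (h : Fam p σ A Λ B₁ V J k kt a ω) (j : ℕ) (x : X) : 0 ≤ ω j x := by
  have hσ := h.pos
  exact le_trans (sum_nonneg fun z _ => mul_nonneg (h.kt0 j x z) (by positivity)) ((h.sc j).hω x)

lemma sum_a (h : Fam p σ A Λ B₁ V J k kt a ω) (x : X) :
    ∑ j ∈ range J, 8 * (a j x + 2 * a (j + 1) x) ≤ 24 * B₁ := by
  have h1 := h.sa x
  have h2 := h.sa x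
  rw [sum_range_succ] at h1
  rw [sum_range_succ'] at h2
  rw [← mul_sum, sum_add_distrib, ← mul_sum]
  linarith [h.a0 J x, h.a0 0 x]

lemma bb_le (h : Fam p σ A Λ B₁ V J k kt a ω) {g : X → ℝ} {H : ℝ} (hH : 0 ≤ H)
    (hg : ∀ x y, |g x - g y| ≤ H * dist x y) (x : X) : bb σ J kt g x 0 ≤ 1 + H * (24 * B₁) := by
  have hσ := h.pos
  unfold bb
  rw [← range_eq_Ico]
  refine add_le_add le_rfl (le_trans ?_ (mul_le_mul_of_nonneg_left (h.sum_a x) hH))
  rw [mul_sum]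
  refine sum_le_sum fun j _ => le_trans ?_
    (mul_le_mul_of_nonneg_left (h.dbl_kh ((h.sc j).ha x) ((h.sc (j + 1)).ha x)) hH)
  unfold aa osc
  rw [← mul_div_assoc, mul_sum]
  refine div_le_div_of_nonneg_right (sum_le_sum fun z _ => ?_) (by positivity)
  rw [mul_sum]
  refine sum_le_sum fun w _ => ?_
  rw [mul_left_comm H]
  exact mul_le_mul_of_nonneg_left (hg z w) (mul_nonneg (h.kh0 j x z) (h.kh0 j x w))

variable {ι : Type*} [Fintype ι] {μ : ι → ℝ} {g : X → ι → ℝ}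

lemma nrm_aa (h : Fam p σ A Λ B₁ V J k kt a ω) (hp : 1 ≤ p) (hμ : ∀ i, 0 ≤ μ i)
    (hg : ∀ x y, nrm p μ (fun i => g x i - g y i) ≤ dist x y) {j : ℕ} {x : X} {t t' : ℝ}
    (ht : ∑ z, kt j x z * (dist x z / (σ * 2 ^ j)) ≤ t)
    (ht' : ∑ z, kt (j + 1) x z * (dist x z / (σ * 2 ^ (j + 1))) ≤ t') :
    nrm p μ (fun i => aa σ kt (fun z => g z i) x j) ≤ 8 * (t + 2 * t') := by
  have hσ := h.pos
  refine le_trans ?_ (h.dbl_kh ht ht')
  unfold aa osc
  simp only [div_eq_inv_mul]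
  rw [nrm_mul hp hμ (by positivity)]
  exact mul_le_mul_of_nonneg_left (nrm_dbl hp hμ hg fun z w =>
    mul_nonneg (h.kh0 j x z) (h.kh0 j x w)) (by positivity)

lemma nrm_bb (h : Fam p σ A Λ B₁ V J k kt a ω) (hp : 1 ≤ p) (hμ : ∀ i, 0 ≤ μ i)
    (hμ1 : ∑ i, μ i ≤ 1) (hg : ∀ x y, nrm p μ (fun i => g x i - g y i) ≤ dist x y) (x : X) :
    nrm p μ (fun i => bb σ J kt (fun z => g z i) x 0) ≤ 1 + 24 * B₁ := by
  unfold bb
  rw [← range_eq_Ico]
  refine (nrm_add_le hp hμ _ _).trans (add_le_add (nrm_one_le hp hμ hμ1) ?_)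
  refine (nrm_sum_le hp hμ _ fun j i => aa σ kt (fun z => g z i) x j).trans
    (le_trans (sum_le_sum fun j _ => ?_) (h.sum_a x))
  exact h.nrm_aa hp hμ hg ((h.sc j).ha x) ((h.sc (j + 1)).ha x)

lemma scale_mul (h : Fam p σ A Λ B₁ V J k kt a ω) {j : ℕ} {x y : X} {f : X → ℝ} {t : ℝ}
    (hf : ∑ z, f z * (dist x z / (σ * 2 ^ j)) ≤ A * (dist x y / (σ * 2 ^ j)) * t) :
    ∑ z, f z * dist x z ≤ A * dist x y * t := by
  have hσ := h.pos
  simp only [← mul_div_assoc, ← sum_div] at hf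
  rw [div_mul_eq_mul_div] at hf
  exact (div_le_div_iff_of_pos_right (by positivity)).1 hf

lemma nrm_u (h : Fam p σ A Λ B₁ V J k kt a ω) (hp : 1 ≤ p) (hμ : ∀ i, 0 ≤ μ i)
    (hg : ∀ x y, nrm p μ (fun i => g x i - g y i) ≤ dist x y) {j : ℕ} {x y : X}
    (hr : dist x y / (σ * 2 ^ j) ≤ 1) :
    nrm p μ (fun i => avg (k j x) (fun z => g z i) - avg (k j y) (fun z => g z i)) ≤
      A * dist x y * (ω j x + ω j y + dist x y / (σ * 2 ^ j)) := by
  refine le_trans ?_ (h.scale_mul ((h.sc j).dk x y hr))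
  refine le_trans (nrm_mono' hp hμ (g := fun i => ∑ z, |k j x z - k j y z| * |g x i - g z i|)
    fun i => ?_) ((nrm_wsum_le hp hμ univ _ (fun z => abs_nonneg _) fun z i => g x i - g z i).trans
      (sum_le_sum fun z _ => mul_le_mul_of_nonneg_left (hg x z) (abs_nonneg _)))
  have : avg (k j x) (fun z => g z i) - avg (k j y) (fun z => g z i) =
      ∑ z, (k j x z - k j y z) * (g z i - g x i) := by
    unfold avg
    simp only [mul_sub, sub_mul, sum_sub_distrib, ← sum_mul, (h.sc j).k1]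
    ring
  rw [this]
  refine (abs_sum_le_sum_abs _ _).trans (le_of_eq (sum_congr rfl fun z _ => ?_))
  rw [abs_mul, abs_sub_comm (g z i)]

lemma nrm_da (h : Fam p σ A Λ B₁ V J k kt a ω) (hp : 1 ≤ p) (hA : 0 ≤ A) (hμ : ∀ i, 0 ≤ μ i)
    (hg : ∀ x y, nrm p μ (fun i => g x i - g y i) ≤ dist x y) {j : ℕ} {x y : X}
    (hr : dist x y / (σ * 2 ^ j) ≤ 1) :
    nrm p μ (fun i => (aa σ kt (fun z => g z i) x j - aa σ kt (fun z => g z i) y j) *
      (σ * 2 ^ j)) ≤ 24 * A * dist x y * ((ω j x + 2 * ω (j + 1) x) + (ω j y + 2 * ω (j + 1) y) +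
        dist x y / (σ * 2 ^ j)) := by
  have hσ := h.pos
  have hσj : 0 < σ * 2 ^ j := by positivity
  set δ : X → ℝ := fun z => |kh kt j x z - kh kt j y z| with hδ
  have hδ0 : ∀ z, 0 ≤ δ z := fun z => abs_nonneg _
  have e : dist x y / (σ * 2 ^ (j + 1)) = dist x y / (σ * 2 ^ j) / 2 := by
    field_simp
    ring
  have hρ : 0 ≤ dist x y / (σ * 2 ^ j) := by positivity
  have hr' : dist x y / (σ * 2 ^ (j + 1)) ≤ 1 := by linarith
  have hδle : ∀ z, δ z ≤ |kt j x z - kt j y z| + |kt (j + 1) x z - kt (j + 1) y z| := by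
    intro z
    simp only [hδ, kh]
    rw [add_sub_add_comm]
    exact abs_add_le _ _
  have hAr : 0 ≤ A * dist x y := by positivity
  have w1 := h.ω0 j x
  have w2 := h.ω0 j y
  have w3 := h.ω0 (j + 1) x
  have w4 := h.ω0 (j + 1) y
  have d1 : ∑ z, δ z ≤ 2 * (A * (dist x y / (σ * 2 ^ j))) := by
    refine (sum_le_sum fun z _ => hδle z).trans ?_
    have := (h.sc (j + 1)).dm x y hr'
    rw [e] at this
    rw [sum_add_distrib]
    linarith [(h.sc j).dm x y hr, mul_nonneg hA hρ]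
  have d2 : ∑ z, δ z * dist x z ≤ A * dist x y * ((ω j x + 2 * ω (j + 1) x) +
      (ω j y + 2 * ω (j + 1) y) + 2 * (dist x y / (σ * 2 ^ j))) := by
    refine (sum_le_sum fun z _ => mul_le_mul_of_nonneg_right (hδle z) dist_nonneg).trans ?_
    simp only [add_mul, sum_add_distrib]
    have k1 := h.scale_mul ((h.sc j).dkt x y hr)
    have k2 := h.scale_mul ((h.sc (j + 1)).dkt x y hr')
    rw [e] at k2
    linarith [mul_nonneg hAr w3, mul_nonneg hAr w4, mul_nonneg hAr hρ]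
  have d3 := h.kh_dist ((h.sc j).hω x) ((h.sc (j + 1)).hω x)
  have d4 : ∑ z, kh kt j y z * dist x z ≤ σ * 2 ^ j * (ω j y + 2 * ω (j + 1) y) + 4 * dist x y := by
    have k1 : ∑ z, kh kt j y z * dist x z ≤ ∑ z, kh kt j y z * (dist x y + dist y z) :=
      sum_le_sum fun z _ => mul_le_mul_of_nonneg_left (dist_triangle _ _ _) (h.kh0 j y z)
    simp only [mul_add, sum_add_distrib, ← sum_mul] at k1
    linarith [h.kh_dist ((h.sc j).hω y) ((h.sc (j + 1)).hω y),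
      mul_le_mul_of_nonneg_right (h.mass j y) (dist_nonneg (x := x) (y := y))]
  refine le_trans (nrm_mono' hp hμ (g := fun i => ∑ z, ∑ w,
    (δ z * kh kt j x w + kh kt j y z * δ w) * |g z i - g w i|) fun i => ?_)
    ((nrm_dbl hp hμ hg fun z w => add_nonneg (mul_nonneg (hδ0 z) (h.kh0 j x w))
      (mul_nonneg (h.kh0 j y z) (hδ0 w))).trans ?_)
  · unfold aa osc
    rw [← sub_div, div_mul_cancel₀ _ hσj.ne', ← sum_sub_distrib]
    refine (abs_sum_le_sum_abs _ _).trans (sum_le_sum fun z _ => ?_)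
    rw [← sum_sub_distrib]
    refine (abs_sum_le_sum_abs _ _).trans (sum_le_sum fun w _ => ?_)
    rw [← sub_mul, abs_mul, abs_abs]
    refine mul_le_mul_of_nonneg_right ?_ (abs_nonneg _)
    rw [show kh kt j x z * kh kt j x w - kh kt j y z * kh kt j y w =
      (kh kt j x z - kh kt j y z) * kh kt j x w + kh kt j y z * (kh kt j x w - kh kt j y w) by ring]
    refine (abs_add_le _ _).trans (le_of_eq ?_)
    rw [abs_mul, abs_mul, abs_of_nonneg (h.kh0 j x w), abs_of_nonneg (h.kh0 j y z)]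
  simp only [add_mul, sum_add_distrib]
  have s1 : 0 ≤ ∑ z, δ z * dist x z := sum_nonneg fun z _ => mul_nonneg (hδ0 z) dist_nonneg
  have s2 : 0 ≤ ∑ z, kh kt j x z * dist x z :=
    sum_nonneg fun z _ => mul_nonneg (h.kh0 j x z) dist_nonneg
  have s3 : 0 ≤ ∑ z, kh kt j y z * dist x z :=
    sum_nonneg fun z _ => mul_nonneg (h.kh0 j y z) dist_nonneg
  have t1 := mul_le_mul d1 d3 s2 (by positivity)
  have t2 := mul_le_mul d1 d4 s3 (by positivity)
  have e2 : A * (dist x y / (σ * 2 ^ j)) * (σ * 2 ^ j) = A * dist x y := by field_simp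
  have t3 : 2 * (A * (dist x y / (σ * 2 ^ j))) * (σ * 2 ^ j * (ω j x + 2 * ω (j + 1) x)) =
      2 * (A * dist x y) * (ω j x + 2 * ω (j + 1) x) := by rw [← e2]; ring
  have t4 : 2 * (A * (dist x y / (σ * 2 ^ j))) *
      (σ * 2 ^ j * (ω j y + 2 * ω (j + 1) y) + 4 * dist x y) =
      2 * (A * dist x y) * (ω j y + 2 * ω (j + 1) y) +
        8 * (A * dist x y) * (dist x y / (σ * 2 ^ j)) := by
    field_simp
    ring
  rw [t3] at t1
  rw [t4] at t2
  linarith [dbl_dist hδ0 (h.kh0 j x) x, dbl_dist (h.kh0 j y) hδ0 x,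
    mul_le_mul_of_nonneg_left (h.mass j x) s1, mul_le_mul_of_nonneg_left (h.mass j y) s1,
    mul_nonneg hAr w1, mul_nonneg hAr w2, mul_nonneg hAr w3, mul_nonneg hAr w4]

end Fam

end Vale.Agent.P249
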