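import Vale.Agent.P249.Gibbs

/-! Consequences of the Gibbs estimates in the form used for kernels. -/

open Finset Real

namespace Vale.Agent.P249

variable {X : Type*} [Fintype X]

/-- Moment data of a Gibbs measure with energy `e` and scaled distance `b`. -/
structure Mom (p C₀ ℓ v : ℝ) (q e b : X → ℝ) : Prop where
  pos : ∀ z, 0 < q z
  sum : ∑ z, q z = 1
  b0 : ∀ z, 0 ≤ b z
  be : ∀ z, b z ≤ e z
  bp : ∀ z, b z ^ p ≤ C₀ * e z
  v0 : 0 ≤ v
  vl : v ≤ ℓ
  m1 : ∑ z, q z * e z ≤ 4 * v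
  m2 : ∑ z, q z * e z ^ 2 ≤ 60 * (v + v ^ 2)
  pt : ∀ z, q z ≤ exp (ℓ / 2 - 15 / 16 * e z)

lemma rpow_inv_le_max {p t : ℝ} (hp : 1 ≤ p) (ht : 0 ≤ t) : t ^ (1 / p) ≤ max 1 t := by
  have h0 : 0 ≤ 1 / p := by positivity
  have h1 : 1 / p ≤ 1 := by rw [div_le_one (by linarith)]; exact hp
  rcases le_total t 1 with h | h
  · exact (rpow_le_one ht h h0).trans (le_max_left _ _)
  · refine le_trans ?_ (le_max_right _ _)
    simpa using rpow_le_rpow_of_exponent_le h h1

lemma le_rpow_inv_self {p t : ℝ} (hp : 1 ≤ p) (ht : 0 ≤ t) (h : t ≤ 1) : t ≤ t ^ (1 / p) := by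
  refine le_rpow_inv (by linarith) ht ?_
  simpa using rpow_le_rpow_of_exponent_ge' ht h zero_le_one hp

lemma root_bound {p C₀ b e R : ℝ} (hp : 1 ≤ p) (hC : 1 ≤ C₀) (hb : 0 ≤ b) (he : 0 ≤ e)
    (hR : 0 < R) (h : b ^ p ≤ C₀ * e) : b ≤ C₀ * R ^ (1 / p) * max 1 (e / R) := by
  have h1 := le_rpow_inv (by linarith) hb h
  rw [show C₀ * e = C₀ * (R * (e / R)) by field_simp, mul_rpow (by linarith) (by positivity),
    mul_rpow hR.le (by positivity)] at h1
  have h2 : C₀ ^ (1 / p) ≤ C₀ := by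
    simpa [max_eq_right hC] using rpow_inv_le_max hp (by linarith : 0 ≤ C₀)
  have h3 := rpow_inv_le_max hp (by positivity : 0 ≤ e / R)
  rw [mul_assoc]
  refine h1.trans (mul_le_mul h2 (mul_le_mul_of_nonneg_left h3 (by positivity)) (by positivity)
    (by linarith))

lemma abs_sub_le_log {a b G G' : ℝ} (ha : 0 < a) (hb : 0 < b) (h : |log a - log b| ≤ G)
    (h' : |log a - log b| ≤ G') : |a - b| ≤ G * a + G' * b := by
  have hG : 0 ≤ G := (abs_nonneg _).trans h
  have hG' : 0 ≤ G' := (abs_nonneg _).trans h'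
  have key : ∀ {s t : ℝ}, 0 < s → 0 < t → s - t ≤ s * (log s - log t) := by
    intro s t hs ht
    have := log_le_sub_one_of_pos (div_pos ht hs)
    rw [log_div ht.ne' hs.ne'] at this
    have h2 : s * (t / s - 1) = t - s := by field_simp
    nlinarith
  have k1 := key ha hb
  have k2 := key hb ha
  obtain ⟨h1, h2⟩ := abs_le.1 h
  obtain ⟨h3, h4⟩ := abs_le.1 h'
  rw [abs_le]
  constructor <;> nlinarith [mul_nonneg hG ha.le, mul_nonneg hG' hb.le]

namespace Mom

variable {p C₀ ℓ v v' : ℝ} {q e b q' e' b' : X → ℝ}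

lemma e0 (h : Mom p C₀ ℓ v q e b) (z : X) : 0 ≤ e z := (h.b0 z).trans (h.be z)

lemma mean_le (h : Mom p C₀ ℓ v q e b) : ∑ z, q z * b z ≤ 4 * v :=
  le_trans (sum_le_sum fun z _ => mul_le_mul_of_nonneg_left (h.be z) (h.pos z).le) h.m1

lemma mean_le' (h : Mom p C₀ ℓ v q e b) (hp : 1 ≤ p) (hC : 1 ≤ C₀) :
    ∑ z, q z * b z ≤ 5 * C₀ * v ^ (1 / p) := by
  have hv0 := h.v0
  have hr : 0 ≤ v ^ (1 / p) := by positivity
  rcases le_total v 1 with hv | hv
  · have := le_rpow_inv_self hp hv0 hv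
    have := h.mean_le
    nlinarith
  · have hv' : 0 < v := by linarith
    calc ∑ z, q z * b z ≤ ∑ z, q z * (C₀ * v ^ (1 / p) * (1 + e z / v)) := by
          refine sum_le_sum fun z _ => mul_le_mul_of_nonneg_left ?_ (h.pos z).le
          refine (root_bound hp hC (h.b0 z) (h.e0 z) hv' (h.bp z)).trans
            (mul_le_mul_of_nonneg_left ?_ (by positivity))
          have : 0 ≤ e z / v := div_nonneg (h.e0 z) hv0
          exact max_le (by linarith) (by linarith)
      _ = C₀ * v ^ (1 / p) * (∑ z, q z + (∑ z, q z * e z) / v) := by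
          rw [sum_div, ← sum_add_distrib, mul_sum]
          exact sum_congr rfl fun z _ => by ring
      _ ≤ C₀ * v ^ (1 / p) * 5 := by
          refine mul_le_mul_of_nonneg_left ?_ (by positivity)
          have : (∑ z, q z * e z) / v ≤ 4 := by rw [div_le_iff₀ hv']; exact h.m1
          rw [h.sum]
          linarith
      _ = _ := by ring

lemma sq_le (h : Mom p C₀ ℓ v q e b) (hp : 1 ≤ p) (hC : 1 ≤ C₀) {R : ℝ} (hR : 1 ≤ R)
    (hvR : v ≤ R) : ∑ z, q z * b z ^ 2 ≤ 121 * (C₀ * R ^ (1 / p)) ^ 2 := by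
  have hv0 := h.v0
  have hR0 : 0 < R := by linarith
  calc ∑ z, q z * b z ^ 2 ≤ ∑ z, q z * ((C₀ * R ^ (1 / p)) ^ 2 * (1 + e z ^ 2 / R ^ 2)) := by
        refine sum_le_sum fun z _ => mul_le_mul_of_nonneg_left ?_ (h.pos z).le
        refine (pow_le_pow_left₀ (h.b0 z)
          (root_bound hp hC (h.b0 z) (h.e0 z) hR0 (h.bp z)) 2).trans ?_
        rw [mul_pow]
        refine mul_le_mul_of_nonneg_left ?_ (by positivity)
        rw [← div_pow]
        rcases le_total 1 (e z / R) with h1 | h1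
        · rw [max_eq_right h1]; linarith
        · rw [max_eq_left h1]; nlinarith [sq_nonneg (e z / R)]
    _ = (C₀ * R ^ (1 / p)) ^ 2 * (∑ z, q z + (∑ z, q z * e z ^ 2) / R ^ 2) := by
        rw [sum_div, ← sum_add_distrib, mul_sum]
        exact sum_congr rfl fun z _ => by ring
    _ ≤ (C₀ * R ^ (1 / p)) ^ 2 * 121 := by
        refine mul_le_mul_of_nonneg_left ?_ (by positivity)
        have : (∑ z, q z * e z ^ 2) / R ^ 2 ≤ 120 := by
          rw [div_le_iff₀ (by positivity)]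
          have := h.m2
          nlinarith
        rw [h.sum]
        linarith
    _ = _ := by ring

lemma small (h : Mom p C₀ ℓ v q e b) (hv : v ≤ 1) : ∑ z, q z * ((2 + e z) * e z) ≤ 128 * v := by
  have h1 : ∑ z, q z * ((2 + e z) * e z) = 2 * ∑ z, q z * e z + ∑ z, q z * e z ^ 2 := by
    rw [mul_sum, ← sum_add_distrib]
    exact sum_congr rfl fun z _ => by ring
  have := h.m1
  have := h.m2
  have := h.v0
  nlinarith

lemma wdiff (h : Mom p C₀ ℓ v q e b) (h' : Mom p C₀ ℓ v' q' e' b') (hp : 1 ≤ p) (hC : 1 ≤ C₀)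
    {B ρ : ℝ} (hB : 1 ≤ B) (hρ0 : 0 ≤ ρ) (hρ : ρ ≤ 1) (hb : ∀ z, b z ≤ b' z + ρ)
    (hχ : ∑ z, (q z - q' z) ^ 2 / (q z + q' z) ≤ 25 * (B * ρ) ^ 2)
    (hG : ∀ z, |log (q z) - log (q' z)| ≤ 40 * B ^ 2 * ρ * (1 + e z + (v + v')))
    (hG' : ∀ z, |log (q z) - log (q' z)| ≤ 40 * B ^ 2 * ρ * (1 + e' z + (v + v'))) :
    ∑ z, |q z - q' z| * b z ≤ 5120 * B ^ 2 * ρ * (C₀ * (v ^ (1 / p) + v' ^ (1 / p)) + ρ) := by
  have hv0 := h.v0
  have hv0' := h'.v0
  have hBB : B ≤ B ^ 2 := by nlinarith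
  have hr : 0 ≤ v ^ (1 / p) := by positivity
  have hr' : 0 ≤ v' ^ (1 / p) := by positivity
  rcases le_total (v + v') 1 with hv | hv
  · have k1 := h.small (by linarith)
    have k2 := h'.small (by linarith)
    have k3 := le_rpow_inv_self hp hv0 (by linarith)
    have k4 := le_rpow_inv_self hp hv0' (by linarith)
    have hη : 0 ≤ 40 * B ^ 2 * ρ := by positivity
    calc ∑ z, |q z - q' z| * b z ≤ ∑ z, 40 * B ^ 2 * ρ * (q z * ((2 + e z) * e z) +
          q' z * ((2 + e' z) * e' z) + ρ * (2 * q' z + q' z * e' z)) := by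
          refine sum_le_sum fun z _ => ?_
          have a1 := abs_sub_le_log (h.pos z) (h'.pos z)
            ((hG z).trans (mul_le_mul_of_nonneg_left (by linarith : _ ≤ 2 + e z) hη))
            ((hG' z).trans (mul_le_mul_of_nonneg_left (by linarith : _ ≤ 2 + e' z) hη))
          refine (mul_le_mul_of_nonneg_right a1 (h.b0 z)).trans ?_
          have a2 : q z * (2 + e z) * b z ≤ q z * (2 + e z) * e z :=
            mul_le_mul_of_nonneg_left (h.be z)
              (mul_nonneg (h.pos z).le (by linarith [h.e0 z]))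
          have a3 : q' z * (2 + e' z) * b z ≤ q' z * (2 + e' z) * (e' z + ρ) :=
            mul_le_mul_of_nonneg_left (by linarith [hb z, h'.be z])
              (mul_nonneg (h'.pos z).le (by linarith [h'.e0 z]))
          nlinarith [mul_le_mul_of_nonneg_left (add_le_add a2 a3) hη]
      _ = 40 * B ^ 2 * ρ * (∑ z, q z * ((2 + e z) * e z) + ∑ z, q' z * ((2 + e' z) * e' z) +
          ρ * (2 * ∑ z, q' z + ∑ z, q' z * e' z)) := by
          simp only [mul_sum, ← sum_add_distrib]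
      _ ≤ 40 * B ^ 2 * ρ * (128 * (C₀ * (v ^ (1 / p) + v' ^ (1 / p)) + ρ)) := by
          refine mul_le_mul_of_nonneg_left ?_ hη
          rw [h'.sum]
          have := h'.m1
          nlinarith [mul_le_mul_of_nonneg_left (show ∑ z, q' z * e' z ≤ 4 by linarith) hρ0]
      _ = _ := by ring
  · set R := v + v' with hR
    set Ω := C₀ * R ^ (1 / p) with hΩ
    have hR1 : 1 ≤ R ^ (1 / p) := one_le_rpow hv (by positivity)
    have hΩ1 : 1 ≤ Ω := by nlinarith
    have k1 := h.sq_le hp hC hv (by linarith)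
    have k2 := h'.sq_le hp hC hv (by linarith)
    have k3 : ∑ z, (q z + q' z) * b z ^ 2 ≤ 400 * Ω ^ 2 := by
      have : ∑ z, (q z + q' z) * b z ^ 2 ≤
          ∑ z, (q z * b z ^ 2 + 2 * (q' z * b' z ^ 2) + 2 * q' z) := by
        refine sum_le_sum fun z _ => ?_
        have a1 : b z ^ 2 ≤ (b' z + 1) ^ 2 := pow_le_pow_left₀ (h.b0 z) (by linarith [hb z]) 2
        have a2 : b z ^ 2 ≤ 2 * b' z ^ 2 + 2 := by nlinarith [sq_nonneg (b' z - 1)]
        nlinarith [mul_le_mul_of_nonneg_left a2 (h'.pos z).le]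
      rw [sum_add_distrib, sum_add_distrib, ← mul_sum, ← mul_sum, h'.sum] at this
      nlinarith
    have k4 := wsum_sq_le (f := b) h.pos h'.pos
    have k5 : (∑ z, |q z - q' z| * b z) ^ 2 ≤ (100 * (B * ρ) * Ω) ^ 2 := by
      refine k4.trans ((mul_le_mul hχ k3 ?_ (by positivity)).trans (le_of_eq (by ring)))
      exact sum_nonneg fun z _ => mul_nonneg (add_pos (h.pos z) (h'.pos z)).le (sq_nonneg _)
    have k6 := (pow_le_pow_iff_left₀ (sum_nonneg fun z _ => mul_nonneg (abs_nonneg _) (h.b0 z))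
      (by positivity) two_ne_zero).1 k5
    have k7 : R ^ (1 / p) ≤ v ^ (1 / p) + v' ^ (1 / p) :=
      rpow_add_le_add_rpow hv0 hv0' (by positivity)
        (by rw [div_le_one (by linarith)]; exact hp)
    have k8 : Ω ≤ C₀ * (v ^ (1 / p) + v' ^ (1 / p)) + ρ := by
      have := mul_le_mul_of_nonneg_left k7 (by linarith : 0 ≤ C₀)
      linarith
    refine k6.trans (mul_le_mul ?_ k8 (by linarith) (by positivity))
    nlinarith [mul_le_mul_of_nonneg_right hBB hρ0, mul_nonneg (sq_nonneg B) hρ0]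

lemma loglip (h : Mom p C₀ ℓ v q e b) (h' : Mom p C₀ ℓ v' q' e' b') (hℓ : 1 ≤ ℓ) {η : ℝ}
    (hη0 : 0 ≤ η) (hη : 72 * η * ℓ ≤ 1) (z : X)
    (hG : |log (q z) - log (q' z)| ≤ η * (1 + e z + (v + v'))) :
    |q z - q' z| ≤ 72 * η * ℓ * (q z + exp (-ℓ - b z / 4)) := by
  have hq := h.pos z
  have he := h.e0 z
  have hG2 : |log (q z) - log (q' z)| ≤ η * (1 + e z + 2 * ℓ) :=
    hG.trans (mul_le_mul_of_nonneg_left (by linarith [h.vl, h'.vl]) hη0)
  have hηℓ : η ≤ η * ℓ := le_mul_of_one_le_right hη0 hℓ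
  have hex := exp_pos (-ℓ - b z / 4)
  rcases le_total (e z) (3 * ℓ) with hz | hz
  · have h1 : η * (1 + e z + 2 * ℓ) ≤ 6 * η * ℓ := by nlinarith
    have := abs_exp_sub_le' (hG2.trans h1) (by nlinarith)
    rw [exp_log hq, exp_log (h'.pos z)] at this
    nlinarith [mul_nonneg (mul_nonneg hη0 (by linarith : 0 ≤ ℓ)) hq.le,
      mul_nonneg (mul_nonneg hη0 (by linarith : 0 ≤ ℓ)) hex.le]
  · have h1 := abs_exp_sub_le hG2
    rw [exp_log hq, exp_log (h'.pos z)] at h1
    have h2 : η * (1 + e z + 2 * ℓ) ≤ 24 * η * ℓ * exp (e z / 8) := by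
      have a1 := add_one_le_exp (e z / 8)
      have a2 : 1 + e z + 2 * ℓ ≤ 3 * ℓ * (8 * (e z / 8 + 1)) := by nlinarith
      have a3 : 3 * ℓ * (8 * (e z / 8 + 1)) ≤ 3 * ℓ * (8 * exp (e z / 8)) := by gcongr
      nlinarith [mul_le_mul_of_nonneg_left (a2.trans a3) hη0]
    have h3 : exp (η * (1 + e z + 2 * ℓ)) ≤ 3 * exp (e z / 16) := by
      have a1 : η * (1 + e z + 2 * ℓ) ≤ 1 + e z / 16 := by nlinarith
      refine (exp_le_exp.2 a1).trans ?_
      rw [exp_add]
      exact mul_le_mul_of_nonneg_right (by linarith [exp_one_lt_d9]) (exp_pos _).le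
    have h4 : exp (ℓ / 2 - 15 / 16 * e z) * (exp (e z / 8) * exp (e z / 16)) ≤
        exp (-ℓ - b z / 4) := by
      rw [← exp_add, ← exp_add, exp_le_exp]
      linarith [h.be z]
    calc |q z - q' z| ≤ exp (ℓ / 2 - 15 / 16 * e z) *
          (24 * η * ℓ * exp (e z / 8) * (3 * exp (e z / 16))) := by
          refine h1.trans (mul_le_mul (h.pt z) (mul_le_mul h2 h3 (by positivity)
            (by positivity)) (by positivity) (by positivity))
      _ = 72 * η * ℓ * (exp (ℓ / 2 - 15 / 16 * e z) * (exp (e z / 8) * exp (e z / 16))) := by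
          ring
      _ ≤ _ := mul_le_mul_of_nonneg_left (by linarith) (by positivity)

end Mom

end Vale.Agent.P249
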