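import Vale.Agent.P249.Finite

/-! Reduction from general Lebesgue spaces to finite-dimensional ones. -/

open Finset Filter Topology MeasureTheory
open scoped ENNReal

namespace Vale.Agent.P249

universe u

lemma simple_rep {Ω : Type*} [MeasurableSpace Ω] {μ : Measure Ω} {p : ℝ≥0∞} [Fact (1 ≤ p)]
    (hp : p ≠ ∞) {Y : Type u} [Finite Y] (e : Y → Lp.simpleFunc ℝ p μ) :
    ∃ (s : Finset (Y → ℝ)) (F : Y → s → ℝ), ∀ x y,
      dist (e x : Lp ℝ p μ) (e y) ^ p.toReal = ∑ i, |F x i - F y i| ^ p.toReal := by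
  have hp0 : p ≠ 0 := (zero_lt_one.trans_le (Fact.out : 1 ≤ p)).ne'
  have hq : 0 < p.toReal := ENNReal.toReal_pos hp0 hp
  let ψ : Y → SimpleFunc Ω ℝ := fun y => Lp.simpleFunc.toSimpleFunc (e y)
  let Φ : SimpleFunc Ω (Y → ℝ) := ⟨fun ω y => ψ y ω, fun v => by
      have : (fun ω y => ψ y ω) ⁻¹' {v} = ⋂ y, ψ y ⁻¹' {v y} := by
        ext ω
        simp [funext_iff]
      rw [this]
      exact MeasurableSet.iInter fun y => (ψ y).measurableSet_fiber _,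
    (Set.Finite.pi' fun y => (ψ y).finite_range).subset (by
      rintro _ ⟨ω, rfl⟩ y
      exact ⟨ω, rfl⟩)⟩
  refine ⟨Φ.range, fun y v => (μ (Φ ⁻¹' {v.1})).toReal ^ (1 / p.toReal) * v.1 y, fun x y => ?_⟩
  have h1 : ∫⁻ ω, ‖((e x : Lp ℝ p μ) - (e y : Lp ℝ p μ) : Ω → ℝ) ω‖ₑ ^ p.toReal ∂μ =
      ∑ v ∈ Φ.range, ‖v x - v y‖ₑ ^ p.toReal * μ (Φ ⁻¹' {v}) := by
    rw [← SimpleFunc.map_lintegral (fun v : Y → ℝ => ‖v x - v y‖ₑ ^ p.toReal) Φ,
      ← SimpleFunc.lintegral_eq_lintegral]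
    refine lintegral_congr_ae ?_
    filter_upwards [Lp.simpleFunc.toSimpleFunc_eq_toFun (e x),
      Lp.simpleFunc.toSimpleFunc_eq_toFun (e y)] with ω h1 h2
    simp only [Pi.sub_apply, SimpleFunc.map_apply]
    rw [← h1, ← h2]
    rfl
  have h2 : eLpNorm ((e x : Lp ℝ p μ) - (e y : Lp ℝ p μ) : Ω → ℝ) p μ ≠ ∞ :=
    ((Lp.memLp _).sub (Lp.memLp _)).eLpNorm_ne_top
  rw [Lp.dist_def]
  rw [eLpNorm_eq_lintegral_rpow_enorm_toReal hp0 hp, h1] at h2 ⊢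
  have h3 : ∑ v ∈ Φ.range, ‖v x - v y‖ₑ ^ p.toReal * μ (Φ ⁻¹' {v}) ≠ ∞ := fun h => h2 (by
    rw [h]
    exact ENNReal.top_rpow_of_pos (by positivity))
  rw [← ENNReal.toReal_rpow, rpow_inv_rpow hq ENNReal.toReal_nonneg,
    ENNReal.toReal_sum (ENNReal.sum_ne_top.1 h3), ← sum_coe_sort]
  refine sum_congr rfl fun v _ => ?_
  rw [← mul_sub, abs_mul, abs_of_nonneg (by positivity), Real.mul_rpow (by positivity)
    (abs_nonneg _), rpow_inv_rpow hq ENNReal.toReal_nonneg, ENNReal.toReal_mul,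
    ← ENNReal.toReal_rpow, toReal_enorm, Real.norm_eq_abs, mul_comm]

lemma approx {Ω : Type*} [MeasurableSpace Ω] {μ : Measure Ω} {p : ℝ≥0∞} [Fact (1 ≤ p)]
    (hp : p ≠ ∞) (X : Finset (Lp ℝ p μ)) {τ : ℝ} (hτ : 0 < τ) :
    ∃ φ : Lp ℝ p μ → Lp.simpleFunc ℝ p μ, ∀ x ∈ X, ∀ y ∈ X,
      |dist (φ x : Lp ℝ p μ) (φ y) - ‖x - y‖| ≤ τ * ‖x - y‖ := by
  obtain ⟨m, L, hm, h⟩ := exists_range fun a : X × X => ‖a.1.1 - a.2.1‖
  choose φ hφ using fun x : Lp ℝ p μ =>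
    (Lp.simpleFunc.denseRange hp).exists_dist_lt x (by positivity : 0 < τ * m / 2)
  refine ⟨φ, fun x hx y hy => ?_⟩
  rcases eq_or_ne x y with rfl | hne
  · simp
  have h1 : m < ‖x - y‖ := (h (⟨x, hx⟩, ⟨y, hy⟩)).1 (norm_pos_iff.2 (sub_ne_zero.2 hne))
  have h2 := dist_dist_dist_le (φ x : Lp ℝ p μ) (φ y) x y
  rw [Real.dist_eq, dist_eq_norm x y, dist_comm _ x, dist_comm _ y] at h2
  linarith [hφ x, hφ y, mul_le_mul_of_nonneg_left h1.le hτ.le]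

lemma small_power {γ C ε : ℝ} (hγ : γ < 1) (hε : 0 < ε) :
    Tendsto (fun n : ℕ => Real.exp (C * Real.log n ^ γ) / (n : ℝ) ^ ε) atTop (𝓝 0) := by
  have h1 : Tendsto (fun n : ℕ => Real.log n) atTop atTop :=
    Real.tendsto_log_atTop.comp tendsto_natCast_atTop_atTop
  have h2 : Tendsto (fun t : ℝ => C * t ^ (-(1 - γ)) - ε) atTop (𝓝 (C * 0 - ε)) :=
    ((tendsto_rpow_neg_atTop (by linarith)).const_mul C).sub_const ε
  have h3 := Real.tendsto_exp_atBot.comp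
    ((Tendsto.atTop_mul_neg (by linarith) tendsto_id h2).comp h1)
  refine h3.congr' ?_
  filter_upwards [eventually_ge_atTop 2] with n hn
  have hn1 : (1 : ℝ) < n := by exact_mod_cast hn
  have hl := Real.log_pos hn1
  simp only [Function.comp, id]
  rw [Real.rpow_def_of_pos (by linarith : (0 : ℝ) < n), ← Real.exp_sub, neg_sub,
    Real.rpow_sub_one hl.ne']
  congr 1
  field_simp

theorem lp_embed (p : ℝ≥0∞) [Fact (1 ≤ p)] (hp1 : 1 < p) (hp : p ≠ ∞) (D : ℝ) (hD : 1 < D) :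
    ∃ (γ C : ℝ), γ < 1 ∧ ∀ n : ℕ, 2 ≤ n → ∃ d : ℕ, (d : ℝ) ≤ Real.exp (C * Real.log n ^ γ) ∧
      ∀ (Ω : Type u) [MeasurableSpace Ω] (μ : Measure Ω) (X : Finset (Lp ℝ p μ)), X.card = n →
        ∃ (f : Lp ℝ p μ → PiLp p fun _ : Fin d => ℝ) (s : ℝ), 0 < s ∧ ∀ x ∈ X, ∀ y ∈ X,
          s * ‖x - y‖ ≤ ‖f x - f y‖ ∧ ‖f x - f y‖ ≤ D * s * ‖x - y‖ := by
  classical
  have hq : 1 < p.toReal := by
    rw [← ENNReal.toReal_one]
    exact (ENNReal.toReal_lt_toReal ENNReal.one_ne_top hp).2 hp1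
  have hq0 : 0 < p.toReal := by linarith
  obtain ⟨γ, C, hγ0, hγ1, hC, h⟩ := finite_embed.{u, u} hq (show 1 < (1 + D) / 2 by linarith)
  refine ⟨γ, C * 2 ^ γ, hγ1, fun n hn => ?_⟩
  have hn2 : (2 : ℝ) ≤ n := by exact_mod_cast hn
  have hlog : 1 ≤ 2 * Real.log n := by
    linarith [Real.log_le_log two_pos hn2, Real.log_two_gt_d9]
  obtain ⟨d, hd, h⟩ := h (2 * Real.log n) hlog
  refine ⟨d, by rwa [Real.mul_rpow zero_le_two (by linarith), ← mul_assoc] at hd, ?_⟩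
  intro Ω _ μ X hX
  set τ := (D - 1) / (3 * D + 1) with hτ
  have hτ0 : 0 < τ := div_pos (by linarith) (by linarith)
  have hτ1 : τ < 1 := by rw [hτ, div_lt_one (by linarith)]; linarith
  have hτD : (1 + D) / 2 * (1 + τ) = D * (1 - τ) := by rw [hτ]; field_simp; ring
  obtain ⟨φ, hφ⟩ := approx hp X hτ0
  set Y : Finset (Lp ℝ p μ) := X.image fun x => (φ x : Lp ℝ p μ) with hY
  have hmem : ∀ x ∈ X, (φ x : Lp ℝ p μ) ∈ Y := fun x hx => mem_image_of_mem _ hx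
  have hex : ∀ y : Y, ∃ e : Lp.simpleFunc ℝ p μ, (e : Lp ℝ p μ) = y := fun y => by
    obtain ⟨x, -, hx⟩ := mem_image.1 y.2
    exact ⟨φ x, hx⟩
  choose e he using hex
  obtain ⟨s, F, hF⟩ := simple_rep hp e
  obtain ⟨x₀, hx₀⟩ : X.Nonempty := card_pos.1 (by omega)
  have : Nonempty Y := ⟨⟨_, hmem x₀ hx₀⟩⟩
  obtain ⟨f, c, hc, hf⟩ := h Y s F (fun x y => by rw [← hF, he, he]; rfl) (by
    have h1 : Y.card ≤ n := hX ▸ card_image_le
    have h2 : (n : ℝ) ≤ Real.exp (2 * Real.log n) := by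
      rw [two_mul, Real.exp_add, Real.exp_log (by linarith)]
      nlinarith
    rw [Fintype.card_coe]
    exact le_trans (by exact_mod_cast h1) h2)
  refine ⟨fun x => if hx : x ∈ X then WithLp.toLp p (f ⟨_, hmem x hx⟩) else 0, c * (1 - τ),
    mul_pos hc (by linarith), fun x hx y hy => ?_⟩
  obtain ⟨f1, f2⟩ := hf ⟨_, hmem x hx⟩ ⟨_, hmem y hy⟩
  obtain ⟨g1, g2⟩ := abs_le.1 (hφ x hx y hy)
  rw [Subtype.dist_eq] at f1 f2
  simp only [dif_pos hx, dif_pos hy, PiLp.norm_eq_sum hq0, PiLp.sub_apply, Real.norm_eq_abs]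
  constructor
  · refine le_trans ?_ (le_rpow_inv hq0 (by positivity) f1)
    linarith [mul_le_mul_of_nonneg_left g1 hc.le]
  · refine (rpow_inv_le hq0 (sum_nonneg fun _ _ => by positivity) (by positivity) f2).trans ?_
    have := mul_le_mul_of_nonneg_left g2 (by positivity : 0 ≤ (1 + D) / 2 * c)
    calc _ ≤ (1 + D) / 2 * (1 + τ) * (c * ‖x - y‖) := by linarith
      _ = _ := by rw [hτD]; ring

end Vale.Agent.P249
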