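import Vale.Agent.P249.Center

/-! Kernels at one scale. -/

open Finset Real
open scoped RealInnerProductSpace

namespace Vale.Agent.P249

variable {X : Type*} [Fintype X] [MetricSpace X]

/-- A probability kernel `k` at scale `σ` with a dominating kernel `kt`. -/
structure Scale (σ A Λ : ℝ) (k kt : X → X → ℝ) (a ω : X → ℝ) : Prop where
  k0 : ∀ x z, 0 ≤ k x z
  k1 : ∀ x, ∑ z, k x z = 1
  kle : ∀ x z, k x z ≤ kt x z
  mass : ∀ x, ∑ z, kt x z ≤ 2
  ha : ∀ x, ∑ z, kt x z * (dist x z / σ) ≤ a x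
  hω : ∀ x, ∑ z, kt x z * (dist x z / σ) ≤ ω x
  dk : ∀ x y, dist x y / σ ≤ 1 → ∑ z, |k x z - k y z| * (dist x z / σ) ≤
    A * (dist x y / σ) * (ω x + ω y + dist x y / σ)
  dm : ∀ x y, dist x y / σ ≤ 1 → ∑ z, |kt x z - kt y z| ≤ A * (dist x y / σ)
  dkt : ∀ x y, dist x y / σ ≤ 1 → ∑ z, |kt x z - kt y z| * (dist x z / σ) ≤
    A * (dist x y / σ) * (ω x + ω y + dist x y / σ)
  lk : ∀ x y z, Λ * (dist x y / σ) ≤ 1 → |k x z - k y z| ≤ Λ * (dist x y / σ) * kt x z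
  lkt : ∀ x y z, Λ * (dist x y / σ) ≤ 1 → |kt x z - kt y z| ≤ Λ * (dist x y / σ) * kt x z

lemma scale_delta [DecidableEq X] {σ A Λ : ℝ} (hσ : 0 < σ) (hΛ : 1 ≤ Λ)
    (h : ∀ x y : X, x ≠ y → σ < dist x y) {a ω : X → ℝ} (ha : ∀ x, 0 ≤ a x) (hω : ∀ x, 0 ≤ ω x) :
    Scale σ A Λ (fun x z => if x = z then 1 else 0) (fun x z => if x = z then 1 else 0) a ω := by
  have key : ∀ x y : X, dist x y / σ ≤ 1 → x = y := by
    intro x y hxy
    by_contra hne
    rw [div_le_one hσ] at hxy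
    linarith [h x y hne]
  have key' : ∀ x y : X, Λ * (dist x y / σ) ≤ 1 → x = y := fun x y hxy =>
    key x y (le_trans (le_mul_of_one_le_left (by positivity) hΛ) hxy)
  refine ⟨fun x z => by split_ifs <;> norm_num, fun x => by simp, fun _ _ => le_rfl,
    fun x => by simp, fun x => by simpa using ha x, fun x => by simpa using hω x,
    fun x y hxy => ?_, fun x y hxy => ?_, fun x y hxy => ?_, fun x y z hxy => ?_,
    fun x y z hxy => ?_⟩
  · obtain rfl := key x y hxy; simp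
  · obtain rfl := key x y hxy; simp
  · obtain rfl := key x y hxy; simp
  · obtain rfl := key' x y hxy; simp
  · obtain rfl := key' x y hxy; simp

lemma scale_const [DecidableEq X] {σ A Λ : ℝ} (hσ : 0 < σ) (hA : 0 ≤ A) (hΛ : 0 ≤ Λ) (x₀ : X)
    (h : ∀ x y : X, dist x y ≤ σ) :
    Scale σ A Λ (fun _ z => if x₀ = z then 1 else 0) (fun _ z => if x₀ = z then 1 else 0)
      (fun _ => 1) (fun _ => 1) := by
  have h1 : ∀ x, dist x x₀ / σ ≤ 1 := fun x => (div_le_one hσ).2 (h x x₀)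
  refine ⟨fun x z => by split_ifs <;> norm_num, fun x => by simp, fun _ _ => le_rfl,
    fun x => by simp, fun x => by simpa using h1 x, fun x => by simpa using h1 x,
    fun x y _ => ?_, fun x y _ => ?_, fun x y _ => ?_, fun x y z _ => ?_,
    fun x y z _ => ?_⟩
  · simp; positivity
  · simp; positivity
  · simp; positivity
  · simp only [sub_self, abs_zero]; split_ifs <;> positivity
  · simp only [sub_self, abs_zero]; split_ifs <;> positivity

/-- The floor kernel. -/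
noncomputable def flo (σ ℓ : ℝ) (x z : X) : ℝ := exp (-ℓ - dist x z / σ / 4)

/-- The mean scaled distance of the floor kernel. -/
noncomputable def flm (σ ℓ : ℝ) (x : X) : ℝ := ∑ z, flo σ ℓ x z * (dist x z / σ)

omit [MetricSpace X] in
lemma card_mul_le {ℓ : ℝ} (hn : (Fintype.card X : ℝ) ≤ exp ℓ) {f : X → ℝ} {c : ℝ} (hc : 0 ≤ c)
    (hf : ∀ z, f z ≤ c * exp (-ℓ)) : ∑ z, f z ≤ c := by
  calc ∑ z, f z ≤ ∑ _z : X, c * exp (-ℓ) := sum_le_sum fun z _ => hf z
    _ = Fintype.card X * (c * exp (-ℓ)) := by simp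
    _ ≤ exp ℓ * (c * exp (-ℓ)) := mul_le_mul_of_nonneg_right hn (by positivity)
    _ = c := by rw [mul_left_comm, ← exp_add]; simp

lemma flo_mass {σ ℓ : ℝ} (hσ : 0 < σ) (hn : (Fintype.card X : ℝ) ≤ exp ℓ) (x : X) :
    ∑ z, flo σ ℓ x z ≤ 1 := by
  refine card_mul_le hn zero_le_one fun z => ?_
  rw [one_mul]
  refine exp_le_exp.2 ?_
  have : 0 ≤ dist x z / σ / 4 := by positivity
  linarith

lemma flm_nonneg {σ ℓ : ℝ} (hσ : 0 < σ) (x : X) : 0 ≤ flm σ ℓ x :=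
  sum_nonneg fun z _ => mul_nonneg (exp_pos _).le (by positivity)

lemma flm_le {σ ℓ : ℝ} (hn : (Fintype.card X : ℝ) ≤ exp ℓ) (x : X) : flm σ ℓ x ≤ 4 := by
  refine card_mul_le hn (by norm_num) fun z => ?_
  unfold flo
  set u := dist x z / σ
  have h1 := add_one_le_exp (u / 4)
  have h2 : exp (-ℓ) = exp (-ℓ - u / 4) * exp (u / 4) := by rw [← exp_add]; ring_nf
  rw [h2]
  nlinarith [exp_pos (-ℓ - u / 4)]

lemma flm_sum {σ ℓ : ℝ} (hσ : 0 < σ) (hn : (Fintype.card X : ℝ) ≤ exp ℓ) (x : X) (J : ℕ) :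
    ∑ j ∈ range J, flm (σ * 2 ^ j) ℓ x ≤ 8 := by
  unfold flm
  rw [sum_comm]
  refine card_mul_le hn (by norm_num) fun z => ?_
  have h1 : ∀ j ∈ range J, flo (σ * 2 ^ j) ℓ x z * (dist x z / (σ * 2 ^ j)) ≤
      8 * (flo (σ * 2 ^ (j + 1)) ℓ x z - flo (σ * 2 ^ j) ℓ x z) := by
    intro j _
    unfold flo
    rw [show dist x z / (σ * 2 ^ (j + 1)) = dist x z / (σ * 2 ^ j) / 2 by field_simp; ring]
    set u := dist x z / (σ * 2 ^ j)
    have h1 := add_one_le_exp (u / 8)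
    have h2 : exp (-ℓ - u / 2 / 4) = exp (-ℓ - u / 4) * exp (u / 8) := by
      rw [← exp_add]; ring_nf
    rw [h2]
    nlinarith [exp_pos (-ℓ - u / 4)]
  refine (sum_le_sum h1).trans ?_
  rw [← mul_sum, sum_range_sub (fun j => flo (σ * 2 ^ j) ℓ x z)]
  have h2 : flo (σ * 2 ^ J) ℓ x z ≤ exp (-ℓ) := by
    refine exp_le_exp.2 ?_
    have : 0 ≤ dist x z / (σ * 2 ^ J) / 4 := by positivity
    linarith
  have h3 : 0 < flo (σ * 2 ^ 0) ℓ x z := exp_pos _
  linarith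

omit [Fintype X] in
lemma flo_diff {σ ℓ : ℝ} (hσ : 0 < σ) {x y : X} (h : dist x y / σ ≤ 1) (z : X) :
    |flo σ ℓ x z - flo σ ℓ y z| ≤ dist x y / σ * flo σ ℓ x z := by
  have h1 := abs_le.1 (abs_dist_div_sub hσ x y z)
  have := abs_exp_sub_le' (a := -ℓ - dist x z / σ / 4) (b := -ℓ - dist y z / σ / 4)
    (u := dist x y / σ / 2) (abs_le.2 ⟨by linarith [h1.1, h1.2], by linarith [h1.1, h1.2]⟩)
    (by linarith)
  unfold flo
  linarith

omit [MetricSpace X] in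
lemma mix_abs {pi pi' q q' : X → ℝ} (h' : ∀ c, 0 ≤ pi' c) (hq : ∀ c, 0 ≤ q c) :
    |∑ c, pi c * q c - ∑ c, pi' c * q' c| ≤
      ∑ c, |pi c - pi' c| * q c + ∑ c, pi' c * |q c - q' c| := by
  rw [← sum_sub_distrib, ← sum_add_distrib]
  refine (abs_sum_le_sum_abs _ _).trans (sum_le_sum fun c _ => ?_)
  rw [show pi c * q c - pi' c * q' c = (pi c - pi' c) * q c + pi' c * (q c - q' c) by ring]
  refine (abs_add_le _ _).trans (le_of_eq ?_)
  rw [abs_mul, abs_mul, abs_of_nonneg (h' c), abs_of_nonneg (hq c)]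

omit [MetricSpace X] in
lemma mix_sum {pi pi' f : X → ℝ} {q q' : X → X → ℝ} (h' : ∀ c, 0 ≤ pi' c) (h1 : ∑ c, pi' c = 1)
    (hq : ∀ c z, 0 ≤ q c z) (hf : ∀ z, 0 ≤ f z) {s t u : ℝ} (hs : ∑ c, |pi c - pi' c| ≤ s)
    (ht0 : 0 ≤ t) (ht : ∀ c, pi c ≠ 0 ∨ pi' c ≠ 0 → ∑ z, q c z * f z ≤ t)
    (hu : ∀ c, pi' c ≠ 0 → ∑ z, |q c z - q' c z| * f z ≤ u) :
    ∑ z, |∑ c, pi c * q c z - ∑ c, pi' c * q' c z| * f z ≤ s * t + u := by
  calc _ ≤ ∑ z, (∑ c, |pi c - pi' c| * q c z + ∑ c, pi' c * |q c z - q' c z|) * f z :=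
        sum_le_sum fun z _ => mul_le_mul_of_nonneg_right (mix_abs h' fun c => hq c z) (hf z)
    _ = ∑ c, |pi c - pi' c| * ∑ z, q c z * f z + ∑ c, pi' c * ∑ z, |q c z - q' c z| * f z := by
        simp only [add_mul, sum_add_distrib, sum_mul, mul_sum, mul_assoc]
        rw [sum_comm, sum_comm (f := fun z c => pi' c * (|q c z - q' c z| * f z))]
    _ ≤ ∑ c, |pi c - pi' c| * t + ∑ c, pi' c * u := by
        refine add_le_add (sum_le_sum fun c _ => ?_) (sum_le_sum fun c _ => ?_)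
        · by_cases hc : pi c ≠ 0 ∨ pi' c ≠ 0
          · exact mul_le_mul_of_nonneg_left (ht c hc) (abs_nonneg _)
          · push Not at hc
            simp [hc.1, hc.2]
        · by_cases hc : pi' c = 0
          · simp [hc]
          · exact mul_le_mul_of_nonneg_left (hu c hc) (h' c)
    _ ≤ s * t + u := by
        rw [← sum_mul, ← sum_mul, h1, one_mul]
        linarith [mul_le_mul_of_nonneg_right hs ht0]

variable {H : Type*} [NormedAddCommGroup H] [InnerProductSpace ℝ H] [FiniteDimensional ℝ H]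

lemma exists_mix {p σ T B C₀ ℓ M o : ℝ} {Φ : X → X → H} (hΦ : Feat p σ T B C₀ Φ) (hp : 1 ≤ p)
    (hσ : 0 < σ) (hC : 1 ≤ C₀) (hB : 1 ≤ B) (hℓ : 1 ≤ ℓ) (ho : 1 ≤ o) (hM1 : 2 * C₀ ≤ M)
    (hM2 : 2 * (B ^ 2 + 1) ≤ M) (hT : 3 * ℓ / o + 1 ≤ T) (hn : (Fintype.card X : ℝ) ≤ exp ℓ) :
    (∀ x : X, 0 ≤ vol p σ M x) ∧ ∃ k : X → X → ℝ, (∀ x z, 0 ≤ k x z) ∧ (∀ x, ∑ z, k x z = 1) ∧
      (∀ x, ∑ z, k x z * (dist x z / σ) ≤ 4 * vol p σ M x) ∧
      (∀ x, ∑ z, k x z * (dist x z / σ) ≤ 5 * C₀ * vol p σ M x ^ (1 / p)) ∧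
      (∀ x y, dist x y / σ ≤ 1 → ∑ z, |k x z - k y z| ≤ (8 * o + 7 * B) * (dist x y / σ)) ∧
      (∀ x y, dist x y / σ ≤ 1 → ∑ z, |k x z - k y z| * (dist x z / σ) ≤
        (8 * o + 5120 * B ^ 2) * (dist x y / σ) *
          (5 * C₀ * (vol p σ M x ^ (1 / p) + vol p σ M y ^ (1 / p)) + dist x y / σ)) ∧
      ∀ x y z, (12 * o + 11520 * B ^ 2 * ℓ) * (dist x y / σ) ≤ 1 → |k x z - k y z| ≤
        (12 * o + 11520 * B ^ 2 * ℓ) * (dist x y / σ) * (k x z + flo σ ℓ x z) := by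
  choose q hq using fun c x : X => exists_gibbs (Φ c) x (fun z => dist x z / σ) (by simp)
  obtain ⟨pi, p0, p1, psupp, pd, pl⟩ := exists_pi hσ ho hℓ hn
  have hT1 : 1 ≤ T := by
    have : 0 ≤ 3 * ℓ / o := by positivity
    linarith
  have hmom := fun {c x : X} (hc : dist x c / σ ≤ T) => hΦ.mom hp hσ hC hM1 hM2 hn hc (hq c x)
  have q0 : ∀ c x z, 0 ≤ q c x z := fun c x z => ((hq c x).pos z).le
  have hgood1 : ∀ x c, pi x c ≠ 0 → dist x c / σ ≤ T - 1 := by
    intro x c h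
    have := psupp x c h
    rw [mul_comm, ← le_div_iff₀ (by linarith)] at this
    linarith
  have hgood : ∀ x y c, dist x y / σ ≤ 1 → pi x c ≠ 0 ∨ pi y c ≠ 0 →
      dist x c / σ ≤ T ∧ dist y c / σ ≤ T := by
    intro x y c hxy h
    have := abs_le.1 (abs_dist_div_sub hσ x y c)
    rcases h with h | h
    · have := hgood1 x c h
      constructor <;> linarith
    · have := hgood1 y c h
      constructor <;> linarith
  have hv0 : ∀ x : X, 0 ≤ vol p σ M x := fun x => (hmom (c := x) (by simp; linarith)).v0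
  have hmean : ∀ x {t : ℝ}, (∀ c, dist x c / σ ≤ T → ∑ z, q c x z * (dist x z / σ) ≤ t) →
      ∑ z, (∑ c, pi x c * q c x z) * (dist x z / σ) ≤ t := by
    intro x t ht
    calc _ = ∑ c, pi x c * ∑ z, q c x z * (dist x z / σ) := by
          simp only [sum_mul, mul_sum, mul_assoc]
          rw [sum_comm]
      _ ≤ ∑ c, pi x c * t := by
          refine sum_le_sum fun c _ => ?_
          by_cases hc : pi x c = 0
          · simp [hc]
          · exact mul_le_mul_of_nonneg_left (ht c (by linarith [hgood1 x c hc])) (p0 x c)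
      _ = t := by rw [← sum_mul, p1, one_mul]
  refine ⟨hv0, fun x z => ∑ c, pi x c * q c x z,
    fun x z => sum_nonneg fun c _ => mul_nonneg (p0 x c) (q0 c x z), fun x => ?_,
    fun x => hmean x fun c hc => (hmom hc).mean_le,
    fun x => hmean x fun c hc => (hmom hc).mean_le' hp hC, fun x y hxy => ?_, fun x y hxy => ?_,
    fun x y z hxy => ?_⟩
  · rw [sum_comm]
    simp only [← mul_sum, (hq _ x).sum, mul_one, p1]
  · have := mix_sum (pi := pi x) (f := fun _ => 1) (q := fun c => q c x) (q' := fun c => q c y)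
      (p0 y) (p1 y) (fun c => q0 c x) (fun _ => zero_le_one) (pd x y) zero_le_one
      (u := 7 * (B * (dist x y / σ))) (fun c _ => by simp [(hq c x).sum]) fun c hc => by
        obtain ⟨g1, g2⟩ := hgood x y c hxy (Or.inr hc)
        simpa using (hΦ.pair hp hσ hC hB hℓ hM1 hM2 hn g1 g2 hxy (hq c x) (hq c y)).1
    simp only [mul_one] at this
    linarith
  · have hr : 0 ≤ vol p σ M x ^ (1 / p) := rpow_nonneg (hv0 x) _
    have hr' : 0 ≤ vol p σ M y ^ (1 / p) := rpow_nonneg (hv0 y) _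
    have hρ : 0 ≤ dist x y / σ := by positivity
    have := mix_sum (pi := pi x) (f := fun z => dist x z / σ) (q := fun c => q c x)
      (q' := fun c => q c y) (p0 y) (p1 y) (fun c => q0 c x) (fun _ => by positivity) (pd x y)
      (t := 5 * C₀ * vol p σ M x ^ (1 / p)) (by positivity)
      (fun c hc => (hmom (hgood x y c hxy hc).1).mean_le' hp hC) fun c hc => by
        obtain ⟨g1, g2⟩ := hgood x y c hxy (Or.inr hc)
        exact (hΦ.pair hp hσ hC hB hℓ hM1 hM2 hn g1 g2 hxy (hq c x) (hq c y)).2.1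
    refine this.trans ?_
    rw [add_mul, add_mul]
    refine add_le_add ?_ (mul_le_mul_of_nonneg_left ?_ (by positivity))
    · rw [← mul_assoc 8]
      refine mul_le_mul_of_nonneg_left ?_ (by positivity)
      nlinarith
    · nlinarith
  · have hρ : 0 ≤ dist x y / σ := by positivity
    set ρ := dist x y / σ with hρd
    have hBℓ : 1 ≤ B ^ 2 * ℓ := by nlinarith
    have ho2 : o ≤ T * o := le_mul_of_one_le_left (by linarith) hT1
    have h1 : o * ρ ≤ 1 / 8 := by nlinarith [mul_nonneg (by linarith : 0 ≤ B ^ 2 * ℓ) hρ]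
    have h2 : 2880 * B ^ 2 * ℓ * ρ ≤ 1 := by nlinarith [mul_nonneg (by linarith : 0 ≤ o) hρ]
    have h3 : ρ ≤ 1 := by nlinarith [mul_le_mul_of_nonneg_right hBℓ hρ]
    have hfl : 0 < flo σ ℓ x z := exp_pos _
    have h4 : ∑ c, (pi x c + exp (-(3 * ℓ))) * q c x z ≤
        ∑ c, pi x c * q c x z + flo σ ℓ x z := by
      simp only [add_mul, sum_add_distrib]
      refine add_le_add le_rfl (card_mul_le hn hfl.le fun c => ?_)
      refine (mul_le_mul_of_nonneg_left (gibbs_pt hσ hn (hq c x) z) (exp_pos _).le).trans ?_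
      unfold flo
      rw [← exp_add, ← exp_add, exp_le_exp]
      linarith
    refine (mix_abs (p0 y) fun c => q0 c x z).trans ?_
    have h5 : ∑ c, |pi x c - pi y c| * q c x z ≤
        12 * (o * ρ) * ∑ c, (pi x c + exp (-(3 * ℓ))) * q c x z := by
      rw [mul_sum]
      refine sum_le_sum fun c _ => ?_
      rw [← mul_assoc]
      exact mul_le_mul_of_nonneg_right (pl x y c h1).1 (q0 c x z)
    have h6 : ∑ c, pi y c * |q c x z - q c y z| ≤ 2880 * B ^ 2 * ℓ * ρ *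
        (3 * ∑ c, (pi x c + exp (-(3 * ℓ))) * q c x z + (∑ c, pi y c) * flo σ ℓ x z) := by
      rw [mul_sum, sum_mul, ← sum_add_distrib, mul_sum]
      refine sum_le_sum fun c _ => ?_
      by_cases hc : pi y c = 0
      · rw [hc]
        have := p0 x c
        have := q0 c x z
        simp only [zero_mul, add_zero]
        positivity
      · obtain ⟨g1, g2⟩ := hgood x y c h3 (Or.inr hc)
        have a1 := (hΦ.pair hp hσ hC hB hℓ hM1 hM2 hn g1 g2 h3 (hq c x) (hq c y)).2.2 h2 z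
        refine (mul_le_mul_of_nonneg_left a1 (p0 y c)).trans ?_
        rw [mul_left_comm]
        refine mul_le_mul_of_nonneg_left ?_ (by positivity)
        have a2 := mul_le_mul_of_nonneg_right (pl x y c h1).2 (q0 c x z)
        unfold flo
        linarith
    rw [p1] at h6
    have h7 : 0 ≤ ∑ c, pi x c * q c x z := sum_nonneg fun c _ => mul_nonneg (p0 x c) (q0 c x z)
    have h8 : 0 ≤ o * ρ := by positivity
    have h9 : 0 ≤ B ^ 2 * ℓ * ρ := by positivity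
    nlinarith [mul_le_mul_of_nonneg_left h4 h8, mul_le_mul_of_nonneg_left h4 h9,
      mul_nonneg h9 h7]

lemma scale_gibbs {p σ T B C₀ ℓ M o : ℝ} {Φ : X → X → H} (hΦ : Feat p σ T B C₀ Φ) (hp : 1 ≤ p)
    (hσ : 0 < σ) (hC : 1 ≤ C₀) (hB : 1 ≤ B) (hℓ : 1 ≤ ℓ) (ho : 1 ≤ o) (hM1 : 2 * C₀ ≤ M)
    (hM2 : 2 * (B ^ 2 + 1) ≤ M) (hT : 3 * ℓ / o + 1 ≤ T) (hn : (Fintype.card X : ℝ) ≤ exp ℓ) :
    (∀ x : X, 0 ≤ vol p σ M x) ∧ ∃ k kt : X → X → ℝ,
      Scale σ (9 * o + 5120 * B ^ 2) (13 * o + 11520 * B ^ 2 * ℓ) k kt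
        (fun x => 4 * (vol p σ M x + flm σ ℓ x))
        (fun x => 9 * C₀ * (vol p σ M x + flm σ ℓ x) ^ (1 / p)) := by
  obtain ⟨hv0, k, k0, k1, ka, kω, kd1, kd2, kl⟩ :=
    exists_mix hΦ hp hσ hC hB hℓ ho hM1 hM2 hT hn
  have hf0 : ∀ x : X, 0 ≤ flm σ ℓ x := flm_nonneg hσ
  have hfl : ∀ x z : X, 0 ≤ flo σ ℓ x z := fun x z => (exp_pos _).le
  have hr0 : ∀ x : X, 0 ≤ vol p σ M x ^ (1 / p) := fun x => rpow_nonneg (hv0 x) _
  have hr1 : ∀ x : X, vol p σ M x ^ (1 / p) ≤ (vol p σ M x + flm σ ℓ x) ^ (1 / p) := fun x =>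
    rpow_le_rpow (hv0 x) (by linarith [hf0 x]) (by positivity)
  have hr2 : ∀ x : X, flm σ ℓ x ≤ 4 * (vol p σ M x + flm σ ℓ x) ^ (1 / p) := by
    intro x
    have h1 : flm σ ℓ x ^ (1 / p) ≤ (vol p σ M x + flm σ ℓ x) ^ (1 / p) :=
      rpow_le_rpow (hf0 x) (by linarith [hv0 x]) (by positivity)
    rcases le_total (flm σ ℓ x) 1 with h | h
    · have := le_rpow_inv_self hp (hf0 x) h
      linarith [hf0 x]
    · have := one_le_rpow h (by positivity : 0 ≤ 1 / p)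
      linarith [flm_le (σ := σ) hn x]
  have hsplit : ∀ x : X, ∑ z, (k x z + flo σ ℓ x z) * (dist x z / σ) =
      ∑ z, k x z * (dist x z / σ) + flm σ ℓ x := fun x => by
    simp only [add_mul, sum_add_distrib, flm]
  have hdiff : ∀ x y z, dist x y / σ ≤ 1 → |k x z + flo σ ℓ x z - (k y z + flo σ ℓ y z)| ≤
      |k x z - k y z| + dist x y / σ * flo σ ℓ x z := by
    intro x y z h
    rw [add_sub_add_comm]
    exact (abs_add_le _ _).trans (add_le_add le_rfl (flo_diff hσ h z))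
  have hBB : B ≤ B ^ 2 := by nlinarith
  have hω5 : ∀ x : X, 5 * C₀ * vol p σ M x ^ (1 / p) ≤
      9 * C₀ * (vol p σ M x + flm σ ℓ x) ^ (1 / p) := fun x => by
    nlinarith [hr0 x, hr1 x]
  have hdk : ∀ x y, dist x y / σ ≤ 1 → ∑ z, |k x z - k y z| * (dist x z / σ) ≤
      (8 * o + 5120 * B ^ 2) * (dist x y / σ) * (9 * C₀ * (vol p σ M x + flm σ ℓ x) ^ (1 / p) +
        9 * C₀ * (vol p σ M y + flm σ ℓ y) ^ (1 / p) + dist x y / σ) := fun x y h =>
    (kd2 x y h).trans (mul_le_mul_of_nonneg_left (by linarith [hω5 x, hω5 y]) (by positivity))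
  have hω0 : ∀ x : X, 0 ≤ (vol p σ M x + flm σ ℓ x) ^ (1 / p) := fun x => (hr0 x).trans (hr1 x)
  have hΛ : ∀ {ρ : ℝ}, 0 ≤ ρ → (13 * o + 11520 * B ^ 2 * ℓ) * ρ ≤ 1 →
      (12 * o + 11520 * B ^ 2 * ℓ) * ρ ≤ 1 ∧ ρ ≤ 1 := by
    intro ρ h0 h
    have : 0 ≤ B ^ 2 * ℓ * ρ := by positivity
    constructor <;> nlinarith [mul_le_mul_of_nonneg_right ho h0]
  refine ⟨hv0, k, fun x z => k x z + flo σ ℓ x z, k0, k1, fun x z => by linarith [hfl x z],
    fun x => ?_, fun x => ?_, fun x => ?_, fun x y h => ?_, fun x y h => ?_, fun x y h => ?_,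
    fun x y z h => ?_, fun x y z h => ?_⟩
  · rw [sum_add_distrib, k1]
    linarith [flo_mass hσ hn x]
  · rw [hsplit]
    linarith [ka x, hf0 x]
  · rw [hsplit]
    nlinarith [kω x, hr1 x, hr2 x, hω0 x]
  · refine (hdk x y h).trans (mul_le_mul_of_nonneg_right
      (mul_le_mul_of_nonneg_right (by linarith) (by positivity)) ?_)
    have := hω0 x
    have := hω0 y
    positivity
  · refine (sum_le_sum fun z _ => hdiff x y z h).trans ?_
    rw [sum_add_distrib, ← mul_sum]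
    have hρ : 0 ≤ dist x y / σ := by positivity
    nlinarith [kd1 x y h, mul_le_mul_of_nonneg_left (flo_mass hσ hn x) hρ,
      mul_le_mul_of_nonneg_right ho hρ, mul_le_mul_of_nonneg_right hBB hρ,
      mul_nonneg (sq_nonneg B) hρ]
  · refine (sum_le_sum fun z _ =>
      mul_le_mul_of_nonneg_right (hdiff x y z h) (by positivity)).trans ?_
    simp only [add_mul (|_|), sum_add_distrib, mul_assoc (dist x y / σ), ← mul_sum]
    have hρ : 0 ≤ dist x y / σ := by positivity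
    have a1 : flm σ ℓ x ≤ o * (9 * C₀ * (vol p σ M x + flm σ ℓ x) ^ (1 / p) +
        9 * C₀ * (vol p σ M y + flm σ ℓ y) ^ (1 / p) + dist x y / σ) := by
      refine le_trans ?_ (le_mul_of_one_le_left ?_ ho)
      · nlinarith [hr2 x, hω0 x, hω0 y]
      · have := hω0 x
        have := hω0 y
        positivity
    have a2 := mul_le_mul_of_nonneg_left a1 hρ
    have a3 := hdk x y h
    unfold flm at a2 a3 ⊢
    linarith
  · have hρ : 0 ≤ dist x y / σ := by positivity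
    refine (kl x y z (hΛ hρ h).1).trans (mul_le_mul_of_nonneg_right
      (mul_le_mul_of_nonneg_right (by linarith) hρ) (add_nonneg (k0 x z) (hfl x z)))
  · have hρ : 0 ≤ dist x y / σ := by positivity
    refine (hdiff x y z (hΛ hρ h).2).trans ?_
    have a1 := kl x y z (hΛ hρ h).1
    have a2 : dist x y / σ * flo σ ℓ x z ≤ o * (dist x y / σ * (k x z + flo σ ℓ x z)) :=
      le_trans (mul_le_mul_of_nonneg_left (by linarith [k0 x z]) hρ)
        (le_mul_of_one_le_left (mul_nonneg hρ (add_nonneg (k0 x z) (hfl x z))) ho)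
    linarith

end Vale.Agent.P249
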