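import Vale.Agent.P249.Reduce
import Vale.Agent.P249.Defs

/-! The dimension bound with an explicit exponent. -/

open Finset Filter Topology MeasureTheory
open scoped ENNReal

namespace Vale.Agent.P249

universe u v

section

open Real

lemma scale_any' {p : ℝ} (hp : 1 < p) : ∃ κ C₀ C₁ : ℝ, 0 ≤ κ ∧
    κ + 1 / p ≤ max (1 / p) (1 - 1 / (p * (p - 1))) ∧ κ ≤ 1 ∧ 1 ≤ C₀ ∧ 1 ≤ C₁ ∧
    ∀ ℓ : ℝ, 1 ≤ ℓ → ∃ B : ℝ, 1 ≤ B ∧ B ^ 2 ≤ C₁ * ℓ ^ κ ∧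
    ∀ (X : Type u) (ι : Type v) [Fintype X] [MetricSpace X] [Fintype ι] (F : X → ι → ℝ) (σ M : ℝ),
      (∀ x y, dist x y ^ p = ∑ i, |F x i - F y i| ^ p) → (Fintype.card X : ℝ) ≤ exp ℓ → 0 < σ →
      2 * C₀ ≤ M → 2 * (B ^ 2 + 1) ≤ M →
      (∀ x : X, 0 ≤ vol p σ M x) ∧ ∃ k kt : X → X → ℝ,
        Scale σ (9 * ℓ ^ κ + 5120 * B ^ 2) (13 * ℓ ^ κ + 11520 * B ^ 2 * ℓ) k kt
          (fun x => 4 * (vol p σ M x + flm σ ℓ x))
          (fun x => 9 * C₀ * (vol p σ M x + flm σ ℓ x) ^ (1 / p)) := by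
  have hscale : ∀ {X : Type u} {ι : Type v} [MetricSpace X] [Fintype ι] {F : X → ι → ℝ} {σ : ℝ},
      (∀ x y, dist x y ^ p = ∑ i, |F x i - F y i| ^ p) → 0 < σ →
      ∀ x y, (dist x y / σ) ^ p = ∑ i, |F x i / σ - F y i / σ| ^ p := by
    intro X ι _ _ F σ hF hσ x y
    rw [div_rpow dist_nonneg hσ.le, hF, sum_div]
    refine sum_congr rfl fun i _ => ?_
    rw [← sub_div, abs_div, abs_of_pos hσ, div_rpow (abs_nonneg _) hσ.le]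
  rcases lt_or_ge p 2 with hp2 | hp2
  · obtain ⟨B, hB, hfeat⟩ := feat_lo.{u, v} hp hp2
    refine ⟨0, 8, B ^ 2, le_rfl, by rw [zero_add]; exact le_max_left _ _, zero_le_one,
      by norm_num, by nlinarith, fun ℓ hℓ => ⟨B, hB, by simp, ?_⟩⟩
    intro X ι _ _ _ F σ M hF hn hσ hM1 hM2
    obtain ⟨L, Φ, hΦ⟩ := hfeat (3 * ℓ / ℓ ^ (0 : ℝ) + 1) (fun x i => F x i / σ) hσ (hscale hF hσ)
    exact scale_gibbs hΦ hp.le hσ (by norm_num) hB hℓ (by simp) hM1 hM2 le_rfl hn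
  · have h2p : 1 ≤ (2 : ℝ) ^ p := one_le_rpow one_le_two (by linarith)
    have h5p : 1 ≤ (5 : ℝ) ^ (p - 2) := one_le_rpow (by norm_num) (by linarith)
    have hC : 1 ≤ p ^ 2 * (1 + 2 * 2 ^ p) * 5 ^ (p - 2) :=
      one_le_mul_of_one_le_of_one_le (one_le_mul_of_one_le_of_one_le (by nlinarith) (by linarith))
        h5p
    have hp1 : 0 < p - 1 := by linarith
    have hκ : 0 ≤ (p - 2) / (p - 1) := div_nonneg (by linarith) hp1.le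
    refine ⟨(p - 2) / (p - 1), 2 ^ p, p ^ 2 * (1 + 2 * 2 ^ p) * 5 ^ (p - 2), hκ, ?_,
      (div_le_one hp1).2 (by linarith), h2p, hC, fun ℓ hℓ => ?_⟩
    · refine le_trans (le_of_eq ?_) (le_max_right _ _)
      have : p ≠ 0 := by linarith
      field_simp
      ring
    have ho : 1 ≤ ℓ ^ ((p - 2) / (p - 1)) := one_le_rpow hℓ hκ
    have hB := one_le_mul_of_one_le_of_one_le hC ho
    refine ⟨√(p ^ 2 * (1 + 2 * 2 ^ p) * 5 ^ (p - 2) * ℓ ^ ((p - 2) / (p - 1))),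
      one_le_sqrt.2 hB, (sq_sqrt (by linarith)).le, ?_⟩
    intro X ι _ _ _ F σ M hF hn hσ hM1 hM2
    obtain ⟨Φ, hΦ⟩ := feat_hi (T := 3 * ℓ / ℓ ^ ((p - 2) / (p - 1)) + 1)
      (B := √(p ^ 2 * (1 + 2 * 2 ^ p) * 5 ^ (p - 2) * ℓ ^ ((p - 2) / (p - 1)))) hp2 hσ
      (by positivity) (sqrt_nonneg _) (by
        rw [sq_sqrt (by linarith), mul_assoc (p ^ 2 * (1 + 2 * 2 ^ p))]
        refine mul_le_mul_of_nonneg_left ?_ (by positivity)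
        have hℓ0 : 0 < ℓ := by linarith
        have e1 : ℓ / ℓ ^ ((p - 2) / (p - 1)) = ℓ ^ (1 / (p - 1)) := by
          rw [show 1 / (p - 1) = 1 - (p - 2) / (p - 1) by field_simp; ring, rpow_sub hℓ0, rpow_one]
        have e2 : ℓ ^ ((p - 2) / (p - 1)) = (ℓ ^ (1 / (p - 1))) ^ (p - 2) := by
          rw [← rpow_mul hℓ0.le]
          congr 1
          ring
        have h3 : 1 ≤ ℓ ^ (1 / (p - 1)) := one_le_rpow hℓ (by positivity)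
        rw [mul_div_assoc, e1, e2, ← mul_rpow (by norm_num) (by linarith)]
        exact rpow_le_rpow (by linarith) (by linarith) (by linarith))
      (fun x i => F x i / σ) (hscale hF hσ)
    exact scale_gibbs hΦ hp.le hσ h2p (one_le_sqrt.2 hB) hℓ ho hM1 hM2 le_rfl hn

lemma exists_fam' {p θ : ℝ} (hp : 1 < p) (hθ : max (1 / p) (1 - 1 / (p * (p - 1))) < θ) :
    ∃ C : ℝ, 1 ≤ C ∧
    ∀ ℓ : ℝ, 1 ≤ ℓ → ∃ A Λ B₁ V : ℝ, 1 ≤ A ∧ 1 ≤ Λ ∧ 0 ≤ B₁ ∧ 0 ≤ V ∧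
      A * (4 * V + 2) ^ (1 / p) ≤ C * ℓ ^ θ ∧ Λ ≤ C * ℓ ^ 2 ∧ B₁ ≤ C * ℓ ^ 2 ∧
    ∀ (X : Type u) (ι : Type v) [Fintype X] [MetricSpace X] [Nonempty X] [Fintype ι]
      (F : X → ι → ℝ), (∀ x y, dist x y ^ p = ∑ i, |F x i - F y i| ^ p) →
      (Fintype.card X : ℝ) ≤ exp ℓ →
      ∃ (σ : ℝ) (J : ℕ) (k kt : ℕ → X → X → ℝ) (a ω : ℕ → X → ℝ),
        Fam p σ A Λ B₁ V J k kt a ω := by
  obtain ⟨κ, C₀, C₁, hκ, hκp, hκ1, hC₀, hC₁, hsc⟩ := scale_any'.{u, v} hp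
  have hp0 : 0 < p := by linarith
  have hpi : 0 < 1 / p := by positivity
  have hpi1 : 1 / p ≤ 1 := (div_le_one hp0).2 hp.le
  obtain ⟨η, hη, hηa, hηb⟩ : ∃ η : ℝ, 0 < η ∧ η ≤ 1 ∧ η ≤ θ - κ - 1 / p :=
    ⟨min 1 (θ - κ - 1 / p), lt_min one_pos (by linarith), min_le_left _ _, min_le_right _ _⟩
  obtain ⟨C₂, hC₂, hm⟩ := dyadic_bound (c := 2 * C₀ + 2 * C₁ + 2) (by positivity) hη
  set C₃ := 4 * ((9 * C₀) ^ p * (2 * C₂ + 8) + 1) + 2 with hC₃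
  have hC₃1 : 1 ≤ C₃ := by
    have : 0 ≤ (9 * C₀) ^ p * (2 * C₂ + 8) := by positivity
    linarith
  have hAC : 0 ≤ (9 + 5120 * C₁) * C₃ := by positivity
  refine ⟨(9 + 5120 * C₁) * C₃ + (13 + 11520 * C₁) + (8 * C₂ + 33), by linarith,
    fun ℓ hℓ => ?_⟩
  obtain ⟨B, hB, hBC, hsc⟩ := hsc ℓ hℓ
  obtain ⟨m, hm1, hm2⟩ := hm ℓ hℓ
  have hℓ0 : 0 < ℓ := by linarith
  have ho : 1 ≤ ℓ ^ κ := one_le_rpow hℓ hκ
  have ho' : ℓ ^ κ ≤ ℓ := by simpa using rpow_le_rpow_of_exponent_le hℓ (by linarith : κ ≤ 1)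
  have hη1 : 1 ≤ ℓ ^ η := one_le_rpow hℓ hη.le
  have hη' : ℓ ^ η ≤ ℓ := by simpa using rpow_le_rpow_of_exponent_le hℓ (by linarith : η ≤ 1)
  have hℓ2 : ℓ ≤ ℓ ^ 2 := by linarith [mul_le_mul_of_nonneg_left hℓ hℓ0.le]
  have hℓη : 1 ≤ ℓ * ℓ ^ η := one_le_mul_of_one_le_of_one_le hℓ hη1
  have hW : 2 * m * ℓ + 8 ≤ (2 * C₂ + 8) * (ℓ * ℓ ^ η) := by
    linarith [mul_le_mul_of_nonneg_right hm2 hℓ0.le]
  have hA : 1 ≤ 9 * ℓ ^ κ + 5120 * B ^ 2 := by linarith [sq_nonneg B]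
  have hΛ : 1 ≤ 13 * ℓ ^ κ + 11520 * B ^ 2 * ℓ := by
    have : 0 ≤ B ^ 2 * ℓ := by positivity
    linarith
  have hM1 : 2 * C₀ ≤ 2 ^ m := le_trans (by
    linarith [mul_le_mul_of_nonneg_left hℓ (by linarith : 0 ≤ C₀),
      mul_nonneg (by linarith : 0 ≤ C₁) hℓ0.le]) hm1
  have hM2 : 2 * (B ^ 2 + 1) ≤ 2 ^ m := by
    refine le_trans ?_ hm1
    have := mul_le_mul_of_nonneg_left ho' (by linarith : 0 ≤ C₁)
    have : 0 ≤ C₀ * ℓ := by positivity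
    linarith
  refine ⟨9 * ℓ ^ κ + 5120 * B ^ 2, 13 * ℓ ^ κ + 11520 * B ^ 2 * ℓ, 4 * (2 * m * ℓ + 8) + 1,
    (9 * C₀) ^ p * (2 * m * ℓ + 8) + 1, hA, hΛ, by positivity, by positivity, ?_, ?_, ?_, ?_⟩
  · have h1 : 4 * ((9 * C₀) ^ p * (2 * m * ℓ + 8) + 1) + 2 ≤ C₃ * ℓ ^ (1 + η) := by
      rw [rpow_add hℓ0, rpow_one, hC₃]
      have := mul_le_mul_of_nonneg_left hW (by positivity : 0 ≤ (9 * C₀) ^ p)
      linarith
    have h2 := rpow_le_rpow (by positivity) h1 hpi.le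
    rw [mul_rpow (x := C₃) (by linarith) (by positivity), ← rpow_mul hℓ0.le] at h2
    have h3 : C₃ ^ (1 / p) ≤ C₃ := by
      simpa using rpow_le_rpow_of_exponent_le hC₃1 hpi1
    have h4 := h2.trans (mul_le_mul_of_nonneg_right h3 (by positivity))
    have h5 : 9 * ℓ ^ κ + 5120 * B ^ 2 ≤ (9 + 5120 * C₁) * ℓ ^ κ := by linarith
    refine (mul_le_mul h5 h4 (by positivity) (by positivity)).trans ?_
    rw [mul_mul_mul_comm, ← rpow_add hℓ0]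
    exact mul_le_mul (by linarith) (rpow_le_rpow_of_exponent_le hℓ
      (by linarith [mul_le_mul_of_nonneg_left hpi1 hη.le])) (by positivity) (by linarith)
  · have h1 : B ^ 2 * ℓ ≤ C₁ * ℓ ^ 2 := by
      linarith [mul_le_mul_of_nonneg_right hBC hℓ0.le,
        mul_le_mul_of_nonneg_left ho' (by positivity : 0 ≤ C₁ * ℓ)]
    linarith [sq_nonneg ℓ, mul_nonneg hAC (sq_nonneg ℓ), mul_nonneg (by linarith : 0 ≤ C₂) (sq_nonneg ℓ)]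
  · have h1 : ℓ * ℓ ^ η ≤ ℓ ^ 2 := by linarith [mul_le_mul_of_nonneg_left hη' hℓ0.le]
    linarith [mul_nonneg hAC (sq_nonneg ℓ), mul_nonneg (by linarith : 0 ≤ C₁) (sq_nonneg ℓ),
      mul_le_mul_of_nonneg_left h1 (by linarith : 0 ≤ 2 * C₂ + 8)]
  intro X ι _ _ _ _ F hF hn
  exact fam_of_scales hp.le hC₀ (by linarith) hΛ hn fun σ hσ =>
    hsc X ι F σ (2 ^ m) hF hn hσ hM1 hM2

theorem finite_embed' {p D γ : ℝ} (hp : 1 < p) (hD : 1 < D)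
    (hγ' : max (1 / p) (1 - 1 / (p * (p - 1))) < γ) : ∃ C : ℝ, 0 ≤ C ∧
    ∀ ℓ : ℝ, 1 ≤ ℓ → ∃ d : ℕ, (d : ℝ) ≤ exp (C * ℓ ^ γ) ∧
    ∀ (X : Type u) (ι : Type v) [Fintype X] [MetricSpace X] [Nonempty X] [Fintype ι]
      (F : X → ι → ℝ), (∀ x y, dist x y ^ p = ∑ i, |F x i - F y i| ^ p) →
      (Fintype.card X : ℝ) ≤ exp ℓ →
      ∃ (f : X → Fin d → ℝ) (s : ℝ), 0 < s ∧ ∀ x y,
        (s * dist x y) ^ p ≤ ∑ j, |f x j - f y j| ^ p ∧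
        ∑ j, |f x j - f y j| ^ p ≤ (D * s * dist x y) ^ p := by
  obtain ⟨θ, η, hθ, hη, rfl⟩ : ∃ θ η : ℝ, max (1 / p) (1 - 1 / (p * (p - 1))) < θ ∧ 0 < η ∧
      γ = θ + η := ⟨(max (1 / p) (1 - 1 / (p * (p - 1))) + γ) / 2,
    (γ - max (1 / p) (1 - 1 / (p * (p - 1)))) / 2, by linarith, by linarith, by ring⟩
  have hθ0 : 0 < θ := lt_trans (lt_max_of_lt_left (by positivity)) hθ
  obtain ⟨C, hC, hfam⟩ := exists_fam'.{u, v} hp hθ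
  obtain ⟨Q, hQ2, hlo, hhi⟩ := exists_Q (p := p) hD
  have hQ2' : (2 : ℝ) ≤ Q := by exact_mod_cast hQ2
  set ε := 1 / (Q : ℝ) with hεd
  have hε : 0 < ε := by positivity
  have hε2 : 2 * ε ≤ 1 := by
    rw [hεd, mul_one_div, div_le_one (by linarith)]
    exact hQ2'
  have hp0 : 0 < p := by linarith
  have hγ : 0 < θ + η := by linarith
  obtain ⟨C₄, hC₄, hlog⟩ := log_bound (c := (8000 / ε * C ^ 2) ^ 2) (a := 8) (by positivity)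
    (by norm_num) hη
  set M : ℝ → ℝ := fun ℓ => 1 + 28 * C * ℓ ^ 2 * (2 / ε * (96 * (ℓ + (3 + 1 / ε)) * (C * ℓ ^ 2) *
    (25 * C * ℓ ^ 2) * exp (2 * Q * (6000 * C₄ * C / ε) * ℓ ^ (θ + η))) ^ p) with hMd
  have hc : ∀ {c : ℝ}, 0 ≤ c → Gr (θ + η) fun _ => c := fun hc => Gr.const hγ hc
  have hi := Gr.id hγ
  have hMg : Gr (θ + η) M :=
    (hc zero_le_one).add hγ (((hc (by positivity)).mul hi.sq).mul ((hc (by positivity)).mul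
      ((((((hc (by norm_num)).mul (hi.add hγ (hc (by positivity)))).mul
        ((hc (by positivity)).mul hi.sq)).mul ((hc (by positivity)).mul hi.sq)).mul
          (Gr.exp (by positivity))).rpow hp0.le)))
  obtain ⟨C', hC', hbd⟩ : Gr (θ + η) fun ℓ => 12 / ε ^ 2 * (M ℓ ^ 2 * ℓ) + 1 :=
    ((hc (by positivity)).mul (hMg.sq.mul hi)).add hγ (hc zero_le_one)
  refine ⟨C', hC', fun ℓ hℓ => ⟨⌈12 / ε ^ 2 * (M ℓ ^ 2 * ℓ)⌉₊,
    (Nat.ceil_lt_add_one (by positivity)).le.trans (hbd ℓ hℓ).2, ?_⟩⟩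
  intro X ι _ _ _ _ F hF hn
  obtain ⟨A, Λ, B₁, V, hA, hΛ, hB, hV, hAY, hΛC, hBC, hfam⟩ := hfam ℓ hℓ
  obtain ⟨σ, J, k, kt, a, ω, h⟩ := hfam X ι F hF hn
  have hℓ0 : 0 < ℓ := by linarith
  obtain ⟨hS1, herr⟩ := err_small (C₄ := C₄) (η := η) hε (by linarith) hC hC₄ hℓ (by positivity)
    hAY (by linarith) hΛC hB hBC rfl (by
      refine le_trans (le_of_eq ?_) (hlog ℓ hℓ)
      rw [show (8 : ℝ) = ((8 : ℕ) : ℝ) by norm_num, rpow_natCast]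
      ring_nf)
  have h1 : 1 ≤ C * ℓ ^ 2 := one_le_mul_of_one_le_of_one_le hC (one_le_pow₀ hℓ)
  have h2 : ℓ ≤ C * ℓ ^ 2 := by
    linarith [mul_le_mul_of_nonneg_left hℓ hℓ0.le, mul_le_mul_of_nonneg_right hC (sq_nonneg ℓ)]
  have hW : 2 ≤ 6000 * C₄ * C / ε * ℓ ^ (θ + η) := by
    have a1 := one_le_mul_of_one_le_of_one_le (one_le_mul_of_one_le_of_one_le hC₄ hC)
      (one_le_rpow hℓ hγ.le)
    rw [div_mul_eq_mul_div, le_div_iff₀ hε]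
    linarith
  have hM1 : 1 ≤ M ℓ := le_add_of_nonneg_right (by positivity)
  obtain ⟨f, c, hc0, hf⟩ := h.embed (M := M ℓ) (K := ⌈2 * ℓ + 24 * B₁ + 1⌉₊)
    (d := ⌈12 / ε ^ 2 * (M ℓ ^ 2 * ℓ)⌉₊) hp.le hℓ hA hΛ hB F hF hn hW hS1 (by omega : 1 ≤ Q)
    (Nat.le_ceil _) herr le_rfl hε2 hM1 (by
      refine le_trans ?_ (le_add_of_nonneg_left zero_le_one)
      have a1 := (Nat.ceil_lt_add_one (by positivity : 0 ≤ 2 * ℓ + 24 * B₁ + 1)).le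
      refine mul_le_mul (by linarith) (mul_le_mul_of_nonneg_left (rpow_le_rpow (by positivity)
        ?_ hp0.le) (by positivity)) (by positivity) (by positivity)
      rw [← add_assoc, mul_assoc (2 * (Q : ℝ))]
      gcongr
      linarith)
    (le_trans (le_of_eq (by ring)) (Nat.le_ceil _))
  set lo := (1 - 2 * ε) * (1 - 2 * ε) ^ p - ε
  refine ⟨f, (c * lo) ^ (1 / p), by positivity, fun x y => ?_⟩
  obtain ⟨f1, f2⟩ := hf x y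
  rw [mul_assoc, mul_rpow (by linarith : 0 ≤ D) (by positivity),
    mul_rpow (by positivity) dist_nonneg, rpow_inv_rpow hp0 (by positivity)]
  refine ⟨f1, f2.trans ?_⟩
  have hDp : D ≤ D ^ p := by simpa using rpow_le_rpow_of_exponent_le hD.le hp.le
  have hcr : 0 ≤ c * dist x y ^ p := by positivity
  linarith [mul_le_mul_of_nonneg_left hhi.le hcr,
    mul_le_mul_of_nonneg_left hDp (mul_nonneg hcr hlo.le)]

end

theorem lp_embed' (p : ℝ≥0∞) [Fact (1 ≤ p)] (hp1 : 1 < p) (hp : p ≠ ∞) (D : ℝ) (hD : 1 < D)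
    {γ : ℝ} (hγ : max (1 / p.toReal) (1 - 1 / (p.toReal * (p.toReal - 1))) < γ) :
    ∃ C : ℝ, ∀ n : ℕ, 2 ≤ n → ∃ d : ℕ, (d : ℝ) ≤ Real.exp (C * Real.log n ^ γ) ∧
      Embeds.{u} p n D d := by
  classical
  have hq : 1 < p.toReal := by
    rw [← ENNReal.toReal_one]
    exact (ENNReal.toReal_lt_toReal ENNReal.one_ne_top hp).2 hp1
  have hq0 : 0 < p.toReal := by linarith
  obtain ⟨C, hC, h⟩ := finite_embed'.{u, u} hq (show 1 < (1 + D) / 2 by linarith) hγ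
  refine ⟨C * 2 ^ γ, fun n hn => ?_⟩
  have hn2 : (2 : ℝ) ≤ n := by exact_mod_cast hn
  have hlog : 1 ≤ 2 * Real.log n := by
    linarith [Real.log_le_log two_pos hn2, Real.log_two_gt_d9]
  obtain ⟨d, hd, h⟩ := h (2 * Real.log n) hlog
  refine ⟨d, by rwa [Real.mul_rpow zero_le_two (by linarith), ← mul_assoc] at hd, ?_⟩
  intro Ω _ μ X hX
  set τ := (D - 1) / (3 * D + 1) with hτ
  have hτ0 : 0 < τ := div_pos (by linarith) (by linarith)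
  have hτ1 : τ < 1 := by rw [hτ, div_lt_one (by linarith)]; linarith
  have hτD : (1 + D) / 2 * (1 + τ) = D * (1 - τ) := by rw [hτ]; field_simp; ring
  obtain ⟨φ, hφ⟩ := approx hp X hτ0
  set Y : Finset (Lp ℝ p μ) := X.image fun x => (φ x : Lp ℝ p μ) with hY
  have hmem : ∀ x ∈ X, (φ x : Lp ℝ p μ) ∈ Y := fun x hx => mem_image_of_mem _ hx
  have hex : ∀ y : Y, ∃ e : Lp.simpleFunc ℝ p μ, (e : Lp ℝ p μ) = y := fun y => by
    obtain ⟨x, -, hx⟩ := mem_image.1 y.2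
    exact ⟨φ x, hx⟩
  choose e he using hex
  obtain ⟨s, F, hF⟩ := simple_rep hp e
  obtain ⟨x₀, hx₀⟩ : X.Nonempty := card_pos.1 (by omega)
  have : Nonempty Y := ⟨⟨_, hmem x₀ hx₀⟩⟩
  obtain ⟨f, c, hc, hf⟩ := h Y s F (fun x y => by rw [← hF, he, he]; rfl) (by
    have h1 : Y.card ≤ n := hX ▸ card_image_le
    have h2 : (n : ℝ) ≤ Real.exp (2 * Real.log n) := by
      rw [two_mul, Real.exp_add, Real.exp_log (by linarith)]
      nlinarith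
    rw [Fintype.card_coe]
    exact le_trans (by exact_mod_cast h1) h2)
  refine ⟨fun x => if hx : x ∈ X then WithLp.toLp p (f ⟨_, hmem x hx⟩) else 0, c * (1 - τ),
    mul_pos hc (by linarith), fun x hx y hy => ?_⟩
  obtain ⟨f1, f2⟩ := hf ⟨_, hmem x hx⟩ ⟨_, hmem y hy⟩
  obtain ⟨g1, g2⟩ := abs_le.1 (hφ x hx y hy)
  rw [Subtype.dist_eq] at f1 f2
  simp only [dif_pos hx, dif_pos hy, PiLp.norm_eq_sum hq0, PiLp.sub_apply, Real.norm_eq_abs]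
  constructor
  · refine le_trans ?_ (le_rpow_inv hq0 (by positivity) f1)
    linarith [mul_le_mul_of_nonneg_left g1 hc.le]
  · refine (rpow_inv_le hq0 (sum_nonneg fun _ _ => by positivity) (by positivity) f2).trans ?_
    have := mul_le_mul_of_nonneg_left g2 (by positivity : 0 ≤ (1 + D) / 2 * c)
    calc _ ≤ (1 + D) / 2 * (1 + τ) * (c * ‖x - y‖) := by linarith
      _ = _ := by rw [hτD]; ring

end Vale.Agent.P249
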